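import Claimed.Agent.R285.Phase.Defs

/-!
# ROW 285, unit FREE / PHASE: package L-PH-RAD = the radial flux [B](2.25) = [C](2.14) = [E](5.22)      (architect helper200, prover helper295; prefix `rf_`)

`rf_main` = `radial_flux` of `Phase/Ratio.lean` with its definitions unfolded.  Sections A-F use Mathlib only.
* A. calculus of `arctan`: `rf_cs` (Cauchy-Schwarz in monotone form, `rfR' = 1/(1+w²)²`), `|rfR| ≤ π/4`, Lipschitz bound, `arctan (b/a) + arctan (a/b) = ± π/2`.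
* B. the angle flux `rfA t u = (arctan ((u+1)/t) - arctan (u/t))/(2π)`: `∑ rfA² ≤ 1/(8π|t|)` (SHARP), `∑ |rfA| ≤ 1/2` (telescoping), mixed second difference, divergence.
* C. sums over half-integers.   D. divergence free extension of boundary data of size `M`, sup norm `≤ 7 M`.   E. abstract energy estimates.
* F. `rf_core`: face fluxes `X, Y : ℕ → ℕ → ℝ`.   G. bridge to `Flux`, `Outer`, `arrK`.
-/

set_option autoImplicit false

namespace Claimed.Agent.R285.Phase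

open Real C2

/-! ## A. calculus of `arctan` -/

/-- antiderivative of `1/(1+w²)²` -/
noncomputable def rfR (w : ℝ) : ℝ := (w / (1 + w ^ 2) + arctan w) / 2

theorem rf_hasDerivAt_frac (w : ℝ) : HasDerivAt (fun w : ℝ => w / (1 + w ^ 2)) ((1 - w ^ 2) / (1 + w ^ 2) ^ 2) w := by
  have h1 : HasDerivAt (fun w : ℝ => 1 + w ^ 2) (2 * w) w := by
    have := (hasDerivAt_pow 2 w).const_add 1
    simpa using this
  have hne : (1 + w ^ 2) ≠ 0 := by positivity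
  have := (hasDerivAt_id' w).div h1 hne
  refine this.congr_deriv ?_
  ring

theorem rf_hasDerivAt_R (w : ℝ) : HasDerivAt rfR (1 / (1 + w ^ 2) ^ 2) w := by
  have := ((rf_hasDerivAt_frac w).add (hasDerivAt_arctan w)).div_const 2
  refine this.congr_deriv ?_
  have hne : (1 + w ^ 2) ≠ 0 := by positivity
  field_simp
  ring

/-- Cauchy-Schwarz in monotone form -/
theorem rf_cs {a b : ℝ} (h : a ≤ b) : (arctan b - arctan a) ^ 2 ≤ (b - a) * (rfR b - rfR a) := by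
  rcases h.eq_or_lt with rfl | hlt
  · simp
  have key : ∀ m : ℝ, 0 ≤ (rfR b - rfR a) - 2 * m * (arctan b - arctan a) + m ^ 2 * (b - a) := by
    intro m
    have hd : ∀ w, HasDerivAt (fun w => rfR w - 2 * m * arctan w + m ^ 2 * w) ((1 / (1 + w ^ 2) - m) ^ 2) w := by
      intro w
      have := ((rf_hasDerivAt_R w).sub ((hasDerivAt_arctan w).const_mul (2 * m))).add
        ((hasDerivAt_id' w).const_mul (m ^ 2))
      refine this.congr_deriv ?_
      have hne : (1 + w ^ 2) ≠ 0 := by positivity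
      field_simp
      ring
    have hm : Monotone (fun w => rfR w - 2 * m * arctan w + m ^ 2 * w) :=
      monotone_of_deriv_nonneg (fun w => (hd w).differentiableAt) (fun w => by rw [(hd w).deriv]; positivity)
    have := hm h
    simp only at this
    linarith
  have hba : 0 < b - a := by linarith
  have := key ((arctan b - arctan a) / (b - a))
  have e : (rfR b - rfR a) - 2 * ((arctan b - arctan a) / (b - a)) * (arctan b - arctan a)
      + ((arctan b - arctan a) / (b - a)) ^ 2 * (b - a) =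
      (rfR b - rfR a) - (arctan b - arctan a) ^ 2 / (b - a) := by
    field_simp
    ring
  rw [e] at this
  have h2 : (arctan b - arctan a) ^ 2 / (b - a) ≤ rfR b - rfR a := by linarith
  rw [div_le_iff₀ hba] at h2
  linarith

theorem rf_frac_le_arctan {z : ℝ} (hz : 0 ≤ z) : z / (1 + z ^ 2) ≤ arctan z := by
  have hd : ∀ w, HasDerivAt (fun w => arctan w - w / (1 + w ^ 2)) (2 * w ^ 2 / (1 + w ^ 2) ^ 2) w := by
    intro w
    have := (hasDerivAt_arctan w).sub (rf_hasDerivAt_frac w)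
    refine this.congr_deriv ?_
    have hne : (1 + w ^ 2) ≠ 0 := by positivity
    field_simp
    ring
  have hm : Monotone (fun w => arctan w - w / (1 + w ^ 2)) :=
    monotone_of_deriv_nonneg (fun w => (hd w).differentiableAt) (fun w => by rw [(hd w).deriv]; positivity)
  have := hm hz
  simp only [arctan_zero, zero_div, sub_zero] at this
  linarith

theorem rf_R_le (w : ℝ) : rfR w ≤ π / 4 := by
  unfold rfR
  rcases le_or_gt w 0 with h | h
  · have h1 : w / (1 + w ^ 2) ≤ 0 := div_nonpos_of_nonpos_of_nonneg h (by positivity)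
    have h2 : arctan w ≤ 0 := by
      have := arctan_strictMono.monotone h
      rwa [arctan_zero] at this
    have := pi_pos
    linarith
  · have h1 := rf_frac_le_arctan (z := w⁻¹) (by positivity)
    rw [arctan_inv_of_pos h] at h1
    have e : w⁻¹ / (1 + w⁻¹ ^ 2) = w / (1 + w ^ 2) := by
      field_simp
      ring
    rw [e] at h1
    linarith

theorem rf_R_neg (w : ℝ) : rfR (-w) = - rfR w := by
  unfold rfR
  rw [arctan_neg]
  have : (-w) ^ 2 = w ^ 2 := by ring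
  rw [this]
  ring

theorem rf_R_ge (w : ℝ) : -(π / 4) ≤ rfR w := by
  have := rf_R_le (-w)
  rw [rf_R_neg] at this
  linarith

theorem rf_arctan_sub_nonneg {a b : ℝ} (h : a ≤ b) : 0 ≤ arctan b - arctan a :=
  sub_nonneg.2 (arctan_strictMono.monotone h)

theorem rf_arctan_sub_le {a b : ℝ} (h : a ≤ b) : arctan b - arctan a ≤ b - a := by
  have hd : ∀ w, HasDerivAt (fun w => w - arctan w) (1 - 1 / (1 + w ^ 2)) w := fun w =>
    (hasDerivAt_id' w).sub (hasDerivAt_arctan w)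
  have hm : Monotone (fun w => w - arctan w) :=
    monotone_of_deriv_nonneg (fun w => (hd w).differentiableAt) (fun w => by
      rw [(hd w).deriv]
      have : 1 / (1 + w ^ 2) ≤ 1 := by
        rw [div_le_one (by positivity)]
        nlinarith [sq_nonneg w]
      linarith)
  have := hm h
  simp only at this
  linarith

/-- `arctan (b/a) + arctan (a/b)` -/
theorem rf_J_pos {a b : ℝ} (h : 0 < a * b) : arctan (b / a) + arctan (a / b) = π / 2 := by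
  have hab : 0 < b / a := by
    rcases pos_and_pos_or_neg_and_neg_of_mul_pos h with ⟨h1, h2⟩ | ⟨h1, h2⟩
    · exact div_pos h2 h1
    · exact div_pos_of_neg_of_neg h2 h1
  have := arctan_inv_of_pos hab
  rw [inv_div] at this
  linarith

theorem rf_J_neg {a b : ℝ} (h : a * b < 0) : arctan (b / a) + arctan (a / b) = -(π / 2) := by
  have hab : b / a < 0 := by
    rcases mul_neg_iff.1 h with ⟨h1, h2⟩ | ⟨h1, h2⟩
    · exact div_neg_of_neg_of_pos h2 h1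
    · exact div_neg_of_pos_of_neg h2 h1
  have := arctan_inv_of_neg hab
  rw [inv_div] at this
  linarith


/-! ## B. the angle flux -/

/-- the angle flux through the unit segment `{t} × [u, u+1]` seen from the origin -/
noncomputable def rfA (t u : ℝ) : ℝ := (arctan ((u + 1) / t) - arctan (u / t)) / (2 * π)

theorem rf_A_neg (t u : ℝ) : rfA (-t) u = - rfA t u := by
  unfold rfA
  rw [div_neg, div_neg, arctan_neg, arctan_neg]
  ring

theorem rf_A_nonneg {t : ℝ} (ht : 0 < t) (u : ℝ) : 0 ≤ rfA t u := by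
  unfold rfA
  have : u / t ≤ (u + 1) / t := div_le_div_of_nonneg_right (by linarith) ht.le
  exact div_nonneg (rf_arctan_sub_nonneg this) (by positivity)

theorem rf_A_abs_le_half (t u : ℝ) : |rfA t u| ≤ 1 / 2 := by
  unfold rfA
  have hp := pi_pos
  rw [abs_div, abs_of_pos (by positivity : (0 : ℝ) < 2 * π), div_le_iff₀ (by positivity)]
  have h1 := arctan_lt_pi_div_two ((u + 1) / t)
  have h2 := neg_pi_div_two_lt_arctan ((u + 1) / t)
  have h3 := arctan_lt_pi_div_two (u / t)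
  have h4 := neg_pi_div_two_lt_arctan (u / t)
  rw [abs_le]
  constructor <;> linarith

theorem rf_A_le_pos {t : ℝ} (ht : 0 < t) (u : ℝ) : rfA t u ≤ 1 / (2 * π * t) := by
  unfold rfA
  have hp := pi_pos
  have h : u / t ≤ (u + 1) / t := div_le_div_of_nonneg_right (by linarith) ht.le
  have h2 := rf_arctan_sub_le h
  have e : (u + 1) / t - u / t = 1 / t := by field_simp; ring
  rw [e] at h2
  calc (arctan ((u + 1) / t) - arctan (u / t)) / (2 * π) ≤ (1 / t) / (2 * π) :=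
        div_le_div_of_nonneg_right h2 (by positivity)
    _ = 1 / (2 * π * t) := by field_simp

theorem rf_A_abs_le {t : ℝ} (ht : t ≠ 0) (u : ℝ) : |rfA t u| ≤ 1 / (2 * π * |t|) := by
  rcases lt_or_gt_of_ne ht with h | h
  · have h' : 0 < -t := by linarith
    have e : rfA t u = - rfA (-t) u := by rw [rf_A_neg]; ring
    rw [e, abs_neg, abs_of_nonneg (rf_A_nonneg h' u), abs_of_neg h]
    exact rf_A_le_pos h' u
  · rw [abs_of_nonneg (rf_A_nonneg h u), abs_of_pos h]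
    exact rf_A_le_pos h u

theorem rf_A_sum_sq_pos {t : ℝ} (ht : 0 < t) (u₀ : ℝ) (n : ℕ) :
    ∑ l ∈ Finset.range n, rfA t (u₀ + l) ^ 2 ≤ 1 / (8 * π * t) := by
  have hp := pi_pos
  have h1 : ∀ l ∈ Finset.range n, rfA t (u₀ + l) ^ 2 ≤
      (rfR ((u₀ + ((l + 1 : ℕ) : ℝ)) / t) - rfR ((u₀ + (l : ℝ)) / t)) / (4 * π ^ 2 * t) := by
    intro l _
    have h : (u₀ + l) / t ≤ (u₀ + l + 1) / t := div_le_div_of_nonneg_right (by linarith) ht.le
    have h2 := rf_cs h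
    have e : (u₀ + l + 1) / t - (u₀ + l) / t = 1 / t := by field_simp; ring
    rw [e] at h2
    unfold rfA
    have e2 : u₀ + ((l + 1 : ℕ) : ℝ) = u₀ + l + 1 := by push_cast; ring
    rw [e2, div_pow]
    calc (arctan ((u₀ + l + 1) / t) - arctan ((u₀ + l) / t)) ^ 2 / (2 * π) ^ 2
        ≤ (1 / t * (rfR ((u₀ + l + 1) / t) - rfR ((u₀ + l) / t))) / (2 * π) ^ 2 :=
          div_le_div_of_nonneg_right h2 (by positivity)
      _ = _ := by field_simp; ring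
  refine (Finset.sum_le_sum h1).trans ?_
  rw [← Finset.sum_div, Finset.sum_range_sub (fun l : ℕ => rfR ((u₀ + (l : ℝ)) / t))]
  have a1 := rf_R_le ((u₀ + (n : ℝ)) / t)
  have a2 := rf_R_ge ((u₀ + ((0 : ℕ) : ℝ)) / t)
  calc _ ≤ (π / 2) / (4 * π ^ 2 * t) := div_le_div_of_nonneg_right (by linarith) (by positivity)
    _ = 1 / (8 * π * t) := by field_simp; ring

theorem rf_A_sum_sq {t : ℝ} (ht : t ≠ 0) (u₀ : ℝ) (n : ℕ) :
    ∑ l ∈ Finset.range n, rfA t (u₀ + l) ^ 2 ≤ 1 / (8 * π * |t|) := by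
  rcases lt_or_gt_of_ne ht with h | h
  · have h' : 0 < -t := by linarith
    have e : ∀ l : ℕ, rfA t (u₀ + l) ^ 2 = rfA (-t) (u₀ + l) ^ 2 := fun l => by rw [rf_A_neg]; ring
    simp only [e]
    rw [abs_of_neg h]
    exact rf_A_sum_sq_pos h' u₀ n
  · rw [abs_of_pos h]
    exact rf_A_sum_sq_pos h u₀ n

theorem rf_A_sum_abs_pos {t : ℝ} (ht : 0 < t) (u₀ : ℝ) (n : ℕ) :
    ∑ l ∈ Finset.range n, |rfA t (u₀ + l)| ≤ 1 / 2 := by
  have hp := pi_pos
  have h1 : ∀ l ∈ Finset.range n, |rfA t (u₀ + l)| =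
      (arctan ((u₀ + ((l + 1 : ℕ) : ℝ)) / t) - arctan ((u₀ + (l : ℝ)) / t)) / (2 * π) := by
    intro l _
    rw [abs_of_nonneg (rf_A_nonneg ht _)]
    unfold rfA
    have e2 : u₀ + ((l + 1 : ℕ) : ℝ) = u₀ + l + 1 := by push_cast; ring
    rw [e2]
  rw [Finset.sum_congr rfl h1, ← Finset.sum_div,
    Finset.sum_range_sub (fun l : ℕ => arctan ((u₀ + (l : ℝ)) / t))]
  have a1 := arctan_lt_pi_div_two ((u₀ + (n : ℝ)) / t)
  have a2 := neg_pi_div_two_lt_arctan ((u₀ + ((0 : ℕ) : ℝ)) / t)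
  rw [div_le_iff₀ (by positivity)]
  linarith

theorem rf_A_sum_abs {t : ℝ} (ht : t ≠ 0) (u₀ : ℝ) (n : ℕ) :
    ∑ l ∈ Finset.range n, |rfA t (u₀ + l)| ≤ 1 / 2 := by
  rcases lt_or_gt_of_ne ht with h | h
  · have h' : 0 < -t := by linarith
    have e : ∀ l : ℕ, |rfA t (u₀ + l)| = |rfA (-t) (u₀ + l)| := fun l => by rw [rf_A_neg, abs_neg]
    simp only [e]
    exact rf_A_sum_abs_pos h' u₀ n
  · exact rf_A_sum_abs_pos h u₀ n

/-! ### the mixed second difference -/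

theorem rf_hasDerivAt_at (v τ : ℝ) (hτ : τ ≠ 0) :
    HasDerivAt (fun τ : ℝ => arctan (v / τ)) (-v / (τ ^ 2 + v ^ 2)) τ := by
  have h1 : HasDerivAt (fun τ : ℝ => v / τ) ((0 * τ - v * 1) / τ ^ 2) τ :=
    (hasDerivAt_const τ v).div (hasDerivAt_id' τ) hτ
  refine h1.arctan.congr_deriv ?_
  have h2 : τ ^ 2 + v ^ 2 ≠ 0 := by positivity
  field_simp
  ring

theorem rf_deriv_bound {t τ u m : ℝ} (ht : 0 < t) (hτ : t ≤ τ) (hm : 0 ≤ m) (h1 : m ≤ u ^ 2)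
    (h2 : m ≤ (u + 1) ^ 2) :
    |-(u + 1) / (τ ^ 2 + (u + 1) ^ 2) - -u / (τ ^ 2 + u ^ 2)| ≤ 1 / (t ^ 2 + m) := by
  have hτ0 : 0 < τ := lt_of_lt_of_le ht hτ
  have htt : t ^ 2 ≤ τ ^ 2 := by nlinarith
  have hP : 0 < τ ^ 2 + u ^ 2 := by positivity
  have hP' : 0 < τ ^ 2 + (u + 1) ^ 2 := by positivity
  have hm0 : 0 < t ^ 2 + m := by positivity
  have e : -(u + 1) / (τ ^ 2 + (u + 1) ^ 2) - -u / (τ ^ 2 + u ^ 2) =
      (u * (u + 1) - τ ^ 2) / ((τ ^ 2 + u ^ 2) * (τ ^ 2 + (u + 1) ^ 2)) := by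
    field_simp
    ring
  rw [e, abs_div, abs_of_pos (mul_pos hP hP')]
  rcases le_or_gt (-(1 / 2)) u with hu | hu
  · have hN : |u * (u + 1) - τ ^ 2| ≤ τ ^ 2 + (u + 1) ^ 2 := by
      rw [abs_le]; constructor <;> nlinarith
    calc _ ≤ (τ ^ 2 + (u + 1) ^ 2) / ((τ ^ 2 + u ^ 2) * (τ ^ 2 + (u + 1) ^ 2)) :=
          div_le_div_of_nonneg_right hN (mul_pos hP hP').le
      _ = 1 / (τ ^ 2 + u ^ 2) := by field_simp
      _ ≤ 1 / (t ^ 2 + m) := one_div_le_one_div_of_le hm0 (by linarith)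
  · have hN : |u * (u + 1) - τ ^ 2| ≤ τ ^ 2 + u ^ 2 := by
      rw [abs_le]; constructor <;> nlinarith
    calc _ ≤ (τ ^ 2 + u ^ 2) / ((τ ^ 2 + u ^ 2) * (τ ^ 2 + (u + 1) ^ 2)) :=
          div_le_div_of_nonneg_right hN (mul_pos hP hP').le
      _ = 1 / (τ ^ 2 + (u + 1) ^ 2) := by field_simp
      _ ≤ 1 / (t ^ 2 + m) := one_div_le_one_div_of_le hm0 (by linarith)

theorem rf_A_diff_pos {t u m : ℝ} (ht : 0 < t) (hm : 0 ≤ m) (h1 : m ≤ u ^ 2) (h2 : m ≤ (u + 1) ^ 2) :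
    |rfA (t + 1) u - rfA t u| ≤ 1 / (2 * π * (t ^ 2 + m)) := by
  have hp := pi_pos
  have hm0 : 0 < t ^ 2 + m := by positivity
  have hd : ∀ τ ∈ Set.Icc t (t + 1), HasDerivWithinAt (fun τ : ℝ => arctan ((u + 1) / τ) - arctan (u / τ))
      (-(u + 1) / (τ ^ 2 + (u + 1) ^ 2) - -u / (τ ^ 2 + u ^ 2)) (Set.Icc t (t + 1)) τ := by
    intro τ hτ
    have hτ0 : τ ≠ 0 := (lt_of_lt_of_le ht hτ.1).ne'
    exact ((rf_hasDerivAt_at (u + 1) τ hτ0).sub (rf_hasDerivAt_at u τ hτ0)).hasDerivWithinAt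
  have := Convex.norm_image_sub_le_of_norm_hasDerivWithin_le hd
    (fun τ hτ => by rw [Real.norm_eq_abs]; exact rf_deriv_bound ht hτ.1 hm h1 h2) (convex_Icc t (t + 1))
    (Set.left_mem_Icc.2 (by linarith)) (Set.right_mem_Icc.2 (by linarith))
  rw [Real.norm_eq_abs, Real.norm_eq_abs] at this
  have e1 : |t + 1 - t| = 1 := by norm_num
  rw [e1, mul_one] at this
  have e2 : rfA (t + 1) u - rfA t u =
      ((arctan ((u + 1) / (t + 1)) - arctan (u / (t + 1))) - (arctan ((u + 1) / t) - arctan (u / t))) / (2 * π) := by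
    unfold rfA; ring
  rw [e2, abs_div, abs_of_pos (by positivity : (0 : ℝ) < 2 * π)]
  calc _ ≤ (1 / (t ^ 2 + m)) / (2 * π) := div_le_div_of_nonneg_right this (by positivity)
    _ = _ := by field_simp

/-- the weight of a column -/
noncomputable def rfW (s : ℝ) : ℝ := 1 / s ^ 2 + 1 / (s + 1) ^ 2

theorem rf_W_nonneg (s : ℝ) : 0 ≤ rfW s := by unfold rfW; positivity

theorem rf_A_diff_sq_pos {t u : ℝ} (ht : 0 < t) (hu : u ≠ 0) (hu' : u + 1 ≠ 0) :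
    (rfA (t + 1) u - rfA t u) ^ 2 ≤ (1 / t ^ 2) * rfW u / 16 := by
  have hp := pi_gt_three
  obtain ⟨m, hm0, hm1, hm2, hmW⟩ : ∃ m : ℝ, 0 < m ∧ m ≤ u ^ 2 ∧ m ≤ (u + 1) ^ 2 ∧ 1 / m ≤ rfW u := by
    have p1 : 0 < u ^ 2 := by positivity
    have p2 : 0 < (u + 1) ^ 2 := by positivity
    rcases le_total (u ^ 2) ((u + 1) ^ 2) with h | h
    · refine ⟨u ^ 2, p1, le_rfl, h, ?_⟩
      unfold rfW
      have : 0 ≤ 1 / (u + 1) ^ 2 := by positivity
      linarith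
    · refine ⟨(u + 1) ^ 2, p2, h, le_rfl, ?_⟩
      unfold rfW
      have : 0 ≤ 1 / u ^ 2 := by positivity
      linarith
  have h := rf_A_diff_pos ht hm0.le hm1 hm2
  have ht2 : 0 < t ^ 2 := by positivity
  have h3 : (rfA (t + 1) u - rfA t u) ^ 2 ≤ (1 / (2 * π * (t ^ 2 + m))) ^ 2 := by
    rw [← sq_abs]
    exact pow_le_pow_left₀ (abs_nonneg _) h 2
  have h4 : (1 / (2 * π * (t ^ 2 + m))) ^ 2 ≤ (1 / t ^ 2) * (1 / m) / 16 := by
    have e : (1 / t ^ 2) * (1 / m) / 16 = 1 / (16 * (t ^ 2 * m)) := by field_simp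
    rw [e, div_pow, one_pow]
    refine one_div_le_one_div_of_le (by positivity) ?_
    have : 4 * (t ^ 2 * m) ≤ (t ^ 2 + m) ^ 2 := by nlinarith [sq_nonneg (t ^ 2 - m)]
    have h5 : (4 : ℝ) ≤ (2 * π) ^ 2 := by nlinarith
    calc 16 * (t ^ 2 * m) = 4 * (4 * (t ^ 2 * m)) := by ring
      _ ≤ (2 * π) ^ 2 * (t ^ 2 + m) ^ 2 := mul_le_mul h5 this (by positivity) (by positivity)
      _ = (2 * π * (t ^ 2 + m)) ^ 2 := by ring
  refine h3.trans (h4.trans ?_)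
  have : (1 / t ^ 2) * (1 / m) ≤ (1 / t ^ 2) * rfW u := mul_le_mul_of_nonneg_left hmW (by positivity)
  linarith

theorem rf_A_diff_sq {s u : ℝ} (hs : 0 < s * (s + 1)) (hu : u ≠ 0) (hu' : u + 1 ≠ 0) :
    (rfA (s + 1) u - rfA s u) ^ 2 ≤ rfW s * rfW u / 16 := by
  have hW := rf_W_nonneg u
  rcases pos_and_pos_or_neg_and_neg_of_mul_pos hs with ⟨h1, h2⟩ | ⟨h1, h2⟩
  · refine (rf_A_diff_sq_pos h1 hu hu').trans ?_
    have : 1 / s ^ 2 ≤ rfW s := by
      unfold rfW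
      have : 0 ≤ 1 / (s + 1) ^ 2 := by positivity
      linarith
    have := mul_le_mul_of_nonneg_right this hW
    linarith
  · have ht : 0 < -(s + 1) := by linarith
    have h := rf_A_diff_sq_pos ht hu hu'
    have e1 : -(s + 1) + 1 = -s := by ring
    rw [e1, rf_A_neg, rf_A_neg] at h
    have e2 : (-rfA s u - -rfA (s + 1) u) ^ 2 = (rfA (s + 1) u - rfA s u) ^ 2 := by ring
    have e3 : (-(s + 1)) ^ 2 = (s + 1) ^ 2 := by ring
    rw [e2, e3] at h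
    refine h.trans ?_
    have : 1 / (s + 1) ^ 2 ≤ rfW s := by
      unfold rfW
      have : 0 ≤ 1 / s ^ 2 := by positivity
      linarith
    have := mul_le_mul_of_nonneg_right this hW
    linarith

/-! ### the divergence -/

theorem rf_J_congr {a a' b : ℝ} (h : 0 < a * a') (hb : b ≠ 0) :
    arctan (b / a) + arctan (a / b) = arctan (b / a') + arctan (a' / b) := by
  have ha : a ≠ 0 := left_ne_zero_of_mul h.ne'
  have hb2 : 0 < b ^ 2 := by positivity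
  rcases lt_or_gt_of_ne (mul_ne_zero ha hb) with h1 | h1
  · have h2 : a' * b < 0 := by
      by_contra hc
      have hc' : 0 ≤ a' * b := not_lt.1 hc
      have : (a * b) * (a' * b) ≤ 0 := mul_nonpos_of_nonpos_of_nonneg h1.le hc'
      have e : (a * b) * (a' * b) = (a * a') * b ^ 2 := by ring
      rw [e] at this
      exact absurd (mul_pos h hb2) (not_lt.2 this)
    rw [rf_J_neg h1, rf_J_neg h2]
  · have h2 : 0 < a' * b := by
      by_contra hc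
      have hc' : a' * b ≤ 0 := not_lt.1 hc
      have : (a * b) * (a' * b) ≤ 0 := mul_nonpos_of_nonneg_of_nonpos h1.le hc'
      have e : (a * b) * (a' * b) = (a * a') * b ^ 2 := by ring
      rw [e] at this
      exact absurd (mul_pos h hb2) (not_lt.2 this)
    rw [rf_J_pos h1, rf_J_pos h2]

theorem rf_A_div_zero {s u : ℝ} (hs : 0 < s * (s + 1)) (hu : u ≠ 0) (hu' : u + 1 ≠ 0) :
    rfA (s + 1) u - rfA s u + (rfA (u + 1) s - rfA u s) = 0 := by
  have j1 := rf_J_congr hs hu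
  have j2 := rf_J_congr hs hu'
  have hp := pi_pos
  unfold rfA
  have : (arctan ((u + 1) / (s + 1)) - arctan (u / (s + 1))) - (arctan ((u + 1) / s) - arctan (u / s))
      + ((arctan ((s + 1) / (u + 1)) - arctan (s / (u + 1))) - (arctan ((s + 1) / u) - arctan (s / u))) = 0 := by
    linarith
  have e : (arctan ((u + 1) / (s + 1)) - arctan (u / (s + 1))) / (2 * π) - (arctan ((u + 1) / s) - arctan (u / s)) / (2 * π)
      + ((arctan ((s + 1) / (u + 1)) - arctan (s / (u + 1))) / (2 * π) - (arctan ((s + 1) / u) - arctan (s / u)) / (2 * π)) =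
      ((arctan ((u + 1) / (s + 1)) - arctan (u / (s + 1))) - (arctan ((u + 1) / s) - arctan (u / s))
      + ((arctan ((s + 1) / (u + 1)) - arctan (s / (u + 1))) - (arctan ((s + 1) / u) - arctan (s / u)))) / (2 * π) := by
    ring
  rw [e, this, zero_div]

theorem rf_A_half : rfA (1 / 2) (-(1 / 2)) = 1 / 4 := by
  unfold rfA
  have e1 : (-(1 / 2) + 1) / (1 / 2 : ℝ) = 1 := by norm_num
  have e2 : (-(1 / 2)) / (1 / 2 : ℝ) = -1 := by norm_num
  rw [e1, e2, arctan_neg, arctan_one]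
  have hp := pi_pos
  field_simp
  ring


/-! ## C. sums over half-integers -/

theorem rf_sum_inv (n : ℕ) (hn : 1 ≤ n) : ∑ j ∈ Finset.range n, 1 / ((j : ℝ) + 1 / 2) ≤ 2 + Real.log n := by
  induction n, hn using Nat.le_induction with
  | base => norm_num
  | succ n hn ih =>
    rw [Finset.sum_range_succ]
    have hn0 : (0 : ℝ) < n := by exact_mod_cast hn
    have h := Real.le_log_one_add_of_nonneg (x := 1 / (n : ℝ)) (by positivity)
    have e1 : 2 * (1 / (n : ℝ)) / (1 / (n : ℝ) + 2) = 1 / ((n : ℝ) + 1 / 2) := by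
      field_simp
      ring
    have e2 : Real.log ((n + 1 : ℕ) : ℝ) = Real.log n + Real.log (1 + 1 / (n : ℝ)) := by
      rw [← Real.log_mul hn0.ne' (by positivity)]
      congr 1
      push_cast
      field_simp
    rw [e1] at h
    rw [e2]
    linarith

theorem rf_sum_inv_le (n G : ℕ) (hn : n ≤ G) :
    ∑ j ∈ Finset.range n, 1 / ((j : ℝ) + 1 / 2) ≤ 2 + Real.log G := by
  have hG0 : (0 : ℝ) ≤ Real.log G := Real.log_natCast_nonneg G
  rcases Nat.eq_zero_or_pos n with rfl | h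
  · simp; linarith
  · refine (rf_sum_inv n h).trans ?_
    have : Real.log n ≤ Real.log G := Real.log_le_log (by exact_mod_cast h) (by exact_mod_cast hn)
    linarith

theorem rf_sum_inv_sq (n : ℕ) : ∑ j ∈ Finset.range n, 1 / ((j : ℝ) + 1 / 2) ^ 2 ≤ 5 := by
  rcases Nat.eq_zero_or_pos n with rfl | hn
  · simp
  have : ∑ j ∈ Finset.range n, 1 / ((j : ℝ) + 1 / 2) ^ 2 ≤ 5 - 1 / (n : ℝ) := by
    induction n, hn using Nat.le_induction with
    | base => norm_num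
    | succ n hn ih =>
      rw [Finset.sum_range_succ]
      have hn0 : (0 : ℝ) < n := by exact_mod_cast hn
      have h : 1 / ((n : ℝ) + 1 / 2) ^ 2 ≤ 1 / (n : ℝ) - 1 / ((n + 1 : ℕ) : ℝ) := by
        have e : 1 / (n : ℝ) - 1 / ((n + 1 : ℕ) : ℝ) = 1 / ((n : ℝ) * (n + 1)) := by
          push_cast
          field_simp
          ring
        rw [e]
        exact one_div_le_one_div_of_le (by positivity) (by nlinarith)
      linarith
  have h2 : (0 : ℝ) ≤ 1 / (n : ℝ) := by positivity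
  linarith

/-- splitting a sum at the centre -/
theorem rf_split (f : ℝ → ℝ) (n₀ r : ℕ) :
    ∑ k ∈ Finset.range (n₀ + 1 + r), f |(k : ℝ) - ((n₀ : ℝ) + 1 / 2)| =
      ∑ j ∈ Finset.range (n₀ + 1), f ((j : ℝ) + 1 / 2) + ∑ j ∈ Finset.range r, f ((j : ℝ) + 1 / 2) := by
  rw [Finset.sum_range_add]
  congr 1
  · rw [← Finset.sum_range_reflect (fun j : ℕ => f ((j : ℝ) + 1 / 2))]
    refine Finset.sum_congr rfl fun k hk => ?_
    have hk' : k ≤ n₀ := Nat.lt_succ_iff.1 (Finset.mem_range.1 hk)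
    have e : ((n₀ + 1 - 1 - k : ℕ) : ℝ) = (n₀ : ℝ) - k := by
      rw [Nat.add_sub_cancel, Nat.cast_sub hk']
    have hk'' : (k : ℝ) ≤ n₀ := by exact_mod_cast hk'
    rw [e, abs_of_neg (by linarith)]
    congr 1
    ring
  · refine Finset.sum_congr rfl fun j _ => ?_
    have hj : (0 : ℝ) ≤ j := Nat.cast_nonneg j
    have e : ((n₀ + 1 + j : ℕ) : ℝ) - ((n₀ : ℝ) + 1 / 2) = (j : ℝ) + 1 / 2 := by
      push_cast; ring
    rw [e, abs_of_pos (by linarith)]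

theorem rf_sum_abs_inv (n₀ r G : ℕ) (h1 : n₀ + 1 ≤ G) (h2 : r ≤ G) :
    ∑ k ∈ Finset.range (n₀ + 1 + r), 1 / |(k : ℝ) - ((n₀ : ℝ) + 1 / 2)| ≤ 4 + 2 * Real.log G := by
  rw [rf_split (fun x => 1 / x)]
  have a1 := rf_sum_inv_le (n₀ + 1) G h1
  have a2 := rf_sum_inv_le r G h2
  linarith

theorem rf_sum_sq_inv (n₀ r : ℕ) :
    ∑ k ∈ Finset.range (n₀ + 1 + r), 1 / ((k : ℝ) - ((n₀ : ℝ) + 1 / 2)) ^ 2 ≤ 10 := by
  have e : ∀ k : ℕ, 1 / ((k : ℝ) - ((n₀ : ℝ) + 1 / 2)) ^ 2 = (fun x : ℝ => 1 / x ^ 2) |(k : ℝ) - ((n₀ : ℝ) + 1 / 2)| := by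
    intro k
    simp only [sq_abs]
  simp only [e]
  rw [rf_split (fun x => 1 / x ^ 2)]
  have a1 := rf_sum_inv_sq (n₀ + 1)
  have a2 := rf_sum_inv_sq r
  linarith

/-- sums over faces dominate sums over cells -/
theorem rf_sum_succ_le (a : ℕ → ℝ) (ha : ∀ k, 0 ≤ a k) (G : ℕ) :
    ∑ k ∈ Finset.range G, (a (k + 1) + a k) / 2 ≤ ∑ k ∈ Finset.range (G + 1), a k := by
  have h1 : ∑ k ∈ Finset.range G, a (k + 1) ≤ ∑ k ∈ Finset.range (G + 1), a k := by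
    rw [Finset.sum_range_succ']
    linarith [ha 0]
  have h2 : ∑ k ∈ Finset.range G, a k ≤ ∑ k ∈ Finset.range (G + 1), a k := by
    rw [Finset.sum_range_succ]
    linarith [ha G]
  rw [← Finset.sum_div, Finset.sum_add_distrib]
  linarith

/-! ## D. divergence free extension of boundary data -/

theorem rf_corr_bd (G : ℕ) (hG : 0 < G) (d₀ d₁ M σb : ℝ) (σ : ℕ → ℝ) (h0 : |d₀| ≤ M) (h1 : |d₁| ≤ M)
    (hσ : ∀ k < G, |σ k| ≤ 2 * M / G) (hσb : |σb| ≤ 2 * M / G) (k : ℕ) (hk : k ≤ G) :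
    |d₀ + k * ((d₁ - d₀) / G) - ∑ k' ∈ Finset.range k, (σ k' - σb)| ≤ 7 * M := by
  have hG0 : (0 : ℝ) < G := by exact_mod_cast hG
  have hM : 0 ≤ M := (abs_nonneg _).trans h0
  have hkG : (k : ℝ) ≤ G := by exact_mod_cast hk
  have hk0 : (0 : ℝ) ≤ k := Nat.cast_nonneg k
  have a1 : |(k : ℝ) * ((d₁ - d₀) / G)| ≤ 2 * M := by
    rw [abs_mul, abs_div, abs_of_nonneg hk0, abs_of_pos hG0]
    have : |d₁ - d₀| ≤ 2 * M := (abs_sub _ _).trans (by linarith)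
    calc (k : ℝ) * (|d₁ - d₀| / G) ≤ G * ((2 * M) / G) :=
          mul_le_mul hkG (div_le_div_of_nonneg_right this hG0.le) (by positivity) hG0.le
      _ = 2 * M := by field_simp
  have a2 : |∑ k' ∈ Finset.range k, (σ k' - σb)| ≤ 4 * M := by
    have : ∀ k' ∈ Finset.range k, |σ k' - σb| ≤ 4 * M / G := by
      intro k' hk'
      have := hσ k' (lt_of_lt_of_le (Finset.mem_range.1 hk') hk)
      calc |σ k' - σb| ≤ |σ k'| + |σb| := abs_sub _ _
        _ ≤ 2 * M / G + 2 * M / G := add_le_add this hσb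
        _ = 4 * M / G := by ring
    calc _ ≤ ∑ k' ∈ Finset.range k, |σ k' - σb| := Finset.abs_sum_le_sum_abs _ _
      _ ≤ (Finset.range k).card • (4 * M / G) := Finset.sum_le_card_nsmul _ _ _ this
      _ = k * (4 * M / G) := by rw [Finset.card_range, nsmul_eq_mul]
      _ ≤ G * (4 * M / G) := mul_le_mul_of_nonneg_right hkG (by positivity)
      _ = 4 * M := by field_simp
  calc _ ≤ |d₀ + k * ((d₁ - d₀) / G)| + |∑ k' ∈ Finset.range k, (σ k' - σb)| := abs_sub _ _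
    _ ≤ (|d₀| + |(k : ℝ) * ((d₁ - d₀) / G)|) + |∑ k' ∈ Finset.range k, (σ k' - σb)| := by
        gcongr; exact abs_add_le _ _
    _ ≤ 7 * M := by linarith

theorem rf_corr_slope (G : ℕ) (hG : 0 < G) (δ₀ δ₁ : ℕ → ℝ) (M : ℝ) (h0 : ∀ l < G, |δ₀ l| ≤ M)
    (h1 : ∀ l < G, |δ₁ l| ≤ M) :
    (∀ l < G, |(δ₁ l - δ₀ l) / G| ≤ 2 * M / G) ∧
      |(∑ l ∈ Finset.range G, (δ₁ l - δ₀ l) / G) / G| ≤ 2 * M / G := by
  have hG0 : (0 : ℝ) < G := by exact_mod_cast hG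
  have a : ∀ l < G, |(δ₁ l - δ₀ l) / G| ≤ 2 * M / G := by
    intro l hl
    rw [abs_div, abs_of_pos hG0]
    refine div_le_div_of_nonneg_right ?_ hG0.le
    exact (abs_sub _ _).trans (by linarith [h0 l hl, h1 l hl])
  refine ⟨a, ?_⟩
  rw [abs_div, abs_of_pos hG0]
  refine div_le_div_of_nonneg_right ?_ hG0.le
  calc _ ≤ ∑ l ∈ Finset.range G, |(δ₁ l - δ₀ l) / G| := Finset.abs_sum_le_sum_abs _ _
    _ ≤ (Finset.range G).card • (2 * M / G) :=
        Finset.sum_le_card_nsmul _ _ _ fun l hl => a l (Finset.mem_range.1 hl)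
    _ = G * (2 * M / G) := by rw [Finset.card_range, nsmul_eq_mul]
    _ = 2 * M := by field_simp

theorem rf_corr (G : ℕ) (hG : 0 < G) (δL δR δB δT : ℕ → ℝ) (M : ℝ)
    (hL : ∀ l < G, |δL l| ≤ M) (hR : ∀ l < G, |δR l| ≤ M) (hB : ∀ k < G, |δB k| ≤ M)
    (hT : ∀ k < G, |δT k| ≤ M)
    (htot : ∑ l ∈ Finset.range G, (δR l - δL l) + ∑ k ∈ Finset.range G, (δT k - δB k) = 0) :
    ∃ Zx Zy : ℕ → ℕ → ℝ,
      (∀ k l, Zx (k + 1) l - Zx k l + (Zy k (l + 1) - Zy k l) = 0) ∧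
      (∀ l, Zx 0 l = δL l) ∧ (∀ l, Zx G l = δR l) ∧ (∀ k, Zy k 0 = δB k) ∧ (∀ k, Zy k G = δT k) ∧
      (∀ k ≤ G, ∀ l < G, |Zx k l| ≤ 7 * M) ∧ (∀ k < G, ∀ l ≤ G, |Zy k l| ≤ 7 * M) := by
  have hG0 : (0 : ℝ) < G := by exact_mod_cast hG
  set ρb : ℝ := (∑ l ∈ Finset.range G, (δR l - δL l) / G) / G with hρb
  set σb : ℝ := (∑ k ∈ Finset.range G, (δT k - δB k) / G) / G with hσb
  have hsum : ρb + σb = 0 := by
    rw [hρb, hσb, ← Finset.sum_div, ← Finset.sum_div, ← add_div, ← add_div, htot]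
    simp
  obtain ⟨r1, r2⟩ := rf_corr_slope G hG δL δR M hL hR
  obtain ⟨s1, s2⟩ := rf_corr_slope G hG δB δT M hB hT
  refine ⟨fun k l => δL l + k * ((δR l - δL l) / G) - ∑ k' ∈ Finset.range k, ((δT k' - δB k') / G - σb),
    fun k l => δB k + l * ((δT k - δB k) / G) - ∑ l' ∈ Finset.range l, ((δR l' - δL l') / G - ρb),
    ?_, ?_, ?_, ?_, ?_, ?_, ?_⟩
  · intro k l
    simp only [Finset.sum_range_succ]
    push_cast
    linear_combination hsum
  · intro l; simp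
  · intro l
    simp only [Finset.sum_sub_distrib, Finset.sum_const, Finset.card_range, nsmul_eq_mul]
    rw [hσb]
    field_simp
    ring
  · intro k; simp
  · intro k
    simp only [Finset.sum_sub_distrib, Finset.sum_const, Finset.card_range, nsmul_eq_mul]
    rw [hρb]
    field_simp
    ring
  · intro k hk l hl
    exact rf_corr_bd G hG _ _ M σb _ (hL l hl) (hR l hl) s1 s2 k hk
  · intro k hk l hl
    exact rf_corr_bd G hG _ _ M ρb _ (hB k hk) (hT k hk) r1 r2 l hl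

/-! ## E. abstract energy estimates -/

theorem rf_term_D (p₁ p₀ z₁ z₀ M : ℝ) (h1 : |z₁| ≤ M) (h0 : |z₀| ≤ M) :
    (((p₁ + z₁) + (p₀ + z₀)) / 2) ^ 2 ≤ (p₁ ^ 2 + p₀ ^ 2) / 2 + 2 * M * ((|p₁| + |p₀|) / 2) + M ^ 2 := by
  have hM : 0 ≤ M := (abs_nonneg _).trans h1
  set p := (p₁ + p₀) / 2 with hp
  set z := (z₁ + z₀) / 2 with hz
  have e : ((p₁ + z₁) + (p₀ + z₀)) / 2 = p + z := by rw [hp, hz]; ring
  have hzM : |z| ≤ M := by
    rw [hz, abs_div, abs_of_pos (by norm_num : (0 : ℝ) < 2)]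
    have := abs_add_le z₁ z₀
    linarith
  have hpa : |p| ≤ (|p₁| + |p₀|) / 2 := by
    rw [hp, abs_div, abs_of_pos (by norm_num : (0 : ℝ) < 2)]
    have := abs_add_le p₁ p₀
    linarith
  have hp2 : p ^ 2 ≤ (p₁ ^ 2 + p₀ ^ 2) / 2 := by
    rw [hp]; nlinarith [sq_nonneg (p₁ - p₀)]
  have hpz : p * z ≤ |p| * M := by
    calc p * z ≤ |p * z| := le_abs_self _
      _ = |p| * |z| := abs_mul _ _
      _ ≤ |p| * M := mul_le_mul_of_nonneg_left hzM (abs_nonneg _)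
  have hz2 : z ^ 2 ≤ M ^ 2 := by
    rw [← sq_abs]; exact pow_le_pow_left₀ (abs_nonneg _) hzM 2
  have h3 : |p| * M ≤ (|p₁| + |p₀|) / 2 * M := mul_le_mul_of_nonneg_right hpa hM
  rw [e]
  nlinarith

theorem rf_enD_part (G : ℕ) (M : ℝ) (P Z : ℕ → ℕ → ℝ) (a : ℕ → ℝ)
    (hsq : ∀ k, ∑ l ∈ Finset.range G, P k l ^ 2 ≤ a k)
    (habs : ∀ k, ∑ l ∈ Finset.range G, |P k l| ≤ 1 / 2) (hM : 0 ≤ M)
    (hZ : ∀ k ≤ G, ∀ l < G, |Z k l| ≤ M) :
    ∑ k ∈ Finset.range G, ∑ l ∈ Finset.range G, (((P (k + 1) l + Z (k + 1) l) + (P k l + Z k l)) / 2) ^ 2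
      ≤ ∑ k ∈ Finset.range (G + 1), a k + M * (G + 1) + M ^ 2 * G ^ 2 := by
  have h1 : ∀ k ∈ Finset.range G, ∑ l ∈ Finset.range G,
      (((P (k + 1) l + Z (k + 1) l) + (P k l + Z k l)) / 2) ^ 2 ≤
      ((∑ l ∈ Finset.range G, P (k + 1) l ^ 2) + (∑ l ∈ Finset.range G, P k l ^ 2)) / 2
        + 2 * M * (((∑ l ∈ Finset.range G, |P (k + 1) l|) + (∑ l ∈ Finset.range G, |P k l|)) / 2)
        + M ^ 2 * G := by
    intro k hk
    have hk' := Finset.mem_range.1 hk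
    have : ∀ l ∈ Finset.range G, (((P (k + 1) l + Z (k + 1) l) + (P k l + Z k l)) / 2) ^ 2 ≤
        (P (k + 1) l ^ 2 + P k l ^ 2) / 2 + 2 * M * ((|P (k + 1) l| + |P k l|) / 2) + M ^ 2 := fun l hl =>
      rf_term_D _ _ _ _ M (hZ (k + 1) hk' l (Finset.mem_range.1 hl)) (hZ k hk'.le l (Finset.mem_range.1 hl))
    refine (Finset.sum_le_sum this).trans (le_of_eq ?_)
    rw [Finset.sum_add_distrib, Finset.sum_add_distrib, ← Finset.sum_div, Finset.sum_add_distrib,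
      ← Finset.mul_sum, ← Finset.sum_div, Finset.sum_add_distrib, Finset.sum_const, Finset.card_range,
      nsmul_eq_mul]
    ring
  refine (Finset.sum_le_sum h1).trans ?_
  rw [Finset.sum_add_distrib, Finset.sum_add_distrib, ← Finset.mul_sum, Finset.sum_const,
    Finset.card_range, nsmul_eq_mul]
  have b1 := rf_sum_succ_le (fun k => ∑ l ∈ Finset.range G, P k l ^ 2)
    (fun k => Finset.sum_nonneg fun l _ => sq_nonneg _) G
  have b2 := rf_sum_succ_le (fun k => ∑ l ∈ Finset.range G, |P k l|)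
    (fun k => Finset.sum_nonneg fun l _ => abs_nonneg _) G
  have b3 : ∑ k ∈ Finset.range (G + 1), ∑ l ∈ Finset.range G, P k l ^ 2 ≤ ∑ k ∈ Finset.range (G + 1), a k :=
    Finset.sum_le_sum fun k _ => hsq k
  have b4 : ∑ k ∈ Finset.range (G + 1), ∑ l ∈ Finset.range G, |P k l| ≤ ((G : ℝ) + 1) / 2 := by
    calc _ ≤ ∑ k ∈ Finset.range (G + 1), (1 / 2 : ℝ) := Finset.sum_le_sum fun k _ => habs k
      _ = ((G : ℝ) + 1) / 2 := by
          rw [Finset.sum_const, Finset.card_range, nsmul_eq_mul]; push_cast; ring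
  have b5 := mul_le_mul_of_nonneg_left (b2.trans b4) (by linarith : (0 : ℝ) ≤ 2 * M)
  beta_reduce at b1 b2 b5
  nlinarith

theorem rf_enS_part (G : ℕ) (M : ℝ) (dP dZ : ℕ → ℕ → ℝ) (w₁ w₂ : ℕ → ℝ) (W₁ W₂ : ℝ)
    (hP : ∀ k < G, ∀ l < G, dP k l ^ 2 ≤ w₁ k * w₂ l / 16)
    (hZ : ∀ k < G, ∀ l < G, |dZ k l| ≤ M)
    (h1 : ∑ k ∈ Finset.range G, w₁ k ≤ W₁) (h2 : ∑ l ∈ Finset.range G, w₂ l ≤ W₂)
    (h2' : 0 ≤ ∑ l ∈ Finset.range G, w₂ l) (hW₁ : 0 ≤ W₁) :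
    ∑ k ∈ Finset.range G, ∑ l ∈ Finset.range G, (dP k l + dZ k l) ^ 2 ≤ W₁ * W₂ / 8 + 2 * M ^ 2 * G ^ 2 := by
  have t : ∀ k ∈ Finset.range G, ∀ l ∈ Finset.range G, (dP k l + dZ k l) ^ 2 ≤ w₁ k * w₂ l / 8 + 2 * M ^ 2 := by
    intro k hk l hl
    have a1 := hP k (Finset.mem_range.1 hk) l (Finset.mem_range.1 hl)
    have a2 : dZ k l ^ 2 ≤ M ^ 2 := by
      rw [← sq_abs]
      exact pow_le_pow_left₀ (abs_nonneg _) (hZ k (Finset.mem_range.1 hk) l (Finset.mem_range.1 hl)) 2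
    nlinarith [sq_nonneg (dP k l - dZ k l)]
  refine (Finset.sum_le_sum fun k hk => Finset.sum_le_sum (t k hk)).trans ?_
  have e : ∑ k ∈ Finset.range G, ∑ l ∈ Finset.range G, (w₁ k * w₂ l / 8 + 2 * M ^ 2) =
      (∑ k ∈ Finset.range G, w₁ k) * (∑ l ∈ Finset.range G, w₂ l) / 8 + 2 * M ^ 2 * G ^ 2 := by
    rw [Finset.sum_mul_sum, Finset.sum_div]
    simp only [Finset.sum_add_distrib, Finset.sum_const, Finset.card_range, nsmul_eq_mul, Finset.sum_div]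
    ring
  rw [e]
  have : (∑ k ∈ Finset.range G, w₁ k) * (∑ l ∈ Finset.range G, w₂ l) ≤ W₁ * W₂ :=
    mul_le_mul h1 h2 h2' hW₁
  linarith

/-! ## F. the core statement on `ℕ × ℕ` -/

theorem rf_half_ne (k o : ℕ) : (k : ℝ) - ((o : ℝ) + 1 / 2) ≠ 0 := by
  intro h
  have h2 : (2 * k : ℝ) = 2 * o + 1 := by linarith
  have h3 : 2 * k = 2 * o + 1 := by exact_mod_cast h2
  omega

theorem rf_half_ne' (k o : ℕ) : (k : ℝ) - ((o : ℝ) + 1 / 2) + 1 ≠ 0 := by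
  have := rf_half_ne (k + 1) o
  push_cast at this
  intro h
  apply this
  linarith

theorem rf_half_pos (k o : ℕ) (h : k ≠ o) :
    0 < ((k : ℝ) - ((o : ℝ) + 1 / 2)) * ((k : ℝ) - ((o : ℝ) + 1 / 2) + 1) := by
  rcases lt_or_gt_of_ne h with h1 | h1
  · have : (k : ℝ) + 1 ≤ o := by exact_mod_cast h1
    exact mul_pos_of_neg_of_neg (by linarith) (by linarith)
  · have : (o : ℝ) + 1 ≤ k := by exact_mod_cast h1
    exact mul_pos (by linarith) (by linarith)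

/-- the angle flux with centre `(o₁ + 1/2, o₂ + 1/2)` through the vertical faces -/
noncomputable def rfP (o₁ o₂ k l : ℕ) : ℝ := rfA ((k : ℝ) - ((o₁ : ℝ) + 1 / 2)) ((l : ℝ) - ((o₂ : ℝ) + 1 / 2))

theorem rf_P_succ (o₁ o₂ k l : ℕ) :
    rfP o₁ o₂ (k + 1) l = rfA ((k : ℝ) - ((o₁ : ℝ) + 1 / 2) + 1) ((l : ℝ) - ((o₂ : ℝ) + 1 / 2)) := by
  unfold rfP
  congr 1
  push_cast
  ring

/-- divergence of the angle flux; the flux through the horizontal faces is `rfP o₂ o₁ l k` -/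
theorem rf_P_div (o₁ o₂ k l : ℕ) :
    rfP o₁ o₂ (k + 1) l - rfP o₁ o₂ k l + (rfP o₂ o₁ (l + 1) k - rfP o₂ o₁ l k) =
      if k = o₁ ∧ l = o₂ then 1 else 0 := by
  rw [rf_P_succ, rf_P_succ]
  unfold rfP
  by_cases hk : k = o₁
  · by_cases hl : l = o₂
    · subst hk hl
      rw [if_pos ⟨rfl, rfl⟩]
      have e1 : (k : ℝ) - ((k : ℝ) + 1 / 2) = -(1 / 2) := by ring
      have e2 : (l : ℝ) - ((l : ℝ) + 1 / 2) = -(1 / 2) := by ring
      have e3 : (-(1 / 2) + 1 : ℝ) = 1 / 2 := by norm_num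
      rw [e1, e2, e3, rf_A_neg, rf_A_half]
      norm_num
    · rw [if_neg (fun h => hl h.2)]
      have := rf_A_div_zero (rf_half_pos l o₂ hl) (rf_half_ne k o₁) (rf_half_ne' k o₁)
      linarith
  · rw [if_neg (fun h => hk h.1)]
    exact rf_A_div_zero (rf_half_pos k o₁ hk) (rf_half_ne l o₂) (rf_half_ne' l o₂)

theorem rf_P_sum_sq (o₁ o₂ k G : ℕ) :
    ∑ l ∈ Finset.range G, rfP o₁ o₂ k l ^ 2 ≤ 1 / (8 * π * |(k : ℝ) - ((o₁ : ℝ) + 1 / 2)|) := by
  have := rf_A_sum_sq (rf_half_ne k o₁) (-((o₂ : ℝ) + 1 / 2)) G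
  refine le_trans (le_of_eq ?_) this
  refine Finset.sum_congr rfl fun l _ => ?_
  unfold rfP
  congr 2
  ring

theorem rf_P_sum_abs (o₁ o₂ k G : ℕ) : ∑ l ∈ Finset.range G, |rfP o₁ o₂ k l| ≤ 1 / 2 := by
  have := rf_A_sum_abs (rf_half_ne k o₁) (-((o₂ : ℝ) + 1 / 2)) G
  refine le_trans (le_of_eq ?_) this
  refine Finset.sum_congr rfl fun l _ => ?_
  unfold rfP
  congr 2
  ring

/-- the weight of the column `k` -/
noncomputable def rfw (o k : ℕ) : ℝ := rfW ((k : ℝ) - ((o : ℝ) + 1 / 2))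

theorem rf_w_nonneg (o k : ℕ) : 0 ≤ rfw o k := rf_W_nonneg _

theorem rf_w_sum (o G : ℕ) (ho : o < G) : ∑ k ∈ Finset.range G, rfw o k ≤ 20 := by
  obtain ⟨r, rfl⟩ : ∃ r, G = o + r := ⟨G - o, by omega⟩
  have h := rf_sum_succ_le (fun k : ℕ => 1 / ((k : ℝ) - ((o : ℝ) + 1 / 2)) ^ 2) (fun k => by positivity) (o + r)
  have h2 := rf_sum_sq_inv o r
  have e : o + r + 1 = o + 1 + r := by ring
  rw [e] at h
  have h3 : ∑ k ∈ Finset.range (o + r), rfw o k =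
      2 * ∑ k ∈ Finset.range (o + r), (1 / (((k + 1 : ℕ) : ℝ) - ((o : ℝ) + 1 / 2)) ^ 2
        + 1 / ((k : ℝ) - ((o : ℝ) + 1 / 2)) ^ 2) / 2 := by
    rw [Finset.mul_sum]
    refine Finset.sum_congr rfl fun k _ => ?_
    unfold rfw rfW
    have : ((k + 1 : ℕ) : ℝ) - ((o : ℝ) + 1 / 2) = (k : ℝ) - ((o : ℝ) + 1 / 2) + 1 := by push_cast; ring
    rw [this]
    ring
  rw [h3]
  linarith

/-- the squared stretching of the angle flux -/
theorem rf_P_diff_sq (o₁ o₂ k l : ℕ) :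
    (rfP o₁ o₂ (k + 1) l - rfP o₁ o₂ k l) ^ 2 ≤ rfw o₁ k * rfw o₂ l / 16 := by
  have hdiv := rf_P_div o₁ o₂ k l
  by_cases hk : k = o₁
  · by_cases hl : l = o₂
    · subst hk hl
      have e1 : (k : ℝ) - ((k : ℝ) + 1 / 2) = -(1 / 2) := by ring
      have e2 : (l : ℝ) - ((l : ℝ) + 1 / 2) = -(1 / 2) := by ring
      have w1 : rfw k k = 8 := by unfold rfw rfW; rw [e1]; norm_num
      have w2 : rfw l l = 8 := by unfold rfw rfW; rw [e2]; norm_num
      rw [w1, w2]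
      have a1 := rf_A_abs_le_half (((k + 1 : ℕ) : ℝ) - ((k : ℝ) + 1 / 2)) ((l : ℝ) - ((l : ℝ) + 1 / 2))
      have a2 := rf_A_abs_le_half ((k : ℝ) - ((k : ℝ) + 1 / 2)) ((l : ℝ) - ((l : ℝ) + 1 / 2))
      have a3 : |rfP k l (k + 1) l - rfP k l k l| ≤ 1 := by
        unfold rfP
        exact (abs_sub _ _).trans (by linarith)
      have : (rfP k l (k + 1) l - rfP k l k l) ^ 2 ≤ 1 ^ 2 := by
        rw [← sq_abs]; exact pow_le_pow_left₀ (abs_nonneg _) a3 2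
      linarith
    · rw [if_neg (fun h => hl h.2)] at hdiv
      have e : (rfP o₁ o₂ (k + 1) l - rfP o₁ o₂ k l) ^ 2 = (rfP o₂ o₁ (l + 1) k - rfP o₂ o₁ l k) ^ 2 := by
        have : rfP o₁ o₂ (k + 1) l - rfP o₁ o₂ k l = -(rfP o₂ o₁ (l + 1) k - rfP o₂ o₁ l k) := by linarith
        rw [this]; ring
      rw [e, rf_P_succ]
      have := rf_A_diff_sq (rf_half_pos l o₂ hl) (rf_half_ne k o₁) (rf_half_ne' k o₁)
      unfold rfP rfw
      linarith
  · rw [rf_P_succ]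
    exact rf_A_diff_sq (rf_half_pos k o₁ hk) (rf_half_ne l o₂) (rf_half_ne' l o₂)

/-- the angle flux through a far face -/
theorem rf_P_far (o₁ o₂ k l G : ℕ) (hG : 0 < G) (h : (G : ℝ) / 4 ≤ |(k : ℝ) - ((o₁ : ℝ) + 1 / 2)|) :
    |rfP o₁ o₂ k l| ≤ 2 / 3 / G := by
  have hG0 : (0 : ℝ) < G := by exact_mod_cast hG
  have hp := pi_gt_three
  refine (rf_A_abs_le (rf_half_ne k o₁) _).trans ?_
  have e : (2 / 3 / (G : ℝ)) = 1 / (2 * 3 * ((G : ℝ) / 4)) := by field_simp; ring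
  rw [e]
  refine one_div_le_one_div_of_le (by positivity) ?_
  exact mul_le_mul (by linarith) h (by positivity) (by positivity)


theorem rf_ite_sum (G o₁ o₂ : ℕ) (h1 : o₁ < G) (h2 : o₂ < G) :
    ∑ k ∈ Finset.range G, ∑ l ∈ Finset.range G, (if k = o₁ ∧ l = o₂ then (1 : ℝ) else 0) = 1 := by
  simp only [ite_and]
  simp [h1, h2]

theorem rf_face_sum (G o : ℕ) (ho : o + 1 ≤ G) :
    ∑ k ∈ Finset.range (G + 1), 1 / (8 * π * |(k : ℝ) - ((o : ℝ) + 1 / 2)|) ≤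
      Real.log G / (4 * π) + 1 / 2 := by
  have hp := pi_gt_three
  obtain ⟨r, rfl⟩ : ∃ r, G = o + r := ⟨G - o, by omega⟩
  have h := rf_sum_abs_inv o r (o + r) ho (by omega)
  have e : o + r + 1 = o + 1 + r := by ring
  rw [e]
  have e2 : ∀ k : ℕ, 1 / (8 * π * |(k : ℝ) - ((o : ℝ) + 1 / 2)|) =
      (1 / |(k : ℝ) - ((o : ℝ) + 1 / 2)|) / (8 * π) := by
    intro k
    rw [div_div, mul_comm]
  simp only [e2]
  rw [← Finset.sum_div]
  calc _ ≤ (4 + 2 * Real.log ((o + r : ℕ) : ℝ)) / (8 * π) := div_le_div_of_nonneg_right h (by positivity)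
    _ = Real.log ((o + r : ℕ) : ℝ) / (4 * π) + 1 / (2 * π) := by field_simp; ring
    _ ≤ _ := by
        have : 1 / (2 * π) ≤ 1 / 2 := one_div_le_one_div_of_le (by norm_num) (by linarith)
        linarith

theorem rf_core (G o₁ o₂ : ℕ) (hG : 4 ≤ G) (a1 : (G : ℝ) / 4 ≤ o₁) (a2 : (o₁ : ℝ) + 1 ≤ 3 * G / 4)
    (b1 : (G : ℝ) / 4 ≤ o₂) (b2 : (o₂ : ℝ) + 1 ≤ 3 * G / 4) :
    ∃ X Y : ℕ → ℕ → ℝ,
      (∀ k l, X (k + 1) l - X k l + (Y k (l + 1) - Y k l) = if k = o₁ ∧ l = o₂ then 1 else 0) ∧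
      (∀ l, X 0 l = -(1 / (4 * G))) ∧ (∀ l, X G l = 1 / (4 * G)) ∧
      (∀ k, Y k 0 = -(1 / (4 * G))) ∧ (∀ k, Y k G = 1 / (4 * G)) ∧
      ∑ k ∈ Finset.range G, ∑ l ∈ Finset.range G,
        (((X (k + 1) l + X k l) / 2) ^ 2 + ((Y k (l + 1) + Y k l) / 2) ^ 2) ≤
          Real.log G / (2 * π) + 127 ∧
      ∑ k ∈ Finset.range G, ∑ l ∈ Finset.range G,
        ((X (k + 1) l - X k l) ^ 2 + (Y k (l + 1) - Y k l) ^ 2) ≤ 884 := by
  have hG0 : (0 : ℝ) < G := by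
    have : 0 < G := by omega
    exact_mod_cast this
  have hGpos : 0 < G := by omega
  have hG4 : (4 : ℝ) ≤ G := by exact_mod_cast hG
  have ho₁ : o₁ + 1 ≤ G := by
    have : (o₁ : ℝ) + 1 ≤ G := by linarith
    exact_mod_cast this
  have ho₂ : o₂ + 1 ≤ G := by
    have : (o₂ : ℝ) + 1 ≤ G := by linarith
    exact_mod_cast this
  -- far faces
  have f0 : ∀ o : ℕ, (G : ℝ) / 4 ≤ o → (G : ℝ) / 4 ≤ |((0 : ℕ) : ℝ) - ((o : ℝ) + 1 / 2)| := by
    intro o h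
    rw [abs_of_neg (by push_cast; linarith)]
    push_cast; linarith
  have fG : ∀ o : ℕ, (o : ℝ) + 1 ≤ 3 * G / 4 → (G : ℝ) / 4 ≤ |(G : ℝ) - ((o : ℝ) + 1 / 2)| := by
    intro o h
    rw [abs_of_pos (by linarith)]
    linarith
  have hδ : ∀ x : ℝ, |x| ≤ 2 / 3 / G → |-(1 / (4 * (G : ℝ))) - x| ≤ 1 / G ∧ |1 / (4 * (G : ℝ)) - x| ≤ 1 / G := by
    intro x hx
    have e1 : (1 : ℝ) / G = 1 / (4 * G) + 3 / 4 / G := by field_simp; ring
    have e2 : (2 : ℝ) / 3 / G ≤ 3 / 4 / G := div_le_div_of_nonneg_right (by norm_num) hG0.le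
    have e3 : (0 : ℝ) < 1 / (4 * G) := by positivity
    rw [abs_le] at hx
    constructor <;> rw [abs_le] <;> constructor <;> linarith [hx.1, hx.2]
  -- total defect
  have htot : ∑ l ∈ Finset.range G, ((1 / (4 * (G : ℝ)) - rfP o₁ o₂ G l) - (-(1 / (4 * (G : ℝ))) - rfP o₁ o₂ 0 l))
      + ∑ k ∈ Finset.range G, ((1 / (4 * (G : ℝ)) - rfP o₂ o₁ G k) - (-(1 / (4 * (G : ℝ))) - rfP o₂ o₁ 0 k)) = 0 := by
    have h1 := rf_ite_sum G o₁ o₂ ho₁ ho₂
    simp only [← rf_P_div] at h1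
    simp only [Finset.sum_add_distrib] at h1
    rw [Finset.sum_comm, Finset.sum_congr rfl (fun l _ => Finset.sum_range_sub (fun k => rfP o₁ o₂ k l) G),
      Finset.sum_congr rfl (fun k _ => Finset.sum_range_sub (fun l => rfP o₂ o₁ l k) G)] at h1
    have e : ∀ (x y : ℝ), (1 / (4 * (G : ℝ)) - x) - (-(1 / (4 * (G : ℝ))) - y) = 1 / (2 * G) - (x - y) := by
      intro x y; field_simp; ring
    simp only [e, Finset.sum_sub_distrib, Finset.sum_const, Finset.card_range, nsmul_eq_mul]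
    simp only [Finset.sum_sub_distrib] at h1
    have e3 : (G : ℝ) * (1 / (2 * G)) = 1 / 2 := by field_simp
    rw [e3]
    linarith
  obtain ⟨Zx, Zy, zdiv, zL, zR, zB, zT, zbx, zby⟩ := rf_corr G hGpos
    (fun l => -(1 / (4 * (G : ℝ))) - rfP o₁ o₂ 0 l) (fun l => 1 / (4 * (G : ℝ)) - rfP o₁ o₂ G l)
    (fun k => -(1 / (4 * (G : ℝ))) - rfP o₂ o₁ 0 k) (fun k => 1 / (4 * (G : ℝ)) - rfP o₂ o₁ G k) (1 / G)
    (fun l _ => (hδ _ (rf_P_far o₁ o₂ 0 l G hGpos (f0 o₁ a1))).1)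
    (fun l _ => (hδ _ (rf_P_far o₁ o₂ G l G hGpos (fG o₁ a2))).2)
    (fun k _ => (hδ _ (rf_P_far o₂ o₁ 0 k G hGpos (f0 o₂ b1))).1)
    (fun k _ => (hδ _ (rf_P_far o₂ o₁ G k G hGpos (fG o₂ b2))).2) htot
  have hM : (0 : ℝ) ≤ 7 * (1 / G) := by positivity
  have cM1 : 7 * (1 / (G : ℝ)) * (G + 1) ≤ 14 := by
    have : 7 * (1 / (G : ℝ)) * (G + 1) = 7 + 7 / G := by field_simp
    rw [this]
    have : 7 / (G : ℝ) ≤ 7 := div_le_self (by norm_num) (by linarith)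
    linarith
  have cM2 : (7 * (1 / (G : ℝ))) ^ 2 * G ^ 2 = 49 := by field_simp; norm_num
  have cM3 : 2 * (14 * (1 / (G : ℝ))) ^ 2 * G ^ 2 = 392 := by field_simp; norm_num
  refine ⟨fun k l => rfP o₁ o₂ k l + Zx k l, fun k l => rfP o₂ o₁ l k + Zy k l, ?_, ?_, ?_, ?_, ?_, ?_, ?_⟩
  · intro k l
    have := rf_P_div o₁ o₂ k l
    have := zdiv k l
    beta_reduce
    linarith
  · intro l; beta_reduce; rw [zL]; ring
  · intro l; beta_reduce; rw [zR]; ring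
  · intro k; beta_reduce; rw [zB]; ring
  · intro k; beta_reduce; rw [zT]; ring
  · beta_reduce
    simp only [Finset.sum_add_distrib]
    have d1 := rf_enD_part G (7 * (1 / G)) (rfP o₁ o₂) Zx _ (fun k => rf_P_sum_sq o₁ o₂ k G)
      (fun k => rf_P_sum_abs o₁ o₂ k G) hM zbx
    have d2 := rf_enD_part G (7 * (1 / G)) (rfP o₂ o₁) (fun l k => Zy k l) _ (fun k => rf_P_sum_sq o₂ o₁ k G)
      (fun k => rf_P_sum_abs o₂ o₁ k G) hM (fun l hl k hk => zby k hk l hl)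
    rw [Finset.sum_comm] at d2
    have s1 := rf_face_sum G o₁ ho₁
    have s2 := rf_face_sum G o₂ ho₂
    have e : Real.log G / (2 * π) = Real.log G / (4 * π) + Real.log G / (4 * π) := by
      have := pi_pos
      field_simp; ring
    rw [e]
    rw [cM2] at d1 d2
    linarith
  · beta_reduce
    simp only [Finset.sum_add_distrib]
    have s1 := rf_enS_part G (14 * (1 / G)) (fun k l => rfP o₁ o₂ (k + 1) l - rfP o₁ o₂ k l)
      (fun k l => Zx (k + 1) l - Zx k l) (rfw o₁) (rfw o₂) 20 20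
      (fun k _ l _ => rf_P_diff_sq o₁ o₂ k l)
      (fun k hk l hl => (abs_sub _ _).trans (by linarith [zbx (k + 1) hk l hl, zbx k hk.le l hl]))
      (rf_w_sum o₁ G ho₁) (rf_w_sum o₂ G ho₂) (Finset.sum_nonneg fun l _ => rf_w_nonneg o₂ l) (by norm_num)
    have s2 := rf_enS_part G (14 * (1 / G)) (fun k l => rfP o₂ o₁ (l + 1) k - rfP o₂ o₁ l k)
      (fun k l => Zy k (l + 1) - Zy k l) (rfw o₁) (rfw o₂) 20 20
      (fun k _ l _ => (rf_P_diff_sq o₂ o₁ l k).trans (le_of_eq (by ring)))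
      (fun k hk l hl => (abs_sub _ _).trans (by linarith [zby k hk (l + 1) hl, zby k hk l hl.le]))
      (rf_w_sum o₁ G ho₁) (rf_w_sum o₂ G ho₂) (Finset.sum_nonneg fun l _ => rf_w_nonneg o₂ l) (by norm_num)
    rw [cM3] at s1 s2
    have e1 : ∀ k l, (rfP o₁ o₂ (k + 1) l + Zx (k + 1) l - (rfP o₁ o₂ k l + Zx k l)) ^ 2 =
        (rfP o₁ o₂ (k + 1) l - rfP o₁ o₂ k l + (Zx (k + 1) l - Zx k l)) ^ 2 := fun k l => by ring
    have e2 : ∀ k l, (rfP o₂ o₁ (l + 1) k + Zy k (l + 1) - (rfP o₂ o₁ l k + Zy k l)) ^ 2 =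
        (rfP o₂ o₁ (l + 1) k - rfP o₂ o₁ l k + (Zy k (l + 1) - Zy k l)) ^ 2 := fun k l => by ring
    simp only [e1, e2]
    linarith


/-! ## G. bridge to the vocabulary of `Phase/Defs.lean` -/

/-- flux data from face fluxes -/
noncomputable def rfH (X Y : ℕ → ℕ → ℝ) : ℤ × ℤ → Fin 4 → ℝ := fun i =>
  ![X (i.1.toNat + 1) i.2.toNat, - X i.1.toNat i.2.toNat, Y i.1.toNat (i.2.toNat + 1), - Y i.1.toNat i.2.toNat]

theorem rf_mem_arr {G : ℕ} {i : ℤ × ℤ} : i ∈ (arrK G G).set ↔ (0 ≤ i.1 ∧ i.1 < G) ∧ (0 ≤ i.2 ∧ i.2 < G) := by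
  simp [arrK, C2.Rc.set, Finset.mem_product]

theorem rf_sum_Ico (G : ℕ) (f : ℤ → ℝ) :
    ∑ x ∈ Finset.Ico (0 : ℤ) (0 + G), f x = ∑ k ∈ Finset.range G, f k := by
  refine Finset.sum_bij' (fun x _ => x.toNat) (fun k _ => (k : ℤ)) ?_ ?_ ?_ ?_ ?_
  · intro x hx
    simp only [Finset.mem_Ico, Finset.mem_range] at hx ⊢
    omega
  · intro k hk
    simp only [Finset.mem_Ico, Finset.mem_range] at hk ⊢
    omega
  · intro x hx
    simp only [Finset.mem_Ico] at hx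
    exact Int.toNat_of_nonneg hx.1
  · intro k _
    exact Int.toNat_natCast k
  · intro x hx
    simp only [Finset.mem_Ico] at hx
    rw [Int.toNat_of_nonneg hx.1]

theorem rf_sum_arr (G : ℕ) (F : ℤ × ℤ → ℝ) :
    ∑ i ∈ (arrK G G).set, F i = ∑ k ∈ Finset.range G, ∑ l ∈ Finset.range G, F ((k : ℤ), (l : ℤ)) := by
  show ∑ i ∈ Finset.Ico (0 : ℤ) (0 + G) ×ˢ Finset.Ico (0 : ℤ) (0 + G), F i = _
  rw [Finset.sum_product, rf_sum_Ico]
  refine Finset.sum_congr rfl fun k _ => ?_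
  rw [rf_sum_Ico G (fun y => F ((k : ℤ), y))]

theorem rf_main : ∃ C : ℝ, ∀ G : ℕ, 4 ≤ G → ∀ o ∈ (arrK G G).set, (G : ℝ) / 4 ≤ o.1 →
    (o.1 : ℝ) + 1 ≤ 3 * G / 4 → (G : ℝ) / 4 ≤ o.2 → (o.2 : ℝ) + 1 ≤ 3 * G / 4 →
    ∃ H : ℤ × ℤ → Fin 4 → ℝ,
      (Flux G G H ∧ Outer G G H (1 / (4 * G)) ∧ ∀ i ∈ (arrK G G).set, ∑ d, H i d = if i = o then 1 else 0) ∧
      ∑ i ∈ (arrK G G).set, (((H i 0 - H i 1) / 2) ^ 2 + ((H i 2 - H i 3) / 2) ^ 2) ≤
        Real.log G / (2 * Real.pi) + C ∧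
      ∑ i ∈ (arrK G G).set, ((H i 0 + H i 1) ^ 2 + (H i 2 + H i 3) ^ 2) ≤ C := by
  refine ⟨884, ?_⟩
  intro G hG o ho a1 a2 b1 b2
  obtain ⟨⟨p1, p2⟩, p3, p4⟩ := rf_mem_arr.1 ho
  have c1 : ((o.1.toNat : ℕ) : ℝ) = (o.1 : ℝ) := by
    have : ((o.1.toNat : ℕ) : ℤ) = o.1 := Int.toNat_of_nonneg p1
    exact_mod_cast congrArg (fun z : ℤ => (z : ℝ)) this
  have c2 : ((o.2.toNat : ℕ) : ℝ) = (o.2 : ℝ) := by
    have : ((o.2.toNat : ℕ) : ℤ) = o.2 := Int.toNat_of_nonneg p3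
    exact_mod_cast congrArg (fun z : ℤ => (z : ℝ)) this
  obtain ⟨X, Y, hdiv, hL, hR, hB, hT, hD, hS⟩ := rf_core G o.1.toNat o.2.toNat hG (by rw [c1]; exact a1)
    (by rw [c1]; exact a2) (by rw [c2]; exact b1) (by rw [c2]; exact b2)
  have H0 : ∀ i, rfH X Y i 0 = X (i.1.toNat + 1) i.2.toNat := fun _ => rfl
  have H1 : ∀ i, rfH X Y i 1 = - X i.1.toNat i.2.toNat := fun _ => rfl
  have H2 : ∀ i, rfH X Y i 2 = Y i.1.toNat (i.2.toNat + 1) := fun _ => rfl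
  have H3 : ∀ i, rfH X Y i 3 = - Y i.1.toNat i.2.toNat := fun _ => rfl
  refine ⟨rfH X Y, ⟨⟨?_, ?_⟩, ?_, ?_⟩, ?_, ?_⟩
  · intro i hi _
    obtain ⟨⟨q1, q2⟩, q3, q4⟩ := rf_mem_arr.1 hi
    rw [H0, H1]
    have : (i.1 + 1).toNat = i.1.toNat + 1 := by omega
    simp only [this, neg_neg]
  · intro i hi _
    obtain ⟨⟨q1, q2⟩, q3, q4⟩ := rf_mem_arr.1 hi
    rw [H2, H3]
    have : (i.2 + 1).toNat = i.2.toNat + 1 := by omega
    simp only [this, neg_neg]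
  · intro i hi d hd
    obtain ⟨⟨q1, q2⟩, q3, q4⟩ := rf_mem_arr.1 hi
    rw [rf_mem_arr] at hd
    fin_cases d
    · have hd' : ¬ ((0 ≤ i.1 + 1 ∧ i.1 + 1 < G) ∧ (0 ≤ i.2 ∧ i.2 < G)) := hd
      have : i.1.toNat + 1 = G := by omega
      show rfH X Y i 0 = _
      rw [H0, this, hR]
    · have hd' : ¬ ((0 ≤ i.1 - 1 ∧ i.1 - 1 < G) ∧ (0 ≤ i.2 ∧ i.2 < G)) := hd
      have : i.1.toNat = 0 := by omega
      show rfH X Y i 1 = _
      rw [H1, this, hL, neg_neg]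
    · have hd' : ¬ ((0 ≤ i.1 ∧ i.1 < G) ∧ (0 ≤ i.2 + 1 ∧ i.2 + 1 < G)) := hd
      have : i.2.toNat + 1 = G := by omega
      show rfH X Y i 2 = _
      rw [H2, this, hT]
    · have hd' : ¬ ((0 ≤ i.1 ∧ i.1 < G) ∧ (0 ≤ i.2 - 1 ∧ i.2 - 1 < G)) := hd
      have : i.2.toNat = 0 := by omega
      show rfH X Y i 3 = _
      rw [H3, this, hB, neg_neg]
  · intro i hi
    obtain ⟨⟨q1, q2⟩, q3, q4⟩ := rf_mem_arr.1 hi
    rw [Fin.sum_univ_four, H0, H1, H2, H3]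
    have := hdiv i.1.toNat i.2.toNat
    have e : (i.1.toNat = o.1.toNat ∧ i.2.toNat = o.2.toNat) ↔ i = o := by
      constructor
      · rintro ⟨e1, e2⟩
        exact Prod.ext (by omega) (by omega)
      · rintro rfl
        exact ⟨rfl, rfl⟩
    simp only [e] at this
    rw [← this]
    ring
  · rw [rf_sum_arr]
    simp only [H0, H1, H2, H3, Int.toNat_natCast, sub_neg_eq_add]
    linarith
  · rw [rf_sum_arr]
    simp only [H0, H1, H2, H3, Int.toNat_natCast, ← sub_eq_add_neg]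
    exact hS

end Claimed.Agent.R285.Phase
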