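import Claimed.Agent.R285.Phase.Two
import Claimed.Agent.R285.Phase.Radial
import Claimed.Agent.R285.Free.Pot

/-!
# ROW 285, unit FREE / PHASE, file 4: growth of the face phase and the gap = [C](2.14)-(2.15), T2.5; [E]L5.7, L5.8; [B]L2.4, C2.5 (architect helper200).

## The argument
Array `G × G` of cells of side `m`, `J = sq (G m)`, `S₀` = independent cells and seam bonds.  `A` = retained central cells.  For `o ∈ A` let `Hf o` be a radial flux: unit source in the cell `o`, flux `1/(4G)` through every outer face (`radial_flux`).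
EVERY `Hf o` represents the face phase of `J` (`arr_zface`: integer charges at the corners of the cells are invisible).  Root cell `i* ∈ A`; rows `ℓ_o = ` flow statistic of `Hf o - Hf i*`, `o ∈ A \ {i*}` (no outer flux, integer totals: `arr_int`).
`ph_join_phi` with `θ` = statistic of `Hf i*`: the sector `q = δ_o` carries the phase of `Hf o`, with weight `e^{-1/2}`; the sector `q = 0` the phase of `Hf i*`:
      `e^{-1/2} ∑_{o ∈ A} φ₀(Hf o) ≤ z_{Gm} · Den`          (`ratio_finite`).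
`φ₀(Hf o) ≥ z_m exp(-(a_m/2) ∑ D² - 32π² b ∑ e² - 2π² b ∑ H²/m)`   (`sector_lower`: `arr_phi_lower`, `cph_lower`).      `Den → 1` (`den_tendsto`: a sector `q ≠ 0` leaves a nonzero integer charge in some cell: `cph_tendsto_zero`).
`|A| ≥ G²/16`, `∑ D² ≤ log G/(2π) + C`: `z_{Gm} ≥ c G² G^{-a/(4π)} z_m`.   The rough bound needs ONE radial flux and no soft joining (`arr_phi_le`).

LEAVES `L-PH-R*`: every `sorry`.
-/

set_option autoImplicit false

namespace Claimed.Agent.R285.Phase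

open Filter Topology C2 Free
open scoped Classical

noncomputable section

/-- `H` is a radial flux of the `G × G` array with source in the cell `o` -/
def Radial (G : ℕ) (o : ℤ × ℤ) (H : ℤ × ℤ → Fin 4 → ℝ) : Prop :=
  Flux G G H ∧ Outer G G H (1 / (4 * G)) ∧ ∀ i ∈ (arrK G G).set, ∑ d, H i d = if i = o then 1 else 0

/-- dipole energy of flux data -/
def enD (G : ℕ) (H : ℤ × ℤ → Fin 4 → ℝ) : ℝ := ∑ i ∈ (arrK G G).set, (((H i 0 - H i 1) / 2) ^ 2 + ((H i 2 - H i 3) / 2) ^ 2)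

/-- stretching energy of flux data -/
def enS (G : ℕ) (H : ℤ × ℤ → Fin 4 → ℝ) : ℝ := ∑ i ∈ (arrK G G).set, ((H i 0 + H i 1) ^ 2 + (H i 2 + H i 3) ^ 2)

/-- the retained central cells -/
def central (G : ℕ) : Finset (ℤ × ℤ) :=
  (arrK G G).set.filter fun i => (G : ℝ) / 4 ≤ i.1 ∧ (i.1 : ℝ) + 1 ≤ 3 * G / 4 ∧ (G : ℝ) / 4 ≤ i.2 ∧ (i.2 : ℝ) + 1 ≤ 3 * G / 4

/-- L-PH-RAD = CONVERSION of `Free.fr_radial_flow` (Free/Pot.lean, helper60: `Fin G × Fin G` indices, angle flux + boundary correction; in progress there) to `ℤ²` indices.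
`o ∈ central G` gives `i0 : Fin G × Fin G` (`o.1.toNat`, ...) with the four hypotheses; `H i d := if h : i ∈ (arrK G G).set then H' (⟨i.1.toNat, _⟩, ⟨i.2.toNat, _⟩) d else 0`.  `Flux`, `Outer` (`nbr i d ∉ arrK` iff `i` lies on the corresponding side), totals: clause by clause;
the two sums: `Finset.sum_bij` between `(arrK G G).set` and `Finset.univ : Finset (Fin G × Fin G)`. -/
theorem radial_flux : ∃ C : ℝ, ∀ G : ℕ, 4 ≤ G → ∀ o ∈ central G, ∃ H : ℤ × ℤ → Fin 4 → ℝ,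
    Radial G o H ∧ enD G H ≤ Real.log G / (2 * Real.pi) + C ∧ enS G H ≤ C := by
  obtain ⟨C, h⟩ := rf_main
  refine ⟨C, fun G hG o ho => ?_⟩
  obtain ⟨h1, h2, h3, h4, h5⟩ := Finset.mem_filter.1 ho
  exact h G hG o h1 h2 h3 h4 h5

/-- L-PH-R1 (helper110: constant `25` instead of `16`; with `16` the statement fails at `G = 5`, where `central 5 = {(2,2)}`).  The integers of `[G/4, 3G/4 - 1]`: at least `G/2 - 1 ≥ G/4` of them (`G ≥ 4`); `central G` is a product (`Finset.card_product`, `Int.card_Icc` with `⌈G/4⌉`, `⌊3G/4⌋ - 1`). -/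
theorem central_card (G : ℕ) (hG : 4 ≤ G) : (G : ℝ) ^ 2 / 25 ≤ ((central G).card : ℝ) := by
  set I : Finset ℤ := Finset.Icc (((G : ℤ) + 3) / 4) (3 * (G : ℤ) / 4 - 1) with hI
  have hsub : I ×ˢ I ⊆ central G := by
    intro i hi
    rw [Finset.mem_product] at hi
    obtain ⟨h1, h2⟩ := hi
    rw [hI, Finset.mem_Icc] at h1 h2
    have key : ∀ x : ℤ, ((G : ℤ) + 3) / 4 ≤ x → x ≤ 3 * (G : ℤ) / 4 - 1 →
        (0 ≤ x ∧ x < 0 + (G : ℤ)) ∧ (G : ℝ) / 4 ≤ x ∧ (x : ℝ) + 1 ≤ 3 * G / 4 := by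
      intro x hx1 hx2
      have a1 : (G : ℤ) ≤ 4 * x := by omega
      have a2 : 4 * x + 4 ≤ 3 * (G : ℤ) := by omega
      have a1' : (G : ℝ) ≤ 4 * x := by exact_mod_cast a1
      have a2' : 4 * (x : ℝ) + 4 ≤ 3 * (G : ℝ) := by exact_mod_cast a2
      refine ⟨⟨by omega, by omega⟩, by linarith, by linarith⟩
    obtain ⟨b1, b2, b3⟩ := key i.1 h1.1 h1.2
    obtain ⟨c1, c2, c3⟩ := key i.2 h2.1 h2.2
    unfold central
    rw [Finset.mem_filter, fr_mem_set]
    exact ⟨⟨b1, c1⟩, b2, b3, c2, c3⟩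
  have hcard : (G : ℝ) / 5 ≤ (I.card : ℝ) := by
    have h1 : (I.card : ℤ) = 3 * (G : ℤ) / 4 - 1 + 1 - ((G : ℤ) + 3) / 4 := by
      rw [hI, Int.card_Icc, Int.toNat_of_nonneg (by omega)]
    have h2 : (G : ℤ) ≤ 5 * (I.card : ℤ) := by
      rcases Nat.lt_or_ge G 5 with h | h
      · have : G = 4 := by omega
        subst this
        rw [h1]
        norm_num
      · omega
    have h3 : (G : ℝ) ≤ 5 * (I.card : ℝ) := by exact_mod_cast h2
    linarith
  have h4 := Finset.card_le_card hsub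
  rw [Finset.card_product] at h4
  have h5 : ((I.card : ℝ)) * (I.card : ℝ) ≤ ((central G).card : ℝ) := by exact_mod_cast h4
  have h6 : (0 : ℝ) ≤ (G : ℝ) / 5 := by positivity
  nlinarith

/-- L-PH-R2.  `H0² + H1² = 2 ((H0-H1)/2)² + (H0+H1)²/2`, `((H0+H1-H2-H3)/4)² ≤ ((H0+H1)² + (H2+H3)²)/8`. -/
theorem en_bounds (G : ℕ) (H : ℤ × ℤ → Fin 4 → ℝ) :
    ∑ i ∈ (arrK G G).set, ∑ d, H i d ^ 2 = 2 * enD G H + enS G H / 2 ∧
    ∑ i ∈ (arrK G G).set, ((H i 0 + H i 1 - H i 2 - H i 3) / 4) ^ 2 ≤ enS G H / 8 := by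
  constructor
  · unfold enD enS
    rw [Finset.mul_sum, Finset.sum_div, ← Finset.sum_add_distrib]
    refine Finset.sum_congr rfl fun i _ => ?_
    rw [Fin.sum_univ_four]
    ring
  · unfold enS
    rw [Finset.sum_div]
    refine Finset.sum_le_sum fun i _ => ?_
    nlinarith [sq_nonneg ((H i 0 + H i 1) + (H i 2 + H i 3))]

theorem phr_enD_nonneg (G : ℕ) (H : ℤ × ℤ → Fin 4 → ℝ) : 0 ≤ enD G H :=
  Finset.sum_nonneg fun _ _ => by positivity

theorem phr_enS_nonneg (G : ℕ) (H : ℤ × ℤ → Fin 4 → ℝ) : 0 ≤ enS G H :=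
  Finset.sum_nonneg fun _ _ => by positivity

theorem phr_radial_tot {G : ℕ} {o : ℤ × ℤ} {H : ℤ × ℤ → Fin 4 → ℝ} (hH : Radial G o H) :
    ∀ i ∈ (arrK G G).set, ∃ n : ℤ, ∑ d, H i d = n := by
  intro i hi
  rw [hH.2.2 i hi]
  by_cases h : i = o
  · exact ⟨1, by simp [h]⟩
  · exact ⟨0, by simp [h]⟩

theorem phr_central_sub (G : ℕ) : central G ⊆ (arrK G G).set := Finset.filter_subset _ _

theorem phr_central_nonempty (G : ℕ) (hG : 4 ≤ G) : (central G).Nonempty := by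
  rw [← Finset.card_pos]
  have h := central_card G hG
  have h1 : (0 : ℝ) < (G : ℝ) ^ 2 / 25 := by
    have : (0 : ℝ) < G := by exact_mod_cast (by omega : 0 < G)
    positivity
  exact_mod_cast lt_of_lt_of_le h1 h

theorem phr_zpos (b : ℝ) (hb : 0 < b) (m : ℕ) : 0 < zface b m := by
  rw [zface_eq]; exact (ph_pos _ b hb _).1

/-- L-PH-R3.  **One sector.**  `arr_phi_lower`; in every cell `cph_lower` with `l = 1` (`i = o`: `zface_eq`) or `l = 0` (`cph_zero`); `Finset.prod_le_prod`, `Real.exp_sum`, `Finset.prod_ite_eq`-type isolation of the factor `o`; `en_bounds`. -/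
theorem sector_lower (b : ℝ) (hb : 0 < b) (m G : ℕ) (hm : 0 < m) (o : ℤ × ℤ) (ho : o ∈ (arrK G G).set) (H : ℤ × ℤ → Fin 4 → ℝ) (hH : Radial G o H) :
    zface b m * Real.exp (-(aCoef b m * enD G H / 2) - 4 * Real.pi ^ 2 * b * enS G H - 2 * Real.pi ^ 2 * b * (2 * enD G H + enS G H / 2) / m) ≤
      (cutS b (arrQ m G G)).phi (cutX b (arrQ m G G) (arrFlow m H)) := by
  have h1 := arr_phi_lower b hb m G G hm H
  obtain ⟨e1, e2⟩ := en_bounds G H
  rw [e1] at h1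
  have hz : 0 < zface b m := phr_zpos b hb m
  have h2 : zface b m * Real.exp (-(aCoef b m * enD G H / 2) - 4 * Real.pi ^ 2 * b * enS G H) ≤
      ∏ i ∈ (arrK G G).set, cph b m (H i) := by
    have h3 : ∀ i ∈ (arrK G G).set, (if i = o then zface b m else 1) *
        Real.exp (-(aCoef b m * (((H i 0 - H i 1) / 2) ^ 2 + ((H i 2 - H i 3) / 2) ^ 2) / 2)
          - 32 * Real.pi ^ 2 * b * ((H i 0 + H i 1 - H i 2 - H i 3) / 4) ^ 2) ≤ cph b m (H i) := by
      intro i hi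
      have ht := hH.2.2 i hi
      by_cases hio : i = o
      · rw [if_pos hio] at ht ⊢
        have := cph_lower b hb m hm (H i) 1 (by rw [ht]; simp)
        rw [zface_eq]
        simpa using this
      · rw [if_neg hio] at ht ⊢
        have := cph_lower b hb m hm (H i) 0 (by rw [ht]; simp)
        simp only [Int.cast_zero, zero_div] at this
        rwa [cph_zero b hb m] at this
    have h4 := Finset.prod_le_prod (s := (arrK G G).set) (fun i _ => by
      refine mul_nonneg ?_ (Real.exp_pos _).le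
      split_ifs
      · exact hz.le
      · exact zero_le_one) h3
    rw [Finset.prod_mul_distrib, Finset.prod_ite_eq' _ _ (fun _ => zface b m), if_pos ho, ← Real.exp_sum] at h4
    refine le_trans (mul_le_mul_of_nonneg_left (Real.exp_le_exp.2 ?_) hz.le) h4
    rw [Finset.sum_sub_distrib, ← Finset.mul_sum, Finset.sum_neg_distrib, ← Finset.sum_div, ← Finset.mul_sum]
    have h5 : 0 ≤ 32 * Real.pi ^ 2 * b := by positivity
    have h6 := mul_le_mul_of_nonneg_left e2 h5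
    unfold enD
    linarith
  have h7 : -(aCoef b m * enD G H / 2) - 4 * Real.pi ^ 2 * b * enS G H - 2 * Real.pi ^ 2 * b * (2 * enD G H + enS G H / 2) / m
      = (-(aCoef b m * enD G H / 2) - 4 * Real.pi ^ 2 * b * enS G H) + -(2 * Real.pi ^ 2 * b * (2 * enD G H + enS G H / 2) / m) := by ring
  rw [h7, Real.exp_add, ← mul_assoc]
  exact le_trans (mul_le_mul_of_nonneg_right h2 (Real.exp_pos _).le) h1

/-- the rows of the soft joining: differences of radial fluxes -/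
def ratRow (b : ℝ) (m G : ℕ) (A : Finset (ℤ × ℤ)) (r : ℤ × ℤ) (Hf : ℤ × ℤ → ℤ × ℤ → Fin 4 → ℝ) :
    {o : ℤ × ℤ // o ∈ A.erase r} → (cutS b (arrQ m G G)).L →+ ℝ :=
  fun o => cutX b (arrQ m G G) (arrFlow m fun i d => Hf o.1 i d - Hf r i d)

/-- a combination of the rows is the flow statistic of the combined flux -/
theorem phr_rowS (b : ℝ) (m G : ℕ) (A : Finset (ℤ × ℤ)) (r : ℤ × ℤ) (Hf : ℤ × ℤ → ℤ × ℤ → Fin 4 → ℝ)
    (H₀ : ℤ × ℤ → Fin 4 → ℝ) (d : {o : ℤ × ℤ // o ∈ A.erase r} → ℝ) :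
    cutX b (arrQ m G G) (arrFlow m H₀) + rowS (ratRow b m G A r Hf) d =
      cutX b (arrQ m G G) (arrFlow m fun i f => H₀ i f + ∑ o, d o * (Hf o.1 i f - Hf r i f)) :=
  arr_rowS b m G G H₀ (fun (o : {o : ℤ × ℤ // o ∈ A.erase r}) i f => Hf o.1 i f - Hf r i f) d

/-- differences of radial fluxes: no outer flux, integer totals -/
theorem phr_diff {G : ℕ} {o r : ℤ × ℤ} {H H' : ℤ × ℤ → Fin 4 → ℝ} (hH : Radial G o H) (hH' : Radial G r H') :
    Flux G G (fun i d => H i d - H' i d) ∧ Outer G G (fun i d => H i d - H' i d) 0 ∧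
      ∀ i ∈ (arrK G G).set, ∃ n : ℤ, ∑ d, (H i d - H' i d) = n := by
  refine ⟨⟨fun i hi hi' => ?_, fun i hi hi' => ?_⟩, fun i hi d hd => ?_, fun i hi => ?_⟩
  · show H i 0 - H' i 0 = -(H (i.1 + 1, i.2) 1 - H' (i.1 + 1, i.2) 1)
    rw [hH.1.1 i hi hi', hH'.1.1 i hi hi']; ring
  · show H i 2 - H' i 2 = -(H (i.1, i.2 + 1) 3 - H' (i.1, i.2 + 1) 3)
    rw [hH.1.2 i hi hi', hH'.1.2 i hi hi']; ring
  · show H i d - H' i d = 0
    rw [hH.2.1 i hi d hd, hH'.2.1 i hi d hd, sub_self]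
  · rw [Finset.sum_sub_distrib, hH.2.2 i hi, hH'.2.2 i hi]
    refine ⟨(if i = o then 1 else 0) - (if i = r then 1 else 0), ?_⟩
    push_cast
    rfl

/-- L-PH-R4.  **The finite ratio inequality.**  `ph_join_phi` (`S₀ = cutS`, `J = (arrJ m G G).sys b`, `arr_ref`, `ℓ = ratRow`, `θ = cutX (arrFlow m (Hf r))`); `hint`: `arr_int` (differences of radial fluxes: `Flux`, `Outer .. 0`, totals `[i=o] - [i=r] ∈ ℤ`);
`J.phi (θ ∘ ψ) = (arrJ m G G).ph b (arrFlow m (Hf r)) = zface b (G m)` (`arr_zface`).  `secSum_ge_sum` on the finite set `{0} ∪ {Pi.single o 1}`: `secW 0 = 1 ≥ e^{-1/2}`, `secW (Pi.single o 1) = e^{-1/2}`;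
`θ + rowS ℓ (Pi.single o 1) = cutX (arrFlow m (Hf o))` (`arr_rowS`, `Finset.sum_ite_eq`/`Pi.single_apply`, `flowX`/`cutX` congruence), `θ + rowS ℓ 0 = θ`.  Reindex `A = {r} ∪ (A.erase r)`. -/
theorem ratio_finite (b : ℝ) (hb : 0 < b) (m G : ℕ) (hm : 0 < m) (hG : 0 < G) (A : Finset (ℤ × ℤ)) (hA : A ⊆ (arrK G G).set) (r : ℤ × ℤ) (hr : r ∈ A)
    (Hf : ℤ × ℤ → ℤ × ℤ → Fin 4 → ℝ) (hH : ∀ o ∈ A, Radial G o (Hf o)) :
    Real.exp (-(1 / 2)) * ∑ o ∈ A, (cutS b (arrQ m G G)).phi (cutX b (arrQ m G G) (arrFlow m (Hf o))) ≤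
      zface b (G * m) * secSum (cutS b (arrQ m G G)) (ratRow b m G A r Hf) 0 := by
  obtain ⟨ρ, hρ⟩ := arr_ref b m G G hm
  have hok := cutS_ok b hb (arrQ m G G)
  have hint : ∀ (z : ((arrJ m G G).sys b).L) (o : {o : ℤ × ℤ // o ∈ A.erase r}),
      ∃ c : ℤ, ratRow b m G A r Hf o (ρ.psi z) = 2 * Real.pi * (c : ℝ) := by
    intro z o
    have h1 : ratRow b m G A r Hf o (ρ.psi z) =
        ((cutX b (arrQ m G G) (arrFlow m fun i d => Hf o.1 i d - Hf r i d)).comp ρ.psi) z := rfl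
    rw [h1, hρ]
    obtain ⟨d1, d2, d3⟩ := phr_diff (hH o.1 (Finset.mem_erase.1 o.2).2) (hH r hr)
    exact arr_int b m G G hm _ d1 d2 d3 z
  have h1 := ph_join_phi hok (fr_ok _ b hb) ρ (ratRow b m G A r Hf) hint (cutX b (arrQ m G G) (arrFlow m (Hf r)))
  have h2 : ((arrJ m G G).sys b).phi ((cutX b (arrQ m G G) (arrFlow m (Hf r))).comp ρ.psi) = zface b (G * m) := by
    rw [hρ]
    exact arr_zface b m G hm hG (Hf r) (hH r hr).1 (hH r hr).2.1 (phr_radial_tot (hH r hr))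
  rw [h2] at h1
  refine le_trans ?_ h1
  have h3 := secSum_ge_sum (cutS b (arrQ m G G)) hok (ratRow b m G A r Hf) (cutX b (arrQ m G G) (arrFlow m (Hf r)))
    (insert 0 (Finset.univ.image fun o : {o : ℤ × ℤ // o ∈ A.erase r} => (Pi.single o (1 : ℤ) : {o : ℤ × ℤ // o ∈ A.erase r} → ℤ)))
  refine le_trans ?_ h3
  have hnot : (0 : {o : ℤ × ℤ // o ∈ A.erase r} → ℤ) ∉
      Finset.univ.image fun o : {o : ℤ × ℤ // o ∈ A.erase r} => (Pi.single o (1 : ℤ) : {o : ℤ × ℤ // o ∈ A.erase r} → ℤ) := by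
    intro h
    obtain ⟨o, -, ho⟩ := Finset.mem_image.1 h
    have := congrFun ho o
    simp at this
  have hinj : Function.Injective fun o : {o : ℤ × ℤ // o ∈ A.erase r} => (Pi.single o (1 : ℤ) : {o : ℤ × ℤ // o ∈ A.erase r} → ℤ) := by
    intro o o' h
    by_contra hne
    have := congrFun h o
    simp [hne] at this
  rw [Finset.sum_insert hnot, Finset.sum_image (fun x _ y _ h => hinj h)]
  have t0 : secW (0 : {o : ℤ × ℤ // o ∈ A.erase r} → ℤ) * (cutS b (arrQ m G G)).phi (cutX b (arrQ m G G) (arrFlow m (Hf r)) +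
      rowS (ratRow b m G A r Hf) fun o => (((0 : {o : ℤ × ℤ // o ∈ A.erase r} → ℤ) o : ℤ) : ℝ)) =
      (cutS b (arrQ m G G)).phi (cutX b (arrQ m G G) (arrFlow m (Hf r))) := by
    have e1 : rowS (ratRow b m G A r Hf) (fun o => (((0 : {o : ℤ × ℤ // o ∈ A.erase r} → ℤ) o : ℤ) : ℝ)) = 0 := by
      simp [rowS]
    rw [e1, add_zero]
    simp [secW]
  have t1 : ∀ o : {o : ℤ × ℤ // o ∈ A.erase r},
      secW (Pi.single o (1 : ℤ) : {o : ℤ × ℤ // o ∈ A.erase r} → ℤ) * (cutS b (arrQ m G G)).phi (cutX b (arrQ m G G) (arrFlow m (Hf r)) +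
        rowS (ratRow b m G A r Hf) fun o' => (((Pi.single o (1 : ℤ) : {o : ℤ × ℤ // o ∈ A.erase r} → ℤ) o' : ℤ) : ℝ)) =
      Real.exp (-(1 / 2)) * (cutS b (arrQ m G G)).phi (cutX b (arrQ m G G) (arrFlow m (Hf o.1))) := by
    intro o
    have e1 : secW (Pi.single o (1 : ℤ) : {o : ℤ × ℤ // o ∈ A.erase r} → ℤ) = Real.exp (-(1 / 2)) := by
      unfold secW
      congr 1
      have : ∑ o', (((Pi.single o (1 : ℤ) : {o : ℤ × ℤ // o ∈ A.erase r} → ℤ) o' : ℤ) : ℝ) ^ 2 = 1 := by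
        rw [Finset.sum_eq_single o]
        · simp
        · intro o' _ h
          simp [h]
        · intro h
          exact absurd (Finset.mem_univ _) h
      rw [this]
      ring
    rw [e1, phr_rowS]
    congr 4
    funext i f
    rw [Finset.sum_eq_single o]
    · simp
    · intro o' _ h
      simp [h]
    · intro h
      exact absurd (Finset.mem_univ _) h
  rw [t0, Finset.sum_congr rfl fun o _ => t1 o, ← Finset.mul_sum,
    Finset.sum_coe_sort (A.erase r) (fun o => (cutS b (arrQ m G G)).phi (cutX b (arrQ m G G) (arrFlow m (Hf o)))),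
    ← Finset.add_sum_erase A _ hr, mul_add]
  have h5 : 0 ≤ (cutS b (arrQ m G G)).phi (cutX b (arrQ m G G) (arrFlow m (Hf r))) := rd_phi_nonneg hok _
  have h6 : Real.exp (-(1 / 2)) ≤ 1 := by
    rw [Real.exp_le_one_iff]; norm_num
  have h7 := mul_le_mul_of_nonneg_right h6 h5
  linarith

/-- the flow statistic of the zero flux vanishes -/
theorem phr_cutX_zero (b : ℝ) (m G : ℕ) : cutX b (arrQ m G G) (arrFlow m fun _ _ => 0) = 0 := by
  have h1 : arrFlow m (fun _ _ => (0 : ℝ)) = fun e => 0 * arrFlow m (fun _ _ => (0 : ℝ)) e := by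
    funext e
    have := arrFlow_smul m 0 (fun _ _ => (0 : ℝ)) e
    simpa using this
  rw [h1, cutX_smul, zero_smul]

/-- L-PH-R5.  **The denominator.**  `secSum_tendsto_one`.  For `q ≠ 0` take `o` with `q o ≠ 0`: `rowS ℓ q = cutX (arrFlow m H_q)`, `H_q = ∑_{o'} q_{o'} (Hf o' - Hf r)` (`arr_rowS` with `H₀ = 0`), `arr_phi_upper` at the cell `o`, total charge of `H_q o` `= q o` (`hH`; `o ≠ r`), `cph_tendsto_zero`; squeeze with `rd_phi_nonneg`. -/
theorem den_tendsto {b : ℕ → ℝ} {n : ℕ → ℕ} {a : ℝ} (hS : ScaleCoef b n a) (ha : 0 < a) (G : ℕ) (A : Finset (ℤ × ℤ)) (hA : A ⊆ (arrK G G).set)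
    (r : ℤ × ℤ) (hr : r ∈ A) (Hf : ℤ × ℤ → ℤ × ℤ → Fin 4 → ℝ) (hH : ∀ o ∈ A, Radial G o (Hf o)) :
    Tendsto (fun k => secSum (cutS (b k) (arrQ (n k) G G)) (ratRow (b k) (n k) G A r Hf) 0) atTop (𝓝 1) := by
  have hb : ∀ k, 0 < b k := by
    obtain ⟨⟨β₀, β₁, h0, hb⟩, -, -⟩ := hS
    exact fun k => lt_of_lt_of_le h0 (hb k).1
  have hn : ∀ᶠ k in atTop, 0 < n k := hS.2.1.eventually (eventually_gt_atTop 0)
  refine secSum_tendsto_one (fun k => cutS (b k) (arrQ (n k) G G)) (fun k => cutS_ok (b k) (hb k) _)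
    (fun k => ratRow (b k) (n k) G A r Hf) ?_
  intro q hq
  obtain ⟨o, ho⟩ := Function.ne_iff.1 hq
  have ho' : q o ≠ 0 := ho
  set Hq : ℤ × ℤ → Fin 4 → ℝ := fun i f => 0 + ∑ o' : {o : ℤ × ℤ // o ∈ A.erase r}, (q o' : ℝ) * (Hf o'.1 i f - Hf r i f) with hHq
  have hrow : ∀ k, rowS (ratRow (b k) (n k) G A r Hf) (fun o => (q o : ℝ)) = cutX (b k) (arrQ (n k) G G) (arrFlow (n k) Hq) := by
    intro k
    have := phr_rowS (b k) (n k) G A r Hf (fun _ _ => 0) (fun o => (q o : ℝ))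
    rwa [phr_cutX_zero, zero_add] at this
  have hoA : o.1 ∈ A := (Finset.mem_erase.1 o.2).2
  have hor : o.1 ≠ r := (Finset.mem_erase.1 o.2).1
  have hoK : o.1 ∈ (arrK G G).set := hA hoA
  have htot : ∑ f, Hq o.1 f = (q o : ℝ) := by
    simp only [hHq, zero_add]
    rw [Finset.sum_comm]
    have h1 : ∀ o' : {o : ℤ × ℤ // o ∈ A.erase r}, ∑ f, (q o' : ℝ) * (Hf o'.1 o.1 f - Hf r o.1 f) = if o' = o then (q o : ℝ) else 0 := by
      intro o'
      rw [← Finset.mul_sum, Finset.sum_sub_distrib, (hH o'.1 (Finset.mem_erase.1 o'.2).2).2.2 o.1 hoK, (hH r hr).2.2 o.1 hoK, if_neg hor, sub_zero]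
      by_cases h : o' = o
      · rw [if_pos h, h, if_pos rfl, mul_one]
      · rw [if_neg h, if_neg (fun h' => h (Subtype.ext h'.symm)), mul_zero]
    rw [Finset.sum_congr rfl fun o' _ => h1 o', Finset.sum_ite_eq' Finset.univ o (fun _ => (q o : ℝ)), if_pos (Finset.mem_univ _)]
  have hz := cph_tendsto_zero hS ha (Hq o.1) (q o) ho' htot
  refine tendsto_of_tendsto_of_tendsto_of_le_of_le' tendsto_const_nhds hz
    (Eventually.of_forall fun k => rd_phi_nonneg (cutS_ok (b k) (hb k) _) _) ?_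
  filter_upwards [hn] with k hk
  show (cutS (b k) (arrQ (n k) G G)).phi (rowS (ratRow (b k) (n k) G A r Hf) fun o => (q o : ℝ)) ≤ _
  rw [hrow k]
  exact arr_phi_upper (b k) (hb k) (n k) G G hk Hq o.1 hoK

/-- the elementary inequality behind `ph_face_ratio`: collecting the constants -/
theorem phr_const (β C a lG z Z Den S card G2 P : ℝ) (hC : 0 ≤ C) (haβ : a ≤ 4 * Real.pi ^ 2 * β)
    (hP : P = Real.exp (lG * (-(a / (4 * Real.pi))))) (hz : 0 ≤ z) (hZ : 0 ≤ Z) (hG2 : 0 ≤ G2)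
    (hDen : Den ≤ 2) (hcard : G2 / 25 ≤ card)
    (hS : card * (z * Real.exp (-(a * (lG / (2 * Real.pi) + C) / 2 + Real.log 2) - 4 * Real.pi ^ 2 * β * C - Real.log 2)) ≤ S)
    (hfin : Real.exp (-(1 / 2)) * S ≤ Z * Den) :
    Real.exp (-(1 / 2)) / 200 * Real.exp (-(6 * Real.pi ^ 2 * β * C)) * (G2 * P) * z ≤ Z := by
  have hpi := Real.pi_pos
  have h1 : P * Real.exp (-(6 * Real.pi ^ 2 * β * C)) / 4 ≤
      Real.exp (-(a * (lG / (2 * Real.pi) + C) / 2 + Real.log 2) - 4 * Real.pi ^ 2 * β * C - Real.log 2) := by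
    have e4 : Real.exp (-(Real.log 2 + Real.log 2)) = 1 / 4 := by
      rw [Real.exp_neg, Real.exp_add, Real.exp_log (by norm_num)]; norm_num
    have e7 : P * Real.exp (-(6 * Real.pi ^ 2 * β * C)) / 4 =
        P * Real.exp (-(6 * Real.pi ^ 2 * β * C)) * Real.exp (-(Real.log 2 + Real.log 2)) := by
      rw [e4]; ring
    rw [e7, hP, ← Real.exp_add, ← Real.exp_add, Real.exp_le_exp]
    have e5 : a * (lG / (2 * Real.pi) + C) / 2 = lG * (a / (4 * Real.pi)) + a * C / 2 := by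
      field_simp
      ring
    rw [e5]
    have e6 : a * C ≤ 4 * Real.pi ^ 2 * β * C := mul_le_mul_of_nonneg_right haβ hC
    linarith
  set E := Real.exp (-(a * (lG / (2 * Real.pi) + C) / 2 + Real.log 2) - 4 * Real.pi ^ 2 * β * C - Real.log 2) with hE
  have hE0 : 0 ≤ E := (Real.exp_pos _).le
  have he : 0 < Real.exp (-(1 / 2)) := Real.exp_pos _
  have h2 : G2 / 25 * (z * (P * Real.exp (-(6 * Real.pi ^ 2 * β * C)) / 4)) ≤ S := by
    refine le_trans ?_ hS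
    calc G2 / 25 * (z * (P * Real.exp (-(6 * Real.pi ^ 2 * β * C)) / 4)) ≤ G2 / 25 * (z * E) :=
          mul_le_mul_of_nonneg_left (mul_le_mul_of_nonneg_left h1 hz) (by positivity)
      _ ≤ card * (z * E) := mul_le_mul_of_nonneg_right hcard (mul_nonneg hz hE0)
  have h3 : Real.exp (-(1 / 2)) * (G2 / 25 * (z * (P * Real.exp (-(6 * Real.pi ^ 2 * β * C)) / 4))) ≤ Z * 2 :=
    (mul_le_mul_of_nonneg_left h2 he.le).trans (hfin.trans (mul_le_mul_of_nonneg_left hDen hZ))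
  have h4 : Real.exp (-(1 / 2)) / 200 * Real.exp (-(6 * Real.pi ^ 2 * β * C)) * (G2 * P) * z =
      (Real.exp (-(1 / 2)) * (G2 / 25 * (z * (P * Real.exp (-(6 * Real.pi ^ 2 * β * C)) / 4)))) / 2 := by ring
  rw [h4]
  linarith

/-- L-PH-R6 (= `C2.face_ratio`).  `C` from `radial_flux`, `G₀ = 4`, `c = e^{-1/2}/128 · exp(-(2π² + 4π²) β C)`-like.  Fix `G`, choose `Hf` on `A = central G` (`Classical.choose`), `r ∈ A` (`central_card`).  `ratio_finite`, `sector_lower`, `central_card`: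
`e^{-1/2} (G²/16) z_n exp(-(a_n/2)(log G/(2π) + C) - 4π² β C - 2π² β (2 log G/(2π) + 3C)/n) ≤ z_{Gn} Den`.  Eventually `Den ≤ 2` (`den_tendsto`), `a_n ≤ a + ε` with `exp(-(ε/2)(log G/(2π) + C)) ≥ 1/2`, the last term `≥ -log 2`; `a ≤ 4π² β` (`fr_aCoef_le`, `le_of_tendsto`);
`exp(-(a/2) log G/(2π)) = G^{-a/(4π)}` (`Real.rpow_def_of_pos`), `G² G^{-a/(4π)} = G^{2 - a/(4π)}` (`Real.rpow_add`). -/
theorem ph_face_ratio (β : ℝ) : ∃ (c : ℝ) (G₀ : ℕ), 0 < c ∧ ∀ G : ℕ, G₀ ≤ G → ∀ (b : ℕ → ℝ) (n : ℕ → ℕ) (a : ℝ),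
    ScaleCoef b n a → (∀ k, b k ≤ β) → 0 < a →
    ∀ᶠ k in atTop, c * (G : ℝ) ^ (2 - a / (4 * Real.pi)) * zface (b k) (n k) ≤ zface (b k) (G * n k) := by
  obtain ⟨C₀, hC₀⟩ := radial_flux
  set C : ℝ := max C₀ 0 with hCdef
  have hC : 0 ≤ C := le_max_right _ _
  have hCC : C₀ ≤ C := le_max_left _ _
  refine ⟨Real.exp (-(1 / 2)) / 200 * Real.exp (-(6 * Real.pi ^ 2 * β * C)), 4, by positivity, ?_⟩
  intro G hG b n a hS hbβ ha
  have hpi := Real.pi_pos
  have hb : ∀ k, 0 < b k := by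
    obtain ⟨⟨β₀, β₁, h0, hb⟩, -, -⟩ := hS
    exact fun k => lt_of_lt_of_le h0 (hb k).1
  have hβ : 0 < β := lt_of_lt_of_le (hb 0) (hbβ 0)
  have hGpos : (0 : ℝ) < G := by exact_mod_cast (by omega : 0 < G)
  have hlG : 0 ≤ Real.log G := Real.log_nonneg (by exact_mod_cast (by omega : 1 ≤ G))
  have hex : ∀ o : ℤ × ℤ, ∃ H : ℤ × ℤ → Fin 4 → ℝ, o ∈ central G →
      (Radial G o H ∧ enD G H ≤ Real.log G / (2 * Real.pi) + C ∧ enS G H ≤ C) := by
    intro o
    by_cases ho : o ∈ central G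
    · obtain ⟨H, h1, h2, h3⟩ := hC₀ G hG o ho
      exact ⟨H, fun _ => ⟨h1, by linarith, by linarith⟩⟩
    · exact ⟨fun _ _ => 0, fun h => absurd h ho⟩
  choose Hf hHf using hex
  obtain ⟨r, hr⟩ := phr_central_nonempty G hG
  set L : ℝ := Real.log G / (2 * Real.pi) + C with hL
  have hL0 : 0 ≤ L := by positivity
  have hden := den_tendsto hS ha G (central G) (phr_central_sub G) r hr Hf (fun o ho => (hHf o ho).1)
  have e1 : ∀ᶠ k in atTop, secSum (cutS (b k) (arrQ (n k) G G)) (ratRow (b k) (n k) G (central G) r Hf) 0 ≤ 2 :=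
    hden.eventually (eventually_le_nhds (by norm_num : (1 : ℝ) < 2))
  have hat : Tendsto (fun k => aCoef (b k) (n k)) atTop (𝓝 a) :=
    hS.2.2 n 1 1 one_pos (Eventually.of_forall fun k => ⟨by simp, by simp⟩)
  have hlog2 : 0 < Real.log 2 := Real.log_pos (by norm_num)
  have e2 : ∀ᶠ k in atTop, aCoef (b k) (n k) * L / 2 ≤ a * L / 2 + Real.log 2 := by
    have h1 : Tendsto (fun k => aCoef (b k) (n k) * L / 2) atTop (𝓝 (a * L / 2)) := (hat.mul_const L).div_const 2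
    exact h1.eventually (eventually_le_nhds (by linarith))
  have e3 : ∀ᶠ k in atTop, 2 * Real.pi ^ 2 * β * (2 * L + C / 2) / (n k : ℝ) ≤ Real.log 2 := by
    have h1 : Tendsto (fun k => 2 * Real.pi ^ 2 * β * (2 * L + C / 2) / (n k : ℝ)) atTop (𝓝 0) :=
      tendsto_const_nhds.div_atTop (tendsto_natCast_atTop_atTop.comp hS.2.1)
    exact h1.eventually (eventually_le_nhds hlog2)
  have e4 : ∀ᶠ k in atTop, 0 < n k := hS.2.1.eventually (eventually_gt_atTop 0)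
  have haβ : a ≤ 4 * Real.pi ^ 2 * β :=
    le_of_tendsto' hat fun k => (fr_aCoef_le (b k) (hb k) (n k)).trans (mul_le_mul_of_nonneg_left (hbβ k) (by positivity))
  filter_upwards [e1, e2, e3, e4] with k k1 k2 k3 k4
  have hfin := ratio_finite (b k) (hb k) (n k) G k4 (by omega) (central G) (phr_central_sub G) r hr Hf (fun o ho => (hHf o ho).1)
  have hz : 0 < zface (b k) (n k) := phr_zpos (b k) (hb k) (n k)
  have hZ : 0 < zface (b k) (G * n k) := phr_zpos (b k) (hb k) _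
  have hnk : (0 : ℝ) < n k := by exact_mod_cast k4
  have hsec : ∀ o ∈ central G, zface (b k) (n k) * Real.exp (-(a * L / 2 + Real.log 2) - 4 * Real.pi ^ 2 * β * C - Real.log 2) ≤
      (cutS (b k) (arrQ (n k) G G)).phi (cutX (b k) (arrQ (n k) G G) (arrFlow (n k) (Hf o))) := by
    intro o ho
    obtain ⟨h1, h2, h3⟩ := hHf o ho
    refine le_trans (mul_le_mul_of_nonneg_left (Real.exp_le_exp.2 ?_) hz.le)
      (sector_lower (b k) (hb k) (n k) G k4 o (phr_central_sub G ho) (Hf o) h1)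
    have hD := phr_enD_nonneg G (Hf o)
    have hSn := phr_enS_nonneg G (Hf o)
    have a0 : 0 ≤ aCoef (b k) (n k) := fr_aCoef_nonneg _ (hb k) _
    have a1 : aCoef (b k) (n k) * enD G (Hf o) / 2 ≤ a * L / 2 + Real.log 2 := by
      have := mul_le_mul_of_nonneg_left h2 a0
      linarith
    have a2 : 4 * Real.pi ^ 2 * b k * enS G (Hf o) ≤ 4 * Real.pi ^ 2 * β * C :=
      mul_le_mul (mul_le_mul_of_nonneg_left (hbβ k) (by positivity)) h3 hSn (by positivity)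
    have a3 : 2 * Real.pi ^ 2 * b k * (2 * enD G (Hf o) + enS G (Hf o) / 2) / (n k : ℝ) ≤ Real.log 2 := by
      refine le_trans ?_ k3
      refine div_le_div_of_nonneg_right ?_ hnk.le
      exact mul_le_mul (mul_le_mul_of_nonneg_left (hbβ k) (by positivity)) (by linarith) (by positivity) (by positivity)
    linarith
  have hsum : ((central G).card : ℝ) * (zface (b k) (n k) * Real.exp (-(a * L / 2 + Real.log 2) - 4 * Real.pi ^ 2 * β * C - Real.log 2)) ≤
      ∑ o ∈ central G, (cutS (b k) (arrQ (n k) G G)).phi (cutX (b k) (arrQ (n k) G G) (arrFlow (n k) (Hf o))) := by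
    have := Finset.card_nsmul_le_sum (central G) _ _ hsec
    rwa [nsmul_eq_mul] at this
  have hpow : (G : ℝ) ^ (2 - a / (4 * Real.pi)) = (G : ℝ) ^ 2 * (G : ℝ) ^ (-(a / (4 * Real.pi))) := by
    rw [sub_eq_add_neg, Real.rpow_add hGpos, Real.rpow_two]
  rw [hpow]
  exact phr_const β C a (Real.log G) _ _ _ _ _ ((G : ℝ) ^ 2) _ hC haβ (Real.rpow_def_of_pos hGpos _) hz.le hZ.le (by positivity)
    k1 (central_card G hG) hsum hfin

/-- L-PH-R7 (= `C2.face_ratio_rough`).  One radial flux (`radial_flux`, `central_card` gives a central cell), `sector_lower`, `arr_phi_le`, `arr_zface`; `a_m ≤ 4π² β₁` (`fr_aCoef_le`), `m ≥ 1`.  `m₀ = 1`. -/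
theorem ph_face_ratio_rough (β₀ β₁ : ℝ) (h0 : 0 < β₀) (G : ℕ) (hG : 4 ≤ G) : ∃ (c : ℝ) (m₀ : ℕ), 0 < c ∧
    ∀ m : ℕ, m₀ ≤ m → ∀ b : ℝ, β₀ ≤ b → b ≤ β₁ → c * zface b m ≤ zface b (G * m) := by
  obtain ⟨C, hC⟩ := radial_flux
  obtain ⟨o, ho⟩ := phr_central_nonempty G hG
  obtain ⟨H, hR, -, -⟩ := hC G hG o ho
  have hD := phr_enD_nonneg G H
  have hSn := phr_enS_nonneg G H
  refine ⟨Real.exp (-(4 * Real.pi ^ 2 * β₁ * enD G H / 2) - 4 * Real.pi ^ 2 * β₁ * enS G H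
    - 2 * Real.pi ^ 2 * β₁ * (2 * enD G H + enS G H / 2)), 1, Real.exp_pos _, ?_⟩
  intro m hm b hb0 hb1
  have hb : 0 < b := lt_of_lt_of_le h0 hb0
  have hm' : 0 < m := hm
  have h1 := sector_lower b hb m G hm' o (phr_central_sub G ho) H hR
  have h2 := arr_phi_le b hb m G G hm' (arrFlow m H)
  rw [arr_zface b m G hm' (by omega) H hR.1 hR.2.1 (phr_radial_tot hR)] at h2
  refine le_trans ?_ (h1.trans h2)
  rw [mul_comm]
  refine mul_le_mul_of_nonneg_left (Real.exp_le_exp.2 ?_) ((show 0 < zface b m by rw [zface_eq]; exact (ph_pos _ b hb _).1)).le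
  have ha := fr_aCoef_le b hb m
  have hpi : 0 ≤ Real.pi ^ 2 := by positivity
  have a1 : aCoef b m * enD G H ≤ 4 * Real.pi ^ 2 * β₁ * enD G H := by
    refine mul_le_mul_of_nonneg_right (ha.trans ?_) hD
    exact mul_le_mul_of_nonneg_left hb1 (by positivity)
  have a2 : 4 * Real.pi ^ 2 * b * enS G H ≤ 4 * Real.pi ^ 2 * β₁ * enS G H :=
    mul_le_mul_of_nonneg_right (mul_le_mul_of_nonneg_left hb1 (by positivity)) hSn
  have a3 : 2 * Real.pi ^ 2 * b * (2 * enD G H + enS G H / 2) / m ≤ 2 * Real.pi ^ 2 * β₁ * (2 * enD G H + enS G H / 2) := by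
    have hm1 : (1 : ℝ) ≤ m := by exact_mod_cast hm
    have hX : 0 ≤ 2 * Real.pi ^ 2 * b * (2 * enD G H + enS G H / 2) := by positivity
    calc 2 * Real.pi ^ 2 * b * (2 * enD G H + enS G H / 2) / m ≤ 2 * Real.pi ^ 2 * b * (2 * enD G H + enS G H / 2) :=
          div_le_self hX hm1
      _ ≤ _ := mul_le_mul_of_nonneg_right (mul_le_mul_of_nonneg_left hb1 (by positivity)) (by positivity)
  linarith

/-- (= `C2.zface_pos`, all `m`) -/
theorem ph_zface_pos (b : ℝ) (hb : 0 < b) (m : ℕ) : 0 < zface b m := by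
  rw [zface_eq]; exact (ph_pos _ b hb _).1

/-- (= `C2.zface_le_one`) -/
theorem ph_zface_le_one (b : ℝ) (hb : 0 < b) (m : ℕ) : zface b m ≤ 1 := by
  rw [zface_eq]; exact (ph_pos _ b hb _).2

/-- (= `C2.zface_mono_b`) -/
theorem ph_zface_mono_b (b b' : ℝ) (hb : 0 < b) (hbb : b ≤ b') (m : ℕ) : zface b' m ≤ zface b m := by
  rw [zface_eq, zface_eq]; exact ph_mono_b _ b b' hb hbb _

/-- L-PH-R8 (= `C2.gap`).  Suppose `0 < a = aLim b < 8π` (`a ≥ 0`: `fr_scaleCoef_nonneg`).  `ph_face_ratio b` gives `c, G₀`; `2 - a/(4π) > 0`: choose `G ≥ max G₀ 2` with `c G^{2 - a/(4π)} ≥ 2` (`tendsto_rpow_atTop`).  `fr_scaleCoef_fixed` with `n k = k`: there is `k₀ ≥ 1` with `2 z_k ≤ z_{Gk}` for `k ≥ k₀`.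
Induction: `2^j z_{k₀} ≤ z_{G^j k₀} ≤ 1` (`ph_zface_le_one`), `z_{k₀} > 0` (`ph_zface_pos`): contradiction for large `j`. -/
theorem ph_gap (b : ℝ) (hb : 0 < b) : aLim b = 0 ∨ 8 * Real.pi ≤ aLim b := by
  by_contra hcon
  rw [not_or, not_le] at hcon
  obtain ⟨h0, h8⟩ := hcon
  have hS := fr_scaleCoef_fixed b hb (fun k => k) tendsto_id
  have ha0 : 0 ≤ aLim b := fr_scaleCoef_nonneg hS
  have ha : 0 < aLim b := lt_of_le_of_ne ha0 (Ne.symm h0)
  obtain ⟨c, G₀, hc, hG⟩ := ph_face_ratio b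
  have hs : 0 < 2 - aLim b / (4 * Real.pi) := by
    have hpi := Real.pi_pos
    have : aLim b / (4 * Real.pi) < 2 := by
      rw [div_lt_iff₀ (by positivity)]
      linarith
    linarith
  have ht : Tendsto (fun G : ℕ => c * (G : ℝ) ^ (2 - aLim b / (4 * Real.pi))) atTop atTop :=
    ((tendsto_rpow_atTop hs).comp tendsto_natCast_atTop_atTop).const_mul_atTop hc
  obtain ⟨G, hG1, hG2, hG3⟩ := ((ht.eventually (eventually_ge_atTop 2)).and
    ((eventually_ge_atTop G₀).and (eventually_ge_atTop 1))).exists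
  have hev := hG G hG2 (fun _ => b) (fun k => k) (aLim b) hS (fun _ => le_rfl) ha
  obtain ⟨k₀, hk₀⟩ := eventually_atTop.1 hev
  have hind : ∀ j : ℕ, (2 : ℝ) ^ j * zface b (max k₀ 1) ≤ zface b (G ^ j * max k₀ 1) := by
    intro j
    induction j with
    | zero => simp
    | succ j ih =>
      have h1 : k₀ ≤ G ^ j * max k₀ 1 := by
        have : 1 ≤ G ^ j := Nat.one_le_pow _ _ hG3
        calc k₀ ≤ max k₀ 1 := le_max_left _ _
          _ = 1 * max k₀ 1 := (one_mul _).symm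
          _ ≤ G ^ j * max k₀ 1 := Nat.mul_le_mul_right _ this
      have h2 := hk₀ _ h1
      have h3 : 0 < zface b (G ^ j * max k₀ 1) := ph_zface_pos b hb _
      have h4 : G ^ (j + 1) * max k₀ 1 = G * (G ^ j * max k₀ 1) := by ring
      rw [h4]
      calc (2 : ℝ) ^ (j + 1) * zface b (max k₀ 1) = 2 * ((2 : ℝ) ^ j * zface b (max k₀ 1)) := by ring
        _ ≤ 2 * zface b (G ^ j * max k₀ 1) := by linarith
        _ ≤ c * (G : ℝ) ^ (2 - aLim b / (4 * Real.pi)) * zface b (G ^ j * max k₀ 1) :=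
            mul_le_mul_of_nonneg_right hG1 h3.le
        _ ≤ _ := h2
  have hz : 0 < zface b (max k₀ 1) := ph_zface_pos b hb _
  obtain ⟨j, hj⟩ := pow_unbounded_of_one_lt (1 / zface b (max k₀ 1)) (one_lt_two : (1 : ℝ) < 2)
  have h5 := (hind j).trans (ph_zface_le_one b hb _)
  rw [div_lt_iff₀ hz] at hj
  linarith

end

end Claimed.Agent.R285.Phase
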