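import Claimed.Agent.R285.Phase.Two
import Claimed.Agent.R285.Free.Pot

/-!
# ROW 285, unit FREE / PHASE, file 5: uniform fractional means on nondegenerate RECTANGLES (= `C2.uniform_phase`, consumer `Tor/Link.lean`) and `C2.chr_transfer` (consumer `F5/TorPhase.lean`)      (helper200)

`uniform_chr` (Two.lean) treats squares at the origin.  A rectangle `R = [0,p) × [0,q)`, `c n ≤ p, q ≤ K n`, sits in the square `S = sq m`, `m = max p q`.
1. `un_sub_ph_le`: a flow carried by the bonds of `R` has a SMALLER characteristic coefficient in `R` than in `S` (`fr_cut_ref'` with the single piece `R`, `lsys_phi_mono`).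
2. In `S` the flow `w 1_R + pathFlow_R (l unif_R)` has the divergence `dv_R w + l unif_R - l δ_0`; `l (unif_R - unif_S) = lap_S γ`, `γ` of bounded energy (`fr_reg_smear`, `fr_reg_bdd`): it is the test `chr_S (l unif_S) (w 1_R + ∇γ)`: `uniform_chr` at the scale `m` (`fr_scaleCoef_comparable`).
3. Translations: `un_chr_transl`.
No sorry in this file.
-/

set_option autoImplicit false

namespace Claimed.Agent.R285.Phase

open Filter Topology C2 Free
open scoped Classical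

noncomputable section

/-- L-PH-U1 (= `C2.chr_transfer`).  `chr_eq_ph`, `flowX_add`, `lsys_phase_transfer`, `fr_var_ref`. -/
theorem ph_chr_transfer (R : Rc) (b : ℝ) (hb : 0 < b) (s : ℤ × ℤ → ℝ) (w w' : Bond → ℝ) :
    Real.sqrt (-Real.log (R.chr b s (fun e => w e + w' e))) ≤
      Real.sqrt (-Real.log (R.chr b s w)) + Real.sqrt (2 * Real.pi ^ 2 * b * R.cost w') := by
  rw [chr_eq_ph, chr_eq_ph]
  have e : R.flowX b (fun e => w e + w' e + R.pathFlow s e) = R.flowX b (fun e => w e + R.pathFlow s e) + R.flowX b w' := by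
    rw [← flowX_add]
    exact flowX_congr R b fun e _ => by ring
  unfold Rc.ph
  rw [e]
  refine (lsys_phase_transfer _ (fr_ok R b hb) _ _).trans (add_le_add le_rfl (Real.sqrt_le_sqrt ?_))
  have := fr_var_ref R b hb w'
  unfold Rc.var at this
  linarith

/-- L-PH-U1.  **A flow carried by a sub-rectangle.**  `fr_cut_ref'` with the single piece `R`, `lsys_phi_mono`, `cut_phi`. -/
theorem un_sub_ph_le (R S : Rc) (hsub : R.set ⊆ S.set) (b : ℝ) (hb : 0 < b) (w : Bond → ℝ) (hw : ∀ e ∈ S.bd, e ∉ R.bd → w e = 0) :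
    R.ph b w ≤ S.ph b w := by
  obtain ⟨r, hr⟩ := fr_cut_ref' S b (fun _ : Unit => R) (fun _ => hsub) (fun i j h => absurd (Subsingleton.elim i j) h)
  have h := lsys_phi_mono r (cutS_ok b hb _) (fr_ok _ b hb) (cutX b (fun _ : Unit => R) w)
  have h2 : (cutX b (fun _ : Unit => R) w).comp r.psi = S.flowX b w := hr w fun e he h => hw e he (h ())
  have h3 := cut_phi b hb (fun _ : Unit => R) w
  have h4 : (cutS b fun _ : Unit => R).phi (cutX b (fun _ : Unit => R) w) ≤ S.ph b w :=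
    h.trans (le_of_eq (congrArg (S.sys b).phi h2))
  rw [h3] at h4
  simpa using h4

/-- L-PH-U2. -/
theorem un_bd_sub {R S : Rc} (hsub : R.set ⊆ S.set) : R.bd ⊆ S.bd := fun _ he =>
  mem_bd.2 ⟨hsub (mem_bd.1 he).1, hsub (mem_bd.1 he).2⟩

/-- L-PH-U2.  The divergence in `S` of a flow carried by `R`. -/
theorem un_dv_sub (R S : Rc) (hsub : R.set ⊆ S.set) (w : Bond → ℝ) (v : ℤ × ℤ) :
    S.dv (fun e => if e ∈ R.bd then w e else 0) v = R.dv w v := by
  unfold Rc.dv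
  rw [← Finset.sum_subset (un_bd_sub hsub)]
  · exact Finset.sum_congr rfl fun e he => by simp only [if_pos he]
  · intro e _ he
    simp only [if_neg he, zero_mul]

/-- L-PH-U2. -/
theorem un_cost_sub (R S : Rc) (hsub : R.set ⊆ S.set) (w : Bond → ℝ) : S.cost (fun e => if e ∈ R.bd then w e else 0) = R.cost w := by
  unfold Rc.cost
  rw [← Finset.sum_subset (un_bd_sub hsub)]
  · exact Finset.sum_congr rfl fun e he => by simp only [if_pos he]
  · intro e _ he
    simp only [if_neg he]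
    ring

/-- L-PH-U2. -/
theorem un_cost_add_le (R : Rc) (w w' : Bond → ℝ) : R.cost (fun e => w e + w' e) ≤ 2 * R.cost w + 2 * R.cost w' := by
  unfold Rc.cost
  rw [Finset.mul_sum, Finset.mul_sum, ← Finset.sum_add_distrib]
  exact Finset.sum_le_sum fun e _ => by nlinarith [sq_nonneg (w e - w' e)]

/-- L-PH-U3.  Membership in a translate. -/
theorem un_mem_transl (R : Rc) (u v : ℤ × ℤ) : v + u ∈ (Rc.mk (R.o + u) R.p R.q).set ↔ v ∈ R.set := by
  rw [fr_mem_set, fr_mem_set]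
  simp only [Prod.fst_add, Prod.snd_add]
  constructor <;> intro h <;> refine ⟨⟨?_, ?_⟩, ?_, ?_⟩ <;> omega

/-- L-PH-U3. -/
theorem un_mem_bd_transl (R : Rc) (u : ℤ × ℤ) (e : Bond) : ((e.1 + u, e.2) : Bond) ∈ (Rc.mk (R.o + u) R.p R.q).bd ↔ e ∈ R.bd := by
  rw [mem_bd, mem_bd, un_mem_transl]
  have : Bond.snd (e.1 + u, e.2) = e.snd + u := by
    obtain ⟨x, d⟩ := e
    cases d <;> simp [Bond.snd, Prod.ext_iff] <;> ring
  rw [this, un_mem_transl]

/-- L-PH-U3.  `Finset.sum_nbij'` with `v ↦ v + u`. -/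
theorem un_sum_transl (R : Rc) (u : ℤ × ℤ) (f : ℤ × ℤ → ℝ) : ∑ v ∈ (Rc.mk (R.o + u) R.p R.q).set, f (v - u) = ∑ v ∈ R.set, f v := by
  refine Finset.sum_nbij' (fun v => v - u) (fun v => v + u) ?_ ?_ ?_ ?_ ?_
  · intro v hv
    rw [← un_mem_transl R u, sub_add_cancel]
    exact hv
  · intro v hv
    exact (un_mem_transl R u v).2 hv
  · intro v _
    exact sub_add_cancel v u
  · intro v _
    exact add_sub_cancel_right v u
  · intro v _
    rfl

/-- L-PH-U3.  `Finset.sum_nbij'` with `e ↦ (e.1 + u, e.2)`. -/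
theorem un_sum_bd_transl (R : Rc) (u : ℤ × ℤ) (f : Bond → ℝ) : ∑ e ∈ (Rc.mk (R.o + u) R.p R.q).bd, f (e.1 - u, e.2) = ∑ e ∈ R.bd, f e := by
  refine Finset.sum_nbij' (fun e => (e.1 - u, e.2)) (fun e => (e.1 + u, e.2)) ?_ ?_ ?_ ?_ ?_
  · intro e he
    rw [← un_mem_bd_transl R u]
    simpa using he
  · intro e he
    exact (un_mem_bd_transl R u e).2 he
  · intro e _
    simp
  · intro e _
    simp
  · intro e _
    rfl

/-- L-PH-U3. -/
theorem un_cost_transl (R : Rc) (u : ℤ × ℤ) (w : Bond → ℝ) : (Rc.mk (R.o + u) R.p R.q).cost (fun e => w (e.1 - u, e.2)) = R.cost w :=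
  un_sum_bd_transl R u fun e => w e ^ 2

/-- L-PH-U3. -/
theorem un_dv_transl (R : Rc) (u : ℤ × ℤ) (w : Bond → ℝ) (v : ℤ × ℤ) :
    (Rc.mk (R.o + u) R.p R.q).dv (fun e => w (e.1 - u, e.2)) (v + u) = R.dv w v := by
  unfold Rc.dv
  rw [← un_sum_bd_transl R u]
  refine Finset.sum_congr rfl fun e _ => ?_
  have h1 : (e.snd = v + u) ↔ Bond.snd (e.1 - u, e.2) = v := by
    obtain ⟨x, d⟩ := e
    cases d <;> simp [Bond.snd, Prod.ext_iff] <;> constructor <;> rintro ⟨h, h'⟩ <;> constructor <;> linarith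
  have h2 : (e.1 = v + u) ↔ e.1 - u = v := by
    rw [sub_eq_iff_eq_add]
  simp only [h1, h2]

/-- L-PH-U3.  **The characteristic coefficients do not depend on the position** (the pinned corner moves with the rectangle): `chr_eq_ph`, `ph_sym` with `σ = Equiv.addRight u`, `n = 0`; `dv_add`, `dv_pathFlow`, `un_dv_transl`, `un_sum_transl`. -/
theorem un_chr_transl (R : Rc) (u : ℤ × ℤ) (b : ℝ) (s : ℤ × ℤ → ℝ) (w : Bond → ℝ) :
    (Rc.mk (R.o + u) R.p R.q).chr b (fun v => s (v - u)) (fun e => w (e.1 - u, e.2)) = R.chr b s w := by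
  rw [chr_eq_ph, chr_eq_ph]
  refine ph_sym (Equiv.addRight u) (latIso_addRight u) R _ (fun v => ?_) b _ _ fun x hx => ⟨0, ?_⟩
  · rw [← un_mem_transl R u]
    simp
  · have hx' : x + u ∈ (Rc.mk (R.o + u) R.p R.q).set := (un_mem_transl R u x).2 hx
    show (Rc.mk (R.o + u) R.p R.q).dv _ (x + u) = _
    rw [dv_add, dv_add, dv_pathFlow _ _ _ hx', dv_pathFlow _ _ _ hx, un_dv_transl, un_sum_transl R u s, add_sub_cancel_right]
    have : (x + u = (Rc.mk (R.o + u) R.p R.q).o) ↔ x = R.o := by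
      show x + u = R.o + u ↔ _
      exact add_left_inj u
    simp only [this]
    simp

/-- L-PH-U4.  `uniform_chr` with a bound which holds eventually. -/
theorem uniform_chr' {b : ℕ → ℝ} {n : ℕ → ℕ} {a : ℝ} (hS : ScaleCoef b n a) (ha : 0 < a) (l : ℤ) (hl : l ≠ 0)
    (w : ℕ → Bond → ℝ) (C : ℝ) (hw : ∀ᶠ k in atTop, (C2.sq (n k)).cost (w k) ≤ C) :
    Tendsto (fun k => (C2.sq (n k)).chr (b k) (fun v => (l : ℝ) * (C2.sq (n k)).unif v) (w k)) atTop (𝓝 0) := by
  let w' : ℕ → Bond → ℝ := fun k => if (C2.sq (n k)).cost (w k) ≤ C then w k else 0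
  have hw' : ∀ k, (C2.sq (n k)).cost (w' k) ≤ max C 0 := by
    intro k
    by_cases h : (C2.sq (n k)).cost (w k) ≤ C
    · simp only [w', if_pos h]
      exact h.trans (le_max_left _ _)
    · simp only [w', if_neg h]
      refine le_trans (le_of_eq ?_) (le_max_right _ _)
      simp [Rc.cost]
  refine (uniform_chr hS ha l hl w' (max C 0) hw').congr' ?_
  filter_upwards [hw] with k hk
  simp only [w', if_pos hk]

/-- L-PH-U4. -/
theorem un_sum_unif_sq (R : Rc) (hp : 0 < R.p) (hq : 0 < R.q) : ∑ v ∈ R.set, R.unif v ^ 2 = ((R.p : ℝ) * R.q)⁻¹ := by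
  have h : ∀ v ∈ R.set, R.unif v ^ 2 = ((R.p : ℝ) * R.q)⁻¹ * R.unif v := by
    intro v hv
    unfold Rc.unif
    rw [if_pos hv]
    ring
  rw [Finset.sum_congr rfl h, ← Finset.mul_sum, sum_unif R hp hq, mul_one]

/-- L-PH-U5.  The divergence of the path flow of the uniform charge, at all sites. -/
theorem un_dv_path_unif (R : Rc) (hp : 0 < R.p) (hq : 0 < R.q) (l : ℝ) (v : ℤ × ℤ) :
    R.dv (R.pathFlow fun u => l * R.unif u) v = l * R.unif v - l * (if v = R.o then 1 else 0) := by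
  by_cases hv : v ∈ R.set
  · rw [dv_pathFlow R _ v hv, ← Finset.mul_sum, sum_unif R hp hq, mul_one]
  · rw [dv_off R _ hv]
    have ho : R.o ∈ R.set := by
      rw [fr_mem_set]
      refine ⟨⟨le_rfl, ?_⟩, le_rfl, ?_⟩ <;> omega
    have h1 : v ≠ R.o := fun h => hv (h ▸ ho)
    unfold Rc.unif
    rw [if_neg hv, if_neg h1]
    ring

/-- L-PH-U5.  **The finite comparison**: a rectangle in a bigger one with the same corner; `γ` = potential of the difference of the uniform probabilities. -/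
theorem un_chr_le (R S : Rc) (hsub : R.set ⊆ S.set) (ho : S.o = R.o) (hp : 0 < R.p) (hq : 0 < R.q) (hp' : 0 < S.p) (hq' : 0 < S.q)
    (b : ℝ) (hb : 0 < b) (l : ℝ) (w : Bond → ℝ) (γ : ℤ × ℤ → ℝ) (hγ : ∀ v ∈ S.set, S.lap γ v = l * (R.unif v - S.unif v)) :
    R.chr b (fun v => l * R.unif v) w ≤
      S.chr b (fun v => l * S.unif v) (fun e => (if e ∈ R.bd then w e else 0) + gd γ e) := by
  rw [chr_eq_ph, chr_eq_ph]
  have e1 : R.ph b (fun e => w e + R.pathFlow (fun v => l * R.unif v) e)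
      = R.ph b (fun e => if e ∈ R.bd then w e + R.pathFlow (fun v => l * R.unif v) e else 0) := by
    unfold Rc.ph
    rw [flowX_congr R b fun e he => ?_]
    simp only [if_pos he]
  have e2 : S.flowX b (fun e => if e ∈ R.bd then w e + R.pathFlow (fun v => l * R.unif v) e else 0)
      = S.flowX b (fun e => (if e ∈ R.bd then w e else 0) + gd γ e + S.pathFlow (fun v => l * S.unif v) e) := by
    refine flowX_eq_of_dv S b fun v hv => ?_
    rw [un_dv_sub R S hsub, dv_add, dv_add, dv_add, un_dv_sub R S hsub, un_dv_path_unif R hp hq, un_dv_path_unif S hp' hq', ho]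
    have : S.dv (gd γ) v = l * (R.unif v - S.unif v) := hγ v hv
    rw [this]
    ring
  rw [e1]
  refine (un_sub_ph_le R S hsub b hb _ fun e _ he => by simp only [if_neg he]).trans (le_of_eq ?_)
  unfold Rc.ph
  rw [e2]

/-- L-PH-U5.  **Rectangles at the origin.**  See the header. -/
theorem uniform_rc0 {b : ℕ → ℝ} {n : ℕ → ℕ} {a : ℝ} (hS : ScaleCoef b n a) (ha : 0 < a) (p q : ℕ → ℕ) (c K : ℝ) (hc : 0 < c)
    (hpq : ∀ k, c * n k ≤ p k ∧ c * n k ≤ q k ∧ (p k : ℝ) ≤ K * n k ∧ (q k : ℝ) ≤ K * n k)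
    (l : ℤ) (hl : l ≠ 0) (w : ℕ → Bond → ℝ) (C : ℝ) (hw : ∀ k, (Rc.mk (0, 0) (p k) (q k)).cost (w k) ≤ C) :
    Tendsto (fun k => (Rc.mk (0, 0) (p k) (q k)).chr (b k) (fun v => (l : ℝ) * (Rc.mk (0, 0) (p k) (q k)).unif v) (w k)) atTop (𝓝 0) := by
  set R : ℕ → Rc := fun k => Rc.mk (0, 0) (p k) (q k) with hRdef
  set m : ℕ → ℕ := fun k => max (p k) (q k) with hmdef
  set S : ℕ → Rc := fun k => C2.sq (m k) with hSdef
  have hpm : ∀ k, p k ≤ m k := fun k => le_max_left _ _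
  have hqm : ∀ k, q k ≤ m k := fun k => le_max_right _ _
  have hsub : ∀ k, (R k).set ⊆ (S k).set := by
    intro k v hv
    rw [fr_mem_set] at hv ⊢
    have h1 := hpm k
    have h2 := hqm k
    simp only [hRdef, hSdef, C2.sq] at hv ⊢
    refine ⟨⟨hv.1.1, ?_⟩, hv.2.1, ?_⟩ <;> omega
  have hmK : ∀ k, (m k : ℝ) ≤ K * n k := by
    intro k
    rcases le_total (p k) (q k) with h | h
    · simp only [hmdef, max_eq_right h]; exact (hpq k).2.2.2
    · simp only [hmdef, max_eq_left h]; exact (hpq k).2.2.1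
  have hSm : ScaleCoef b m a := fr_scaleCoef_comparable hS c K hc (Eventually.of_forall fun k =>
    ⟨(hpq k).1.trans (by exact_mod_cast hpm k), hmK k⟩)
  have hb : ∀ k, 0 < b k := by
    obtain ⟨β₀, β₁, h0, h1⟩ := hS.1
    exact fun k => lt_of_lt_of_le h0 (h1 k).1
  have hpos : ∀ᶠ k in atTop, 0 < p k ∧ 0 < q k := by
    filter_upwards [hS.2.1.eventually_ge_atTop 1] with k hk
    have hn : (0 : ℝ) < n k := by exact_mod_cast hk
    have h1 : (0 : ℝ) < p k := lt_of_lt_of_le (mul_pos hc hn) (hpq k).1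
    have h2 : (0 : ℝ) < q k := lt_of_lt_of_le (mul_pos hc hn) (hpq k).2.1
    exact ⟨by exact_mod_cast h1, by exact_mod_cast h2⟩
  have hAdm : AdmN m S := by
    refine ⟨⟨1, fun k => ?_⟩, 1, one_pos, fun k => ?_⟩
    · simp [hSdef, C2.sq]
    · simp [hSdef, C2.sq]
  let f : ℕ → ℤ × ℤ → ℝ := fun k v => if 0 < p k ∧ 0 < q k then (l : ℝ) * ((R k).unif v - (S k).unif v) else 0
  have hsumR : ∀ k (g : ℤ × ℤ → ℝ), (∀ v, v ∉ (R k).set → g v = 0) → ∑ v ∈ (S k).set, g v = ∑ v ∈ (R k).set, g v := by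
    intro k g hg
    exact (Finset.sum_subset (hsub k) fun v _ hv => hg v hv).symm
  have hunif0 : ∀ k v, v ∉ (R k).set → (R k).unif v = 0 := by
    intro k v hv
    unfold Rc.unif
    rw [if_neg hv]
  set C₁ : ℝ := 2 * (l : ℝ) ^ 2 * (K ^ 2 / c ^ 2 + 1) with hC₁
  have hC₁0 : 0 ≤ C₁ := by positivity
  have h0 : ∀ k, ∑ v ∈ (S k).set, (f k v + (fun _ _ => (0 : ℝ)) k v) = 0 := by
    intro k
    simp only [add_zero]
    by_cases h : 0 < p k ∧ 0 < q k
    · simp only [f, if_pos h]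
      have hm0 : 0 < m k := lt_of_lt_of_le h.1 (hpm k)
      rw [← Finset.mul_sum, Finset.sum_sub_distrib, hsumR k _ (hunif0 k), sum_unif (R k) h.1 h.2, sum_unif (S k) hm0 hm0]
      ring
    · simp only [f, if_neg h, Finset.sum_const_zero]
  have h1 : ∀ k, (m k : ℝ) ^ 2 * ∑ v ∈ (S k).set, f k v ^ 2 ≤ C₁ := by
    intro k
    by_cases h : 0 < p k ∧ 0 < q k
    · simp only [f, if_pos h]
      have hm0 : 0 < m k := lt_of_lt_of_le h.1 (hpm k)
      have hmR : (0 : ℝ) < m k := by exact_mod_cast hm0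
      have hpR : (0 : ℝ) < p k := by exact_mod_cast h.1
      have hqR : (0 : ℝ) < q k := by exact_mod_cast h.2
      have hnR : (0 : ℝ) < n k := by
        rcases Nat.eq_zero_or_pos (n k) with h0 | h0
        · have := (hpq k).2.2.1
          rw [h0] at this
          simp at this
          linarith
        · exact_mod_cast h0
      have a1 : ∑ v ∈ (S k).set, ((l : ℝ) * ((R k).unif v - (S k).unif v)) ^ 2
          ≤ 2 * (l : ℝ) ^ 2 * ∑ v ∈ (S k).set, (R k).unif v ^ 2 + 2 * (l : ℝ) ^ 2 * ∑ v ∈ (S k).set, (S k).unif v ^ 2 := by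
        rw [Finset.mul_sum, Finset.mul_sum, ← Finset.sum_add_distrib]
        refine Finset.sum_le_sum fun v _ => ?_
        have : ((R k).unif v - (S k).unif v) ^ 2 ≤ 2 * (R k).unif v ^ 2 + 2 * (S k).unif v ^ 2 := by
          nlinarith [sq_nonneg ((R k).unif v + (S k).unif v)]
        calc ((l : ℝ) * ((R k).unif v - (S k).unif v)) ^ 2 = (l : ℝ) ^ 2 * ((R k).unif v - (S k).unif v) ^ 2 := by ring
          _ ≤ (l : ℝ) ^ 2 * (2 * (R k).unif v ^ 2 + 2 * (S k).unif v ^ 2) := mul_le_mul_of_nonneg_left this (sq_nonneg _)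
          _ = _ := by ring
      rw [hsumR k (fun v => (R k).unif v ^ 2) (fun v hv => by simp only [hunif0 k v hv]; ring), un_sum_unif_sq (R k) h.1 h.2,
        un_sum_unif_sq (S k) hm0 hm0] at a1
      have a2 : (m k : ℝ) ^ 2 * ((p k : ℝ) * q k)⁻¹ ≤ K ^ 2 / c ^ 2 := by
        rw [← div_eq_mul_inv, div_le_div_iff₀ (by positivity) (by positivity)]
        have b1 : (m k : ℝ) ^ 2 ≤ (K * n k) ^ 2 := pow_le_pow_left₀ hmR.le (hmK k) 2
        have b2 : (c * n k) * (c * n k) ≤ (p k : ℝ) * q k :=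
          mul_le_mul (hpq k).1 (hpq k).2.1 (by positivity) hpR.le
        have hK2 : 0 ≤ K ^ 2 := sq_nonneg K
        calc (m k : ℝ) ^ 2 * c ^ 2 ≤ (K * n k) ^ 2 * c ^ 2 := mul_le_mul_of_nonneg_right b1 (sq_nonneg c)
          _ = K ^ 2 * ((c * n k) * (c * n k)) := by ring
          _ ≤ K ^ 2 * ((p k : ℝ) * q k) := mul_le_mul_of_nonneg_left b2 hK2
      have a3 : (m k : ℝ) ^ 2 * ((m k : ℝ) * m k)⁻¹ = 1 := by
        field_simp
      have hl2 : 0 ≤ 2 * (l : ℝ) ^ 2 := by positivity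
      have a4 : ((R k).p : ℝ) = p k := rfl
      have a5 : ((R k).q : ℝ) = q k := rfl
      have a6 : ((S k).p : ℝ) = m k := rfl
      have a7 : ((S k).q : ℝ) = m k := rfl
      rw [a4, a5, a6, a7] at a1
      calc (m k : ℝ) ^ 2 * ∑ v ∈ (S k).set, ((l : ℝ) * ((R k).unif v - (S k).unif v)) ^ 2
          ≤ (m k : ℝ) ^ 2 * (2 * (l : ℝ) ^ 2 * ((p k : ℝ) * q k)⁻¹ + 2 * (l : ℝ) ^ 2 * ((m k : ℝ) * m k)⁻¹) :=
            mul_le_mul_of_nonneg_left a1 (sq_nonneg _)
        _ = 2 * (l : ℝ) ^ 2 * ((m k : ℝ) ^ 2 * ((p k : ℝ) * q k)⁻¹ + (m k : ℝ) ^ 2 * ((m k : ℝ) * m k)⁻¹) := by ring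
        _ ≤ 2 * (l : ℝ) ^ 2 * (K ^ 2 / c ^ 2 + 1) := by
            rw [a3]
            exact mul_le_mul_of_nonneg_left (by linarith) hl2
    · simp only [f, if_neg h]
      simpa using hC₁0
  obtain ⟨γ, hγ, hlap⟩ := fr_reg_smear hSm.2.1 hAdm f (fun _ _ => 0) C₁ h0 h1 (fun k => by simpa using hC₁0) (fun _ _ _ _ => rfl)
  obtain ⟨C', hC'⟩ := fr_reg_bdd hSm.2.1 hAdm.1 hγ
  have hT := uniform_chr' hSm ha l hl (fun k e => (if e ∈ (R k).bd then w k e else 0) + gd (γ k) e) (2 * C + 2 * C') (by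
    filter_upwards [hC'] with k hk
    refine (un_cost_add_le _ _ _).trans ?_
    rw [un_cost_sub (R k) (S k) (hsub k)]
    have h2 : (S k).cost (gd (γ k)) ≤ C' := hk
    linarith [hw k])
  refine squeeze_zero' (Eventually.of_forall fun k => ?_) ?_ hT
  · rw [chr_eq_ph]
    exact (ph_pos _ _ (hb k) _).1.le
  · filter_upwards [hpos] with k hk
    have hm0 : 0 < m k := lt_of_lt_of_le hk.1 (hpm k)
    refine un_chr_le (R k) (S k) (hsub k) rfl hk.1 hk.2 hm0 hm0 (b k) (hb k) l (w k) (γ k) fun v hv => ?_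
    rw [hlap k v hv]
    simp only [f, if_pos hk, add_zero]

/-- L-PH-U6.  Moving a rectangle to the origin. -/
theorem un_chr_origin (R : Rc) (b l : ℝ) (w : Bond → ℝ) :
    R.chr b (fun v => l * R.unif v) w =
      (Rc.mk (0, 0) R.p R.q).chr b (fun v => l * (Rc.mk (0, 0) R.p R.q).unif v) (fun e => w (e.1 + R.o, e.2)) := by
  have h := un_chr_transl (Rc.mk (0, 0) R.p R.q) R.o b (fun v => l * (Rc.mk (0, 0) R.p R.q).unif v) (fun e => w (e.1 + R.o, e.2))
  have e0 : Rc.mk ((Rc.mk (0, 0) R.p R.q).o + R.o) (Rc.mk (0, 0) R.p R.q).p (Rc.mk (0, 0) R.p R.q).q = R := by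
    cases R
    simp
  rw [e0] at h
  rw [← h]
  congr 1
  · funext v
    have : (v - R.o ∈ (Rc.mk (0, 0) R.p R.q).set) ↔ v ∈ R.set := by
      have h2 := un_mem_transl (Rc.mk (0, 0) R.p R.q) R.o (v - R.o)
      rw [e0, sub_add_cancel] at h2
      exact h2.symm
    unfold Rc.unif
    simp only [this]
  · funext e
    simp

/-- L-PH-U6. -/
theorem un_cost_origin (R : Rc) (w : Bond → ℝ) : (Rc.mk (0, 0) R.p R.q).cost (fun e => w (e.1 + R.o, e.2)) = R.cost w := by
  have h := un_cost_transl (Rc.mk (0, 0) R.p R.q) R.o (fun e => w (e.1 + R.o, e.2))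
  have e0 : Rc.mk ((Rc.mk (0, 0) R.p R.q).o + R.o) (Rc.mk (0, 0) R.p R.q).p (Rc.mk (0, 0) R.p R.q).q = R := by
    cases R
    simp
  rw [e0] at h
  rw [← h]
  congr 1
  funext e
  simp

/-- L-PH-U6 (= `C2.uniform_phase`).  `un_chr_origin`, `uniform_rc0`, `un_cost_origin`. -/
theorem uniform_rc {b : ℕ → ℝ} {n : ℕ → ℕ} {a : ℝ} (hS : ScaleCoef b n a) (ha : 0 < a) {R : ℕ → Rc} (hR : AdmN n R)
    (l : ℤ) (hl : l ≠ 0) (w : ℕ → Bond → ℝ) (C : ℝ) (hw : ∀ k, (R k).cost (w k) ≤ C) :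
    Tendsto (fun k => (R k).chr (b k) (fun v => (l : ℝ) * (R k).unif v) (w k)) atTop (𝓝 0) := by
  obtain ⟨⟨K, hK⟩, c, hc, hcR⟩ := hR
  have h := uniform_rc0 hS ha (fun k => (R k).p) (fun k => (R k).q) c K hc
    (fun k => ⟨(hcR k).1, (hcR k).2, (hK k).2.2.1, (hK k).2.2.2⟩) l hl (fun k e => w k (e.1 + (R k).o, e.2)) C
    (fun k => by rw [un_cost_origin]; exact hw k)
  exact h.congr fun k => (un_chr_origin (R k) (b k) l (w k)).symm

end

end Claimed.Agent.R285.Phase
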