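import Claimed.Agent.R285.Free.Grid

/-!
# ROW 285, unit FREE / PHASE ([C]T2.5 = [E]L5.3, L5.7, L5.8): DEFINITIONS (owner helper200).  No sorry.

## A. Soft extensions of a height system = abstract form of the soft joining [C](2.10)
`S₀` = any system (application: independent cells and independent seam bonds), `ℓ o : S₀.L →+ ℝ`, `o ∈ O` = mismatch rows.
`soft S₀ ℓ` has the additional Gaussian coordinates `ℓ_o(z) + 2π c_o`, `c ∈ ℤ^O`.  Its lattice is `S₀.L × ℤ^O` (`softEquiv`).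
Poisson summation in `c` gives the sector sums `secSum` = [C](2.11).   NO fractional shift `ξ` is needed: the root cell is a retained central cell and all phases are taken modulo integer charges.

## B. Flow language on rectangles
EVERY statistic is `R.flowX b w`, `w : Bond → ℝ` a flow; it depends only on the divergence `R.dv w` (`Free/Defs`), and its cosine / sine only on `R.dv w` modulo `ℤ`.
Vertex charges `f` enter through the explicit flow `R.pathFlow f` (divergence `f - (∑ f) δ_o`).  `R.ph b w = E cos (flowX w)`.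

## C. Arrays of cells
`arrJ m G₁ G₂` = rectangle of `G₁ × G₂` cells of side `m`; pieces `arrQ` = cells and seam bonds (two-site rectangles): a partition of ALL bonds of `arrJ`.
Flux data `H : ℤ × ℤ → Fin 4 → ℝ`: `H i d` = outward flux of the cell `i` through its face `d` (`0,1,2,3` = right, left, up, down).  `arrFlow m H` = the flow which crosses every seam uniformly and
joins, inside the cell `i`, the faces to the corner of the cell.  Linear in `H`.
-/

set_option autoImplicit false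

namespace Claimed.Agent.R285.Phase

open Filter Topology C2 Free
open scoped Classical

noncomputable section

/-! ## A. Soft extensions -/

section Soft

variable {O : Type} [Fintype O]

/-- the statistic `∑_o d_o ℓ_o` -/
def rowS {S₀ : LSys} (ℓ : O → S₀.L →+ ℝ) (d : O → ℝ) : S₀.L →+ ℝ := ∑ o, d o • ℓ o

/-- `(z, c) ↦ (z, ℓ z + 2π c)` -/
def softHom (S₀ : LSys) (ℓ : O → S₀.L →+ ℝ) : S₀.L × (O → ℤ) →+ (S₀.E → ℤ) × (S₀.O ⊕ O → ℝ) where
  toFun x := ((x.1 : S₀.Amb).1, Sum.elim (x.1 : S₀.Amb).2 fun o => ℓ o x.1 + 2 * Real.pi * (x.2 o : ℝ))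
  map_zero' := by
    ext i
    · simp
    · cases i <;> simp
  map_add' x y := by
    ext i
    · simp
    · cases i
      · simp
      · simp; ring

omit [Fintype O] in
theorem softHom_injective (S₀ : LSys) (ℓ : O → S₀.L →+ ℝ) : Function.Injective (softHom S₀ ℓ) := by
  intro x y h
  have h1 : (x.1 : S₀.Amb).1 = (y.1 : S₀.Amb).1 := by
    have := congrArg Prod.fst h
    exact this
  have h2 : ∀ i, (Sum.elim (x.1 : S₀.Amb).2 fun o => ℓ o x.1 + 2 * Real.pi * (x.2 o : ℝ)) i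
      = (Sum.elim (y.1 : S₀.Amb).2 fun o => ℓ o y.1 + 2 * Real.pi * (y.2 o : ℝ)) i :=
    fun i => by
      have := congrFun (congrArg Prod.snd h) i
      exact this
  have h3 : x.1 = y.1 := by
    apply Subtype.ext
    apply Prod.ext h1
    funext o
    exact h2 (Sum.inl o)
  have h4 : x.2 = y.2 := by
    funext o
    have := h2 (Sum.inr o)
    simp only [Sum.elim_inr, h3] at this
    have hpi : (2 * Real.pi) ≠ 0 := by positivity
    have h5 : (x.2 o : ℝ) = (y.2 o : ℝ) := by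
      have := add_left_cancel this
      exact mul_left_cancel₀ hpi this
    exact_mod_cast h5
  exact Prod.ext h3 h4

/-- the soft extension -/
def soft (S₀ : LSys) (ℓ : O → S₀.L →+ ℝ) : LSys :=
  { E := S₀.E, O := S₀.O ⊕ O, b := S₀.b, L := (softHom S₀ ℓ).range }

/-- the lattice of the soft extension -/
def softEquiv (S₀ : LSys) (ℓ : O → S₀.L →+ ℝ) : S₀.L × (O → ℤ) ≃+ (soft S₀ ℓ).L :=
  AddMonoidHom.ofInjective (softHom_injective S₀ ℓ)

/-- the shape of a soft configuration -/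
def softPr (S₀ : LSys) (ℓ : O → S₀.L →+ ℝ) : (soft S₀ ℓ).L →+ S₀.L :=
  (AddMonoidHom.fst _ _).comp (softEquiv S₀ ℓ).symm.toAddMonoidHom

/-- Gaussian sector weight `exp(-|q|²/2)` -/
def secW (q : O → ℤ) : ℝ := Real.exp (-(∑ o, (q o : ℝ) ^ 2) / 2)

/-- the sector sum `∑_q exp(-|q|²/2) φ₀(θ + ⟨q, ℓ⟩)` = [C](2.11) -/
def secSum (S₀ : LSys) (ℓ : O → S₀.L →+ ℝ) (θ : S₀.L →+ ℝ) : ℝ :=
  ∑' q : O → ℤ, secW q * S₀.phi (θ + rowS ℓ fun o => (q o : ℝ))

/-- the theta constant `∑_q exp(-|q|²/2)` -/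
def secTheta (O : Type) [Fintype O] : ℝ := ∑' q : O → ℤ, secW q

/-- adjoining coordinates which vanish identically -/
def zextHom (S : LSys) (O : Type) : S.Amb →+ (S.E → ℤ) × (S.O ⊕ O → ℝ) where
  toFun z := (z.1, Sum.elim z.2 fun _ => 0)
  map_zero' := by
    ext i
    · simp
    · cases i <;> simp
  map_add' x y := by
    ext i
    · simp
    · cases i <;> simp

/-- `S` with additional Gaussian coordinates which vanish identically: the same law -/
def zext (S : LSys) (O : Type) [Fintype O] : LSys :=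
  { E := S.E, O := S.O ⊕ O, b := S.b, L := S.L.map (zextHom S O) }

/-- the lattice map `S.L → (zext S O).L` -/
def zextL (S : LSys) (O : Type) [Fintype O] : S.L →+ (zext S O).L where
  toFun z := ⟨zextHom S O z, AddSubgroup.mem_map.2 ⟨z, z.2, rfl⟩⟩
  map_zero' := Subtype.ext (map_zero (zextHom S O))
  map_add' x y := Subtype.ext (map_add (zextHom S O) (x : S.Amb) (y : S.Amb))

end Soft

/-! ## B. Flows on rectangles -/

/-- the characteristic coefficient of a flow statistic -/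
def _root_.Claimed.Agent.R285.C2.Rc.ph (R : Rc) (b : ℝ) (w : Bond → ℝ) : ℝ := (R.sys b).phi (R.flowX b w)

/-- explicit flow with divergence `f - (∑_R f) δ_o` in `R`: along the rows from the first column, along the first column from the corner -/
def _root_.Claimed.Agent.R285.C2.Rc.pathFlow (R : Rc) (f : ℤ × ℤ → ℝ) : Bond → ℝ := fun e =>
  if e.2 then ∑ x ∈ Finset.Ioo e.1.1 (R.o.1 + R.p), f (x, e.1.2)
  else if e.1.1 = R.o.1 then ∑ v ∈ R.set.filter (fun v => e.1.2 < v.2), f v else 0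

/-- the probability on the face `d` (`0,1,2,3` = right, left, up, down) -/
def _root_.Claimed.Agent.R285.C2.Rc.face (R : Rc) (d : Fin 4) : ℤ × ℤ → ℝ :=
  ![R.faceR, R.faceL, R.faceU, R.faceD] d

/-- the face charge with fluxes `H` -/
def _root_.Claimed.Agent.R285.C2.Rc.fch (R : Rc) (H : Fin 4 → ℝ) (v : ℤ × ℤ) : ℝ := ∑ d, H d * R.face d v

/-- exact potentials: `lap (pot d) = face d - unif` on `R` -/
def _root_.Claimed.Agent.R285.C2.Rc.pot (R : Rc) (d : Fin 4) (u : ℤ × ℤ) : ℝ :=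
  ![((u.1 - R.o.1 : ℤ) : ℝ) * (((u.1 - R.o.1 : ℤ) : ℝ) + 1) / (2 * R.p * R.q),
    ((R.o.1 + R.p - 1 - u.1 : ℤ) : ℝ) * (((R.o.1 + R.p - 1 - u.1 : ℤ) : ℝ) + 1) / (2 * R.p * R.q),
    ((u.2 - R.o.2 : ℤ) : ℝ) * (((u.2 - R.o.2 : ℤ) : ℝ) + 1) / (2 * R.p * R.q),
    ((R.o.2 + R.q - 1 - u.2 : ℤ) : ℝ) * (((R.o.2 + R.q - 1 - u.2 : ℤ) : ℝ) + 1) / (2 * R.p * R.q)] d

/-- the phase of a free square with face fluxes `H` -/
def cph (b : ℝ) (m : ℕ) (H : Fin 4 → ℝ) : ℝ := (C2.sq m).ph b ((C2.sq m).pathFlow ((C2.sq m).fch H))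

/-! ## C. Cut systems and arrays -/

/-- the product of the free systems of the pieces -/
def cutS (b : ℝ) {ι : Type} [Fintype ι] (Q : ι → Rc) : LSys := pi fun i => (Q i).sys b

/-- a flow as a statistic of the product system -/
def cutX (b : ℝ) {ι : Type} [Fintype ι] (Q : ι → Rc) (w : Bond → ℝ) : (cutS b Q).L →+ ℝ :=
  ∑ i, ((Q i).flowX b w).comp (piPr (fun i => (Q i).sys b) i)

/-- the two-site rectangle whose only bond is `e` -/
def bondRc (e : Bond) : Rc := if e.2 then ⟨e.1, 2, 1⟩ else ⟨e.1, 1, 2⟩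

/-- the coarse rectangle of cell indices -/
def arrK (G₁ G₂ : ℕ) : Rc := ⟨(0, 0), G₁, G₂⟩

/-- the array of `G₁ × G₂` cells of side `m` -/
def arrJ (m G₁ G₂ : ℕ) : Rc := ⟨(0, 0), G₁ * m, G₂ * m⟩

/-- the cell `i` -/
abbrev cel (m : ℕ) (i : ℤ × ℤ) : Rc := cellRc (0, 0) m i

/-- the seam bonds -/
def seam (m G₁ G₂ : ℕ) : Finset Bond := (arrJ m G₁ G₂).bd.filter fun e => cidx (0, 0) m e.1 ≠ cidx (0, 0) m e.snd

/-- index of the pieces: cells and seam bonds -/
abbrev ArrI (m G₁ G₂ : ℕ) : Type := {i : ℤ × ℤ // i ∈ (arrK G₁ G₂).set} ⊕ {e : Bond // e ∈ seam m G₁ G₂}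

/-- the pieces -/
def arrQ (m G₁ G₂ : ℕ) : ArrI m G₁ G₂ → Rc := Sum.elim (fun i => cel m i.1) fun e => bondRc e.1

/-- flux data: antisymmetric across the inner faces of the array -/
def Flux (G₁ G₂ : ℕ) (H : ℤ × ℤ → Fin 4 → ℝ) : Prop :=
  (∀ i ∈ (arrK G₁ G₂).set, (i.1 + 1, i.2) ∈ (arrK G₁ G₂).set → H i 0 = - H (i.1 + 1, i.2) 1) ∧
  ∀ i ∈ (arrK G₁ G₂).set, (i.1, i.2 + 1) ∈ (arrK G₁ G₂).set → H i 2 = - H (i.1, i.2 + 1) 3

/-- the neighbour of the cell `i` across the face `d` -/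
def nbr (i : ℤ × ℤ) (d : Fin 4) : ℤ × ℤ := ![(i.1 + 1, i.2), (i.1 - 1, i.2), (i.1, i.2 + 1), (i.1, i.2 - 1)] d

/-- all fluxes through the outer faces of the array are equal to `t` -/
def Outer (G₁ G₂ : ℕ) (H : ℤ × ℤ → Fin 4 → ℝ) (t : ℝ) : Prop :=
  ∀ i ∈ (arrK G₁ G₂).set, ∀ d, nbr i d ∉ (arrK G₁ G₂).set → H i d = t

/-- the flow of flux data -/
def arrFlow (m : ℕ) (H : ℤ × ℤ → Fin 4 → ℝ) : Bond → ℝ := fun e =>
  if cidx (0, 0) m e.1 = cidx (0, 0) m e.snd then
    (cel m (cidx (0, 0) m e.1)).pathFlow ((cel m (cidx (0, 0) m e.1)).fch (H (cidx (0, 0) m e.1))) e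
  else (if e.2 then H (cidx (0, 0) m e.1) 0 else H (cidx (0, 0) m e.1) 2) / m

theorem phase_eqns_cite (b : ℝ) (m : ℕ) (H : Fin 4 → ℝ) : cph b m H = (C2.sq m).ph b ((C2.sq m).pathFlow ((C2.sq m).fch H)) := rfl

end

end Claimed.Agent.R285.Phase
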