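import Claimed.Agent.R285.Phase.Soft

/-!
# ROW 285, unit FREE / PHASE, file 2: FINITE geometry of flows, cells and arrays (architect helper200).   Paper-free.

Vocabulary: `Phase/Defs.lean` (B, C), `Free/Defs.lean` (`Rc`, `Rc.dv`, `Rc.flowX`), `Free/Rect.lean`, `Free/Grid.lean` (`cidx`, `cellRc`, `mem_cellRc`).

## Principles
1. `R.flowX b w` evaluated on the gradient of `h` is `2π ∑_v (dv w)_v h_v` (`flowX_height`).  So a flow statistic depends only on `dv w`; its cosine and sine only on `dv w` modulo `ℤ`.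
2. ONE symmetry lemma `ph_law_eq`: a lattice symmetry `σ : R → R'` transports the joint law of two flow statistics (divergences matched exactly) and of the phase of a third one (divergences matched modulo `ℤ`).
   `σ = id`: change of the root / of the representative; translations: all cells are copies of `sq m`; reflections: parity arguments.
3. Arrays: pieces = cells + seam bonds = a partition of the bonds of `arrJ`; `arr_ref` (from `fr_cut_ref'`); everything factorises (`pi_phi`, `pi_var`, `ph_pi_sin`).  `arr_dv` computes the divergence of `arrFlow m H` in the array.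

LEAVES `L-PH-G*`: every `sorry`.  Edit only your own theorems, splice on a fresh pull.
-/

set_option autoImplicit false

namespace Claimed.Agent.R285.Phase

open Filter Topology C2 Free
open scoped Classical

noncomputable section

/-! ## 1. Divergence and flow statistics -/

/-- L-PH-G1. -/
theorem dv_add (R : Rc) (w w' : Bond → ℝ) (v : ℤ × ℤ) : R.dv (fun e => w e + w' e) v = R.dv w v + R.dv w' v := by
  unfold Rc.dv
  rw [← Finset.sum_add_distrib]
  exact Finset.sum_congr rfl fun e _ => by ring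

/-- L-PH-G1. -/
theorem dv_smul (R : Rc) (c : ℝ) (w : Bond → ℝ) (v : ℤ × ℤ) : R.dv (fun e => c * w e) v = c * R.dv w v := by
  unfold Rc.dv
  rw [Finset.mul_sum]
  exact Finset.sum_congr rfl fun e _ => by ring

/-- L-PH-G1. -/
theorem dv_congr (R : Rc) {w w' : Bond → ℝ} (h : ∀ e ∈ R.bd, w e = w' e) (v : ℤ × ℤ) : R.dv w v = R.dv w' v := by
  unfold Rc.dv
  exact Finset.sum_congr rfl fun e he => by rw [h e he]

/-- L-PH-G1.  `mem_bd`. -/
theorem dv_off (R : Rc) (w : Bond → ℝ) {v : ℤ × ℤ} (hv : v ∉ R.set) : R.dv w v = 0 := by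
  unfold Rc.dv
  refine Finset.sum_eq_zero fun e he => ?_
  have h := mem_bd.1 he
  have h1 : e.snd ≠ v := fun h' => hv (h' ▸ h.2)
  have h2 : e.1 ≠ v := fun h' => hv (h' ▸ h.1)
  rw [if_neg h1, if_neg h2]; ring

/-- the bonds into `v`. -/
theorem bond_snd_eq (e : Bond) (v : ℤ × ℤ) : e.snd = v ↔ e = ((v.1 - 1, v.2), true) ∨ e = ((v.1, v.2 - 1), false) := by
  obtain ⟨⟨x, y⟩, d⟩ := e
  obtain ⟨a, c⟩ := v
  cases d <;> simp [Bond.snd, Prod.ext_iff] <;> omega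

/-- the bonds out of `v`. -/
theorem bond_fst_eq (e : Bond) (v : ℤ × ℤ) : e.1 = v ↔ e = (v, true) ∨ e = (v, false) := by
  obtain ⟨u, d⟩ := e
  cases d <;> simp [Prod.ext_iff]

/-- **the divergence at a site: the four bonds.** -/
theorem dv_four (R : Rc) (w : Bond → ℝ) (v : ℤ × ℤ) :
    R.dv w v = (if ((v.1 - 1, v.2), true) ∈ R.bd then w ((v.1 - 1, v.2), true) else 0)
      + (if ((v.1, v.2 - 1), false) ∈ R.bd then w ((v.1, v.2 - 1), false) else 0)
      - (if (v, true) ∈ R.bd then w (v, true) else 0) - (if (v, false) ∈ R.bd then w (v, false) else 0) := by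
  unfold Rc.dv
  have h : ∀ e : Bond, w e * ((if e.snd = v then 1 else 0) - (if e.1 = v then 1 else 0)) =
      (if e = ((v.1 - 1, v.2), true) then w ((v.1 - 1, v.2), true) else 0) + (if e = ((v.1, v.2 - 1), false) then w ((v.1, v.2 - 1), false) else 0)
      - (if e = (v, true) then w (v, true) else 0) - (if e = (v, false) then w (v, false) else 0) := by
    intro e
    have a1 : (if e.snd = v then (1 : ℝ) else 0) = (if e = ((v.1 - 1, v.2), true) then 1 else 0) + (if e = ((v.1, v.2 - 1), false) then 1 else 0) := by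
      by_cases h1 : e = ((v.1 - 1, v.2), true)
      · have h2 : e ≠ ((v.1, v.2 - 1), false) := by rw [h1]; simp
        rw [if_pos ((bond_snd_eq e v).2 (Or.inl h1)), if_pos h1, if_neg h2]; ring
      · by_cases h2 : e = ((v.1, v.2 - 1), false)
        · rw [if_pos ((bond_snd_eq e v).2 (Or.inr h2)), if_neg h1, if_pos h2]; ring
        · rw [if_neg (fun h => (((bond_snd_eq e v).1 h).elim h1 h2)), if_neg h1, if_neg h2]; ring
    have a2 : (if e.1 = v then (1 : ℝ) else 0) = (if e = (v, true) then 1 else 0) + (if e = (v, false) then 1 else 0) := by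
      by_cases h1 : e = (v, true)
      · have h2 : e ≠ (v, false) := by rw [h1]; simp
        rw [if_pos ((bond_fst_eq e v).2 (Or.inl h1)), if_pos h1, if_neg h2]; ring
      · by_cases h2 : e = (v, false)
        · rw [if_pos ((bond_fst_eq e v).2 (Or.inr h2)), if_neg h1, if_pos h2]; ring
        · rw [if_neg (fun h => (((bond_fst_eq e v).1 h).elim h1 h2)), if_neg h1, if_neg h2]; ring
    have key : ∀ a : Bond, w e * (if e = a then (1 : ℝ) else 0) = if e = a then w a else 0 := by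
      intro a
      split_ifs with h
      · rw [h, mul_one]
      · rw [mul_zero]
    rw [a1, a2, ← key, ← key, ← key, ← key]; ring
  rw [Finset.sum_congr rfl fun e _ => h e]
  simp only [Finset.sum_add_distrib, Finset.sum_sub_distrib, Finset.sum_ite_eq']

/-- L-PH-G1.  **Summation by parts in height form** (no pin): `∑_{e ∈ bd} w_e (h e.snd - h e.1) = ∑_{v ∈ set} (dv w)_v h_v` (`Finset.sum_comm`, `Finset.sum_ite_eq`, `mem_bd`; the sum over `R.G.E` is `Finset.sum_coe_sort R.bd`). -/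
theorem flowX_height (R : Rc) (b : ℝ) (w : Bond → ℝ) (z : (R.sys b).L) (h : ℤ × ℤ → ℤ)
    (hz : ∀ e : R.G.E, (z : (R.sys b).Amb).1 e = h (domBond (D := R.set) (cut := ∅) e).snd - h (domBond (D := R.set) (cut := ∅) e).1) :
    R.flowX b w z = 2 * Real.pi * ∑ v ∈ R.set, R.dv w v * (h v : ℝ) := by
  rw [fr_flowX_apply]
  have h1 : ∀ e : R.G.E, 2 * Real.pi * w (domBond (D := R.set) (cut := ∅) e) * (((z : (R.sys b).Amb).1 e : ℤ) : ℝ) =
      (fun e : Bond => 2 * Real.pi * w e * ((h e.snd : ℝ) - (h e.1 : ℝ))) (domBond (D := R.set) (cut := ∅) e) := by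
    intro e
    rw [hz e]
    push_cast
    rfl
  refine (Finset.sum_congr rfl fun e _ => h1 e).trans ?_
  refine (fr_sum_E R fun e : Bond => 2 * Real.pi * w e * ((h e.snd : ℝ) - (h e.1 : ℝ))).trans ?_
  rw [Finset.mul_sum]
  unfold Rc.dv
  simp only [Finset.sum_mul, Finset.mul_sum]
  rw [Finset.sum_comm]
  refine Finset.sum_congr rfl fun e he => ?_
  have hm := mem_bd.1 he
  have h2 : ∀ v : ℤ × ℤ, 2 * Real.pi * (w e * ((if e.snd = v then 1 else 0) - (if e.1 = v then 1 else 0)) * (h v : ℝ)) =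
      (if e.snd = v then 2 * Real.pi * w e * (h v : ℝ) else 0) - (if e.1 = v then 2 * Real.pi * w e * (h v : ℝ) else 0) := by
    intro v
    split_ifs <;> ring
  rw [Finset.sum_congr rfl fun v _ => h2 v, Finset.sum_sub_distrib, Finset.sum_ite_eq, Finset.sum_ite_eq, if_pos hm.1, if_pos hm.2]
  ring

/-- L-PH-G1.  `fr_mem_L`, `flowX_height`. -/
theorem flowX_eq_of_dv (R : Rc) (b : ℝ) {w w' : Bond → ℝ} (h : ∀ v ∈ R.set, R.dv w v = R.dv w' v) : R.flowX b w = R.flowX b w' := by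
  ext z
  obtain ⟨g, hg⟩ := (fr_mem_L R b z.1).1 z.2
  rw [flowX_height R b w z g hg, flowX_height R b w' z g hg]
  congr 1
  exact Finset.sum_congr rfl fun v hv => by rw [h v hv]

/-- L-PH-G1.  `fr_mem_L`, `flowX_height`: an integral divergence gives values in `2πℤ`. -/
theorem flowX_int (R : Rc) (b : ℝ) {w : Bond → ℝ} (h : ∀ v ∈ R.set, ∃ n : ℤ, R.dv w v = n) (z : (R.sys b).L) :
    ∃ c : ℤ, R.flowX b w z = 2 * Real.pi * (c : ℝ) := by
  obtain ⟨g, hg⟩ := (fr_mem_L R b z.1).1 z.2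
  choose! n hn using h
  refine ⟨∑ v ∈ R.set, n v * g v, ?_⟩
  rw [flowX_height R b w z g hg]
  congr 1
  push_cast
  exact Finset.sum_congr rfl fun v hv => by rw [hn v hv]

theorem sum_Ioo_pred (g : ℤ → ℝ) (x B : ℤ) (h : x < B) : ∑ t ∈ Finset.Ioo (x - 1) B, g t = g x + ∑ t ∈ Finset.Ioo x B, g t := by
  have e : Finset.Ioo (x - 1) B = insert x (Finset.Ioo x B) := by
    ext t
    simp only [Finset.mem_Ioo, Finset.mem_insert]
    omega
  rw [e, Finset.sum_insert (by simp)]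

/-- the sum over one row of a rectangle. -/
theorem sum_row (R : Rc) (f : ℤ × ℤ → ℝ) (y : ℤ) (hy : R.o.2 ≤ y ∧ y < R.o.2 + R.q) :
    ∑ v ∈ R.set.filter (fun v => v.2 = y), f v = ∑ t ∈ Finset.Ico R.o.1 (R.o.1 + R.p), f (t, y) := by
  rw [Finset.sum_filter]
  unfold Rc.set
  rw [Finset.sum_product]
  refine Finset.sum_congr rfl fun t _ => ?_
  rw [Finset.sum_ite_eq', if_pos (Finset.mem_Ico.2 hy)]

theorem sum_above_pred (R : Rc) (f : ℤ × ℤ → ℝ) (y : ℤ) :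
    ∑ v ∈ R.set.filter (fun v => y - 1 < v.2), f v = ∑ v ∈ R.set.filter (fun v => y < v.2), f v + ∑ v ∈ R.set.filter (fun v => v.2 = y), f v := by
  simp only [Finset.sum_filter]
  rw [← Finset.sum_add_distrib]
  refine Finset.sum_congr rfl fun v _ => ?_
  by_cases h1 : y < v.2
  · rw [if_pos h1, if_pos (by omega), if_neg (by omega), add_zero]
  · by_cases h2 : v.2 = y
    · rw [if_neg h1, if_pos h2, if_pos (by omega), zero_add]
    · rw [if_neg h1, if_neg h2, if_neg (by omega), zero_add]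

theorem sum_above_bot (R : Rc) (f : ℤ × ℤ → ℝ) :
    ∑ v ∈ R.set, f v = ∑ v ∈ R.set.filter (fun v => R.o.2 < v.2), f v + ∑ v ∈ R.set.filter (fun v => v.2 = R.o.2), f v := by
  simp only [Finset.sum_filter]
  rw [← Finset.sum_add_distrib]
  refine Finset.sum_congr rfl fun v hv => ?_
  have := (fr_mem_set.1 hv).2.1
  by_cases h1 : R.o.2 < v.2
  · rw [if_pos h1, if_neg (by omega), add_zero]
  · rw [if_neg h1, if_pos (by omega), zero_add]

/-- L-PH-G2.  **Divergence of the path flow.**  Horizontal bonds: at `v = (x,y)`, in minus out `= ∑_{x' > x-1} f - ∑_{x' > x} f = f v` if `x > o.1`; at `x = o.1` there is no bond from the left: `- ∑_{x' > o.1} f(x',y) = f v - (row sum)`.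
Vertical bonds of the first column: in minus out `=` row sum if `y > o.2`; at `y = o.2`: row sum minus total.  (Split `R.bd` by direction; at most four bonds touch `v`: `Finset.sum_eq_single`-type arguments, `Finset.sum_Ioo_consecutive`, `Finset.sum_product`.) -/
theorem dv_pathFlow (R : Rc) (f : ℤ × ℤ → ℝ) (v : ℤ × ℤ) (hv : v ∈ R.set) :
    R.dv (R.pathFlow f) v = f v - (∑ u ∈ R.set, f u) * (if v = R.o then 1 else 0) := by
  obtain ⟨x, y⟩ := v
  have hv' := fr_mem_set.1 hv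
  simp only at hv'
  obtain ⟨⟨hx1, hx2⟩, hy1, hy2⟩ := hv'
  rw [dv_four]
  simp only [mem_bd, fr_mem_set, Bond.snd, Rc.pathFlow, if_true, Bool.false_eq_true, if_false]
  -- the two outgoing bonds: the membership condition may be dropped
  have t3 : (if ((R.o.1 ≤ x ∧ x < R.o.1 + R.p) ∧ R.o.2 ≤ y ∧ y < R.o.2 + R.q) ∧ (R.o.1 ≤ x + 1 ∧ x + 1 < R.o.1 + R.p) ∧ R.o.2 ≤ y ∧ y < R.o.2 + R.q
      then ∑ t ∈ Finset.Ioo x (R.o.1 + R.p), f (t, y) else 0) = ∑ t ∈ Finset.Ioo x (R.o.1 + R.p), f (t, y) := by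
    split_ifs with h
    · rfl
    · have : Finset.Ioo x (R.o.1 + R.p) = ∅ := by
        ext t
        simp only [Finset.mem_Ioo, Finset.notMem_empty, iff_false]
        omega
      rw [this, Finset.sum_empty]
  have t4 : (if ((R.o.1 ≤ x ∧ x < R.o.1 + R.p) ∧ R.o.2 ≤ y ∧ y < R.o.2 + R.q) ∧ (R.o.1 ≤ x ∧ x < R.o.1 + R.p) ∧ R.o.2 ≤ y + 1 ∧ y + 1 < R.o.2 + R.q
      then (if x = R.o.1 then ∑ v ∈ R.set.filter (fun v => y < v.2), f v else 0) else 0) =
      if x = R.o.1 then ∑ v ∈ R.set.filter (fun v => y < v.2), f v else 0 := by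
    split_ifs with h h'
    · rfl
    · rfl
    · have : R.set.filter (fun v => y < v.2) = ∅ := by
        ext u
        simp only [Finset.mem_filter, fr_mem_set, Finset.notMem_empty, iff_false]
        omega
      rw [this, Finset.sum_empty]
    · rfl
  rw [t3, t4]
  by_cases hx : x = R.o.1
  · have hrow := sum_row R f y ⟨hy1, hy2⟩
    have hIco : ∑ t ∈ Finset.Ico R.o.1 (R.o.1 + R.p), f (t, y) = f (x, y) + ∑ t ∈ Finset.Ioo x (R.o.1 + R.p), f (t, y) := by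
      rw [← sum_Ioo_pred (fun t => f (t, y)) x _ hx2]
      congr 1
      ext t
      simp only [Finset.mem_Ico, Finset.mem_Ioo]
      omega
    rw [if_neg (by omega), if_pos hx, if_pos hx]
    by_cases hy : y = R.o.2
    · have hvo : ((x, y) : ℤ × ℤ) = R.o := Prod.ext hx hy
      rw [if_neg (by omega), if_pos hvo]
      have := sum_above_bot R f
      rw [← hy] at this
      linarith
    · have hvo : ((x, y) : ℤ × ℤ) ≠ R.o := fun h => hy (congrArg Prod.snd h)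
      rw [if_pos (by omega), if_neg hvo]
      have := sum_above_pred R f y
      linarith
  · have hvo : ((x, y) : ℤ × ℤ) ≠ R.o := fun h => hx (congrArg Prod.fst h)
    rw [if_pos (by omega), if_neg hx, if_neg hx, if_neg hvo, sum_Ioo_pred (fun t => f (t, y)) x _ hx2]
    simp

/-- L-PH-G2. -/
theorem pathFlow_add (R : Rc) (f g : ℤ × ℤ → ℝ) (e : Bond) : R.pathFlow (fun v => f v + g v) e = R.pathFlow f e + R.pathFlow g e := by
  unfold Rc.pathFlow
  split_ifs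
  · rw [Finset.sum_add_distrib]
  · rw [Finset.sum_add_distrib]
  · rw [add_zero]

/-- L-PH-G2. -/
theorem pathFlow_smul (R : Rc) (c : ℝ) (f : ℤ × ℤ → ℝ) (e : Bond) : R.pathFlow (fun v => c * f v) e = c * R.pathFlow f e := by
  unfold Rc.pathFlow
  split_ifs
  · rw [Finset.mul_sum]
  · rw [Finset.mul_sum]
  · rw [mul_zero]

/-! ## 2. The symmetry lemma -/

theorem latIso_refl : LatIso (Equiv.refl _) := fun _ _ => Iff.rfl

/-- L-PH-G3. -/
theorem latIso_addRight (u : ℤ × ℤ) : LatIso (Equiv.addRight u) := Free.latIso_addRight u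

/-- a flow statistic of `R'` on the image of the gradient of `h`, in the variables of `R`. -/
theorem flowX_siso (σ : ℤ × ℤ ≃ ℤ × ℤ) (R R' : Rc) (hR : ∀ v, v ∈ R'.set ↔ σ.symm v ∈ R.set) (b : ℝ)
    (t' : Bond → ℝ) (z' : (R'.sys b).L) (h : ℤ × ℤ → ℤ)
    (hz : ∀ e' : R'.G.E, (z' : (R'.sys b).Amb).1 e' =
        h (σ.symm (domBond (D := R'.set) (cut := ∅) e').snd) - h (σ.symm (domBond (D := R'.set) (cut := ∅) e').1)) :
    R'.flowX b t' z' = 2 * Real.pi * ∑ x ∈ R.set, R'.dv t' (σ x) * (h x : ℝ) := by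
  rw [flowX_height R' b t' z' (fun v => h (σ.symm v)) hz]
  congr 1
  refine Finset.sum_equiv σ.symm hR fun v _ => ?_
  rw [Equiv.apply_symm_apply]

/-- L-PH-G3.  **THE symmetry lemma.**  `fr_siso` gives `i : SIso (R.sys b) (R'.sys b)` carrying the gradient of `h` to the gradient of `h ∘ σ.symm`; `siso_E0`.  For `z ∈ L` with height `h` (`fr_mem_L`), `flowX_height` on both sides and the change of variables `x' = σ x`
(`Finset.sum_bij`/`Finset.sum_equiv` with `hR`): `R'.flowX u' (i.mapL z) = R.flowX u z`, the same for `v`, and `R'.flowX w' (i.mapL z) = R.flowX w z + 2π n`, `n ∈ ℤ` (`Real.cos_add_int_mul_two_pi`, `Real.sin_add_int_mul_two_pi`). -/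
theorem ph_law_eq (σ : ℤ × ℤ ≃ ℤ × ℤ) (hσ : LatIso σ) (R R' : Rc) (hR : ∀ v, v ∈ R'.set ↔ σ.symm v ∈ R.set) (b : ℝ)
    (u u' v v' w w' : Bond → ℝ) (hu : ∀ x ∈ R.set, R'.dv u' (σ x) = R.dv u x) (hv : ∀ x ∈ R.set, R'.dv v' (σ x) = R.dv v x)
    (hw : ∀ x ∈ R.set, ∃ n : ℤ, R'.dv w' (σ x) = R.dv w x + n) (F : ℝ → ℝ → ℝ → ℝ → ℝ) :
    (R'.sys b).E0 (fun z => F (R'.flowX b u' z) (R'.flowX b v' z) (Real.cos (R'.flowX b w' z)) (Real.sin (R'.flowX b w' z))) =
      (R.sys b).E0 fun z => F (R.flowX b u z) (R.flowX b v z) (Real.cos (R.flowX b w z)) (Real.sin (R.flowX b w z)) := by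
  obtain ⟨i, hi⟩ := fr_siso σ hσ R R' hR b
  rw [siso_E0 i]
  congr 1
  funext z
  obtain ⟨h, hh⟩ := (fr_mem_L R b z.1).1 z.2
  have hz' := hi z.1 h hh
  have key : ∀ t t' : Bond → ℝ, (∀ x ∈ R.set, R'.dv t' (σ x) = R.dv t x) → R'.flowX b t' (i.mapL z) = R.flowX b t z := by
    intro t t' ht
    rw [flowX_siso σ R R' hR b t' (i.mapL z) h hz', flowX_height R b t z h hh]
    congr 1
    exact Finset.sum_congr rfl fun x hx => by rw [ht x hx]
  choose! n hn using hw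
  have keyw : R'.flowX b w' (i.mapL z) = R.flowX b w z + ((∑ x ∈ R.set, n x * h x : ℤ) : ℝ) * (2 * Real.pi) := by
    rw [flowX_siso σ R R' hR b w' (i.mapL z) h hz', flowX_height R b w z h hh]
    push_cast
    rw [Finset.mul_sum, Finset.mul_sum, Finset.sum_mul, ← Finset.sum_add_distrib]
    exact Finset.sum_congr rfl fun x hx => by rw [hn x hx]; ring
  rw [key u u' hu, key v v' hv, keyw, Real.cos_add_int_mul_two_pi, Real.sin_add_int_mul_two_pi]

/-- L-PH-G3.  `ph_law_eq` with `F _ _ c _ = c`. -/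
theorem ph_sym (σ : ℤ × ℤ ≃ ℤ × ℤ) (hσ : LatIso σ) (R R' : Rc) (hR : ∀ v, v ∈ R'.set ↔ σ.symm v ∈ R.set) (b : ℝ)
    (w w' : Bond → ℝ) (hw : ∀ x ∈ R.set, ∃ n : ℤ, R'.dv w' (σ x) = R.dv w x + n) : R'.ph b w' = R.ph b w :=
  ph_law_eq σ hσ R R' hR b 0 0 0 0 w w' (fun x _ => by simp [Rc.dv]) (fun x _ => by simp [Rc.dv]) hw fun _ _ c _ => c

/-- L-PH-G3.  `ph_sym`, `dv_pathFlow`: phases of vertex charges with INTEGER total do not see the root. -/
theorem ph_charge_sym (σ : ℤ × ℤ ≃ ℤ × ℤ) (hσ : LatIso σ) (R R' : Rc) (hR : ∀ v, v ∈ R'.set ↔ σ.symm v ∈ R.set) (b : ℝ)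
    (f f' : ℤ × ℤ → ℝ) (hf : ∀ x ∈ R.set, f' (σ x) = f x) (l : ℤ) (hl : ∑ x ∈ R.set, f x = l) :
    R'.ph b (R'.pathFlow f') = R.ph b (R.pathFlow f) := by
  refine ph_sym σ hσ R R' hR b _ _ fun x hx => ?_
  have hx' : σ x ∈ R'.set := by rw [hR, Equiv.symm_apply_apply]; exact hx
  have hl' : ∑ y ∈ R'.set, f' y = l := by
    rw [← hl]
    refine Finset.sum_equiv σ.symm hR fun v hv => ?_
    rw [← hf _ ((hR v).1 hv), Equiv.apply_symm_apply]
  rw [dv_pathFlow R' f' _ hx', dv_pathFlow R f x hx, hl, hl', hf x hx]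
  refine ⟨l * (if x = R.o then 1 else 0) - l * (if σ x = R'.o then 1 else 0), ?_⟩
  push_cast
  ring

/-! ## 3. Faces and potentials -/

/-- the sum over one column of a rectangle. -/
theorem sum_col (R : Rc) (f : ℤ × ℤ → ℝ) (x : ℤ) (hx : R.o.1 ≤ x ∧ x < R.o.1 + R.p) :
    ∑ v ∈ R.set.filter (fun v => v.1 = x), f v = ∑ t ∈ Finset.Ico R.o.2 (R.o.2 + R.q), f (x, t) := by
  rw [Finset.sum_filter]
  unfold Rc.set
  rw [Finset.sum_product_right]
  refine Finset.sum_congr rfl fun t _ => ?_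
  rw [Finset.sum_ite_eq', if_pos (Finset.mem_Ico.2 hx)]

theorem sum_Ico_const (a : ℤ) (n : ℕ) (hn : 0 < n) : ∑ _t ∈ Finset.Ico a (a + n), ((n : ℝ)⁻¹) = 1 := by
  rw [Finset.sum_const, Int.card_Ico]
  have : (a + n - a).toNat = n := by
    rw [add_sub_cancel_left]
    exact Int.toNat_natCast n
  rw [this, nsmul_eq_mul]
  exact mul_inv_cancel₀ (by exact_mod_cast hn.ne')

/-- L-PH-G4. -/
theorem sum_face (R : Rc) (hp : 0 < R.p) (hq : 0 < R.q) (d : Fin 4) : ∑ v ∈ R.set, R.face d v = 1 := by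
  have hR : ∑ v ∈ R.set, R.faceR v = 1 := by
    have e : ∑ v ∈ R.set, R.faceR v = ∑ v ∈ R.set.filter (fun v => v.1 = R.o.1 + R.p - 1), ((R.q : ℝ)⁻¹) := by
      rw [Finset.sum_filter]
      refine Finset.sum_congr rfl fun v hv => ?_
      unfold Rc.faceR
      exact if_congr ⟨fun h => by omega, fun h => ⟨hv, by omega⟩⟩ rfl rfl
    rw [e, sum_col R _ _ ⟨by omega, by omega⟩]
    exact sum_Ico_const _ _ hq
  have hL : ∑ v ∈ R.set, R.faceL v = 1 := by
    have e : ∑ v ∈ R.set, R.faceL v = ∑ v ∈ R.set.filter (fun v => v.1 = R.o.1), ((R.q : ℝ)⁻¹) := by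
      rw [Finset.sum_filter]
      refine Finset.sum_congr rfl fun v hv => ?_
      unfold Rc.faceL
      exact if_congr ⟨fun h => h.2, fun h => ⟨hv, h⟩⟩ rfl rfl
    rw [e, sum_col R _ _ ⟨by omega, by omega⟩]
    exact sum_Ico_const _ _ hq
  have hU : ∑ v ∈ R.set, R.faceU v = 1 := by
    have e : ∑ v ∈ R.set, R.faceU v = ∑ v ∈ R.set.filter (fun v => v.2 = R.o.2 + R.q - 1), ((R.p : ℝ)⁻¹) := by
      rw [Finset.sum_filter]
      refine Finset.sum_congr rfl fun v hv => ?_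
      unfold Rc.faceU
      exact if_congr ⟨fun h => by omega, fun h => ⟨hv, by omega⟩⟩ rfl rfl
    rw [e, sum_row R _ _ ⟨by omega, by omega⟩]
    exact sum_Ico_const _ _ hp
  have hD : ∑ v ∈ R.set, R.faceD v = 1 := by
    have e : ∑ v ∈ R.set, R.faceD v = ∑ v ∈ R.set.filter (fun v => v.2 = R.o.2), ((R.p : ℝ)⁻¹) := by
      rw [Finset.sum_filter]
      refine Finset.sum_congr rfl fun v hv => ?_
      unfold Rc.faceD
      exact if_congr ⟨fun h => h.2, fun h => ⟨hv, h⟩⟩ rfl rfl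
    rw [e, sum_row R _ _ ⟨by omega, by omega⟩]
    exact sum_Ico_const _ _ hp
  fin_cases d
  · exact hR
  · exact hL
  · exact hU
  · exact hD

/-- L-PH-G4. -/
theorem sum_unif (R : Rc) (hp : 0 < R.p) (hq : 0 < R.q) : ∑ v ∈ R.set, R.unif v = 1 := by
  have e : ∑ v ∈ R.set, R.unif v = ∑ _v ∈ R.set, (((R.p : ℝ) * R.q)⁻¹) :=
    Finset.sum_congr rfl fun v hv => by
      unfold Rc.unif
      rw [if_pos hv]
  have hc : R.set.card = R.p * R.q := by
    unfold Rc.set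
    rw [Finset.card_product, Int.card_Ico, Int.card_Ico, add_sub_cancel_left, add_sub_cancel_left, Int.toNat_natCast,
      Int.toNat_natCast]
  rw [e, Finset.sum_const, hc, nsmul_eq_mul]
  push_cast
  exact mul_inv_cancel₀ (mul_ne_zero (by exact_mod_cast hp.ne') (by exact_mod_cast hq.ne'))

/-- the free Laplacian at a site of the rectangle: the four neighbours. -/
theorem lap_four (R : Rc) (g : ℤ × ℤ → ℝ) (x y : ℤ) (hv : (x, y) ∈ R.set) : R.lap g (x, y) =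
    (if x + 1 < R.o.1 + R.p then g (x, y) - g (x + 1, y) else 0) + (if R.o.1 ≤ x - 1 then g (x, y) - g (x - 1, y) else 0)
      + (if y + 1 < R.o.2 + R.q then g (x, y) - g (x, y + 1) else 0) + (if R.o.2 ≤ y - 1 then g (x, y) - g (x, y - 1) else 0) := by
  have hv' := fr_mem_set.1 hv
  simp only at hv'
  obtain ⟨⟨hx1, hx2⟩, hy1, hy2⟩ := hv'
  have e : R.lap g (x, y) = R.dv (gd g) (x, y) := rfl
  rw [e, dv_four]
  simp only [mem_bd, fr_mem_set, Bond.snd, gd, if_true, Bool.false_eq_true, if_false, sub_add_cancel]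
  have c1 : (((R.o.1 ≤ x - 1 ∧ x - 1 < R.o.1 + R.p) ∧ R.o.2 ≤ y ∧ y < R.o.2 + R.q) ∧ (R.o.1 ≤ x ∧ x < R.o.1 + R.p) ∧ R.o.2 ≤ y ∧ y < R.o.2 + R.q) ↔ R.o.1 ≤ x - 1 := by
    constructor
    · intro h; exact h.1.1.1
    · intro h; exact ⟨⟨⟨h, by omega⟩, hy1, hy2⟩, ⟨hx1, hx2⟩, hy1, hy2⟩
  have c2 : (((R.o.1 ≤ x ∧ x < R.o.1 + R.p) ∧ R.o.2 ≤ y - 1 ∧ y - 1 < R.o.2 + R.q) ∧ (R.o.1 ≤ x ∧ x < R.o.1 + R.p) ∧ R.o.2 ≤ y ∧ y < R.o.2 + R.q) ↔ R.o.2 ≤ y - 1 := by
    constructor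
    · intro h; exact h.1.2.1
    · intro h; exact ⟨⟨⟨hx1, hx2⟩, h, by omega⟩, ⟨hx1, hx2⟩, hy1, hy2⟩
  have c3 : (((R.o.1 ≤ x ∧ x < R.o.1 + R.p) ∧ R.o.2 ≤ y ∧ y < R.o.2 + R.q) ∧ (R.o.1 ≤ x + 1 ∧ x + 1 < R.o.1 + R.p) ∧ R.o.2 ≤ y ∧ y < R.o.2 + R.q) ↔ x + 1 < R.o.1 + R.p := by
    constructor
    · intro h; exact h.2.1.2
    · intro h; exact ⟨⟨⟨hx1, hx2⟩, hy1, hy2⟩, ⟨by omega, h⟩, hy1, hy2⟩
  have c4 : (((R.o.1 ≤ x ∧ x < R.o.1 + R.p) ∧ R.o.2 ≤ y ∧ y < R.o.2 + R.q) ∧ (R.o.1 ≤ x ∧ x < R.o.1 + R.p) ∧ R.o.2 ≤ y + 1 ∧ y + 1 < R.o.2 + R.q) ↔ y + 1 < R.o.2 + R.q := by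
    constructor
    · intro h; exact h.2.2.2
    · intro h; exact ⟨⟨⟨hx1, hx2⟩, hy1, hy2⟩, ⟨hx1, hx2⟩, by omega, h⟩
  simp only [c1, c2, c3, c4]
  split_ifs <;> ring

/-- the one-dimensional computation behind the exact potentials. -/
theorem pot_1d (n : ℕ) (D : ℝ) (t : ℤ) (h0 : 0 ≤ t) (h1 : t < n) :
    (if t + 1 < n then ((t : ℝ) * ((t : ℝ) + 1) / D - ((t : ℝ) + 1) * (((t : ℝ) + 1) + 1) / D) else 0)
      + (if 0 ≤ t - 1 then ((t : ℝ) * ((t : ℝ) + 1) / D - ((t : ℝ) - 1) * (((t : ℝ) - 1) + 1) / D) else 0)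
      = (if t + 1 = n then 2 * (n : ℝ) / D else 0) - 2 / D := by
  have z : ¬ (0 ≤ t - 1) → (t : ℝ) = 0 := fun h => by
    have : t = 0 := by omega
    rw [this]
    simp
  by_cases k1 : t + 1 < n
  · rw [if_pos k1, if_neg (show ¬ (t + 1 = n) by omega)]
    by_cases k2 : 0 ≤ t - 1
    · rw [if_pos k2]
      ring
    · rw [if_neg k2, z k2]
      ring
  · have hn : (n : ℝ) = (t : ℝ) + 1 := by
      have : (n : ℤ) = t + 1 := by omega
      exact_mod_cast this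
    rw [if_neg k1, if_pos (show t + 1 = n by omega), hn]
    by_cases k2 : 0 ≤ t - 1
    · rw [if_pos k2]
      ring
    · rw [if_neg k2, z k2]
      ring

/-- L-PH-G4.  (`d = 0` is `C2.face_potential`.)  On the horizontal bond `t → t+1` (`t = x - o.1`) the gradient of `pot 0` is `(t+1)/(pq)`; in minus out `= -1/(pq)` for `t < p-1` and `(p-1)/(pq)` for `t = p-1`.  The other three by the same computation. -/
theorem lap_pot (R : Rc) (hp : 0 < R.p) (hq : 0 < R.q) (d : Fin 4) (v : ℤ × ℤ) (hv : v ∈ R.set) :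
    R.lap (R.pot d) v = R.face d v - R.unif v := by
  obtain ⟨x, y⟩ := v
  have hv' := fr_mem_set.1 hv
  simp only at hv'
  obtain ⟨⟨hx1, hx2⟩, hy1, hy2⟩ := hv'
  have hp' : (R.p : ℝ) ≠ 0 := by exact_mod_cast hp.ne'
  have hq' : (R.q : ℝ) ≠ 0 := by exact_mod_cast hq.ne'
  have hun : R.unif (x, y) = 2 / (2 * R.p * R.q) := by
    unfold Rc.unif
    rw [if_pos hv]
    field_simp
  have hP : 2 * (R.p : ℝ) / (2 * R.p * R.q) = (R.q : ℝ)⁻¹ := by field_simp
  have hQ : 2 * (R.q : ℝ) / (2 * R.p * R.q) = (R.p : ℝ)⁻¹ := by field_simp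
  rw [lap_four R _ x y hv, hun]
  fin_cases d
  · have k := pot_1d R.p (2 * R.p * R.q) (x - R.o.1) (by omega) (by omega)
    have c1 : ((x + 1 - R.o.1 : ℤ) : ℝ) = ((x - R.o.1 : ℤ) : ℝ) + 1 := by push_cast; ring
    have c2 : ((x - 1 - R.o.1 : ℤ) : ℝ) = ((x - R.o.1 : ℤ) : ℝ) - 1 := by push_cast; ring
    have f : R.face 0 (x, y) = if x - R.o.1 + 1 = R.p then 2 * (R.p : ℝ) / (2 * R.p * R.q) else 0 := by
      rw [hP]
      show R.faceR (x, y) = _
      unfold Rc.faceR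
      exact if_congr ⟨fun h => by have := h.2; simp only at this; omega, fun h => ⟨hv, by simp only; omega⟩⟩ rfl rfl
    show (if x + 1 < R.o.1 + R.p then R.pot 0 (x, y) - R.pot 0 (x + 1, y) else 0) + (if R.o.1 ≤ x - 1 then R.pot 0 (x, y) - R.pot 0 (x - 1, y) else 0)
      + (if y + 1 < R.o.2 + R.q then R.pot 0 (x, y) - R.pot 0 (x, y + 1) else 0) + (if R.o.2 ≤ y - 1 then R.pot 0 (x, y) - R.pot 0 (x, y - 1) else 0) = R.face 0 (x, y) - _
    rw [f, ← k]
    simp only [Rc.pot, Matrix.cons_val_zero, sub_self, ite_self, add_zero, c1, c2]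
    congr 1
    · exact if_congr ⟨fun h => by omega, fun h => by omega⟩ rfl rfl
    · exact if_congr ⟨fun h => by omega, fun h => by omega⟩ rfl rfl
  · have k := pot_1d R.p (2 * R.p * R.q) (R.o.1 + R.p - 1 - x) (by omega) (by omega)
    have c1 : ((R.o.1 + R.p - 1 - (x + 1) : ℤ) : ℝ) = ((R.o.1 + R.p - 1 - x : ℤ) : ℝ) - 1 := by push_cast; ring
    have c2 : ((R.o.1 + R.p - 1 - (x - 1) : ℤ) : ℝ) = ((R.o.1 + R.p - 1 - x : ℤ) : ℝ) + 1 := by push_cast; ring
    have f : R.face 1 (x, y) = if R.o.1 + R.p - 1 - x + 1 = R.p then 2 * (R.p : ℝ) / (2 * R.p * R.q) else 0 := by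
      rw [hP]
      show R.faceL (x, y) = _
      unfold Rc.faceL
      exact if_congr ⟨fun h => by have := h.2; simp only at this; omega, fun h => ⟨hv, by simp only; omega⟩⟩ rfl rfl
    have p1 : ∀ u : ℤ × ℤ, R.pot 1 u = ((R.o.1 + R.p - 1 - u.1 : ℤ) : ℝ) * (((R.o.1 + R.p - 1 - u.1 : ℤ) : ℝ) + 1) / (2 * R.p * R.q) :=
      fun _ => rfl
    show (if x + 1 < R.o.1 + R.p then R.pot 1 (x, y) - R.pot 1 (x + 1, y) else 0) + (if R.o.1 ≤ x - 1 then R.pot 1 (x, y) - R.pot 1 (x - 1, y) else 0)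
      + (if y + 1 < R.o.2 + R.q then R.pot 1 (x, y) - R.pot 1 (x, y + 1) else 0) + (if R.o.2 ≤ y - 1 then R.pot 1 (x, y) - R.pot 1 (x, y - 1) else 0) = R.face 1 (x, y) - _
    rw [f, ← k, add_comm (if R.o.1 + (R.p : ℤ) - 1 - x + 1 < (R.p : ℤ) then _ else _) _]
    simp only [p1, sub_self, ite_self, add_zero, c1, c2]
    congr 1
    · exact if_congr ⟨fun h => by omega, fun h => by omega⟩ rfl rfl
    · exact if_congr ⟨fun h => by omega, fun h => by omega⟩ rfl rfl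
  · have k := pot_1d R.q (2 * R.p * R.q) (y - R.o.2) (by omega) (by omega)
    have c1 : ((y + 1 - R.o.2 : ℤ) : ℝ) = ((y - R.o.2 : ℤ) : ℝ) + 1 := by push_cast; ring
    have c2 : ((y - 1 - R.o.2 : ℤ) : ℝ) = ((y - R.o.2 : ℤ) : ℝ) - 1 := by push_cast; ring
    have f : R.face 2 (x, y) = if y - R.o.2 + 1 = R.q then 2 * (R.q : ℝ) / (2 * R.p * R.q) else 0 := by
      rw [hQ]
      show R.faceU (x, y) = _
      unfold Rc.faceU
      exact if_congr ⟨fun h => by have := h.2; simp only at this; omega, fun h => ⟨hv, by simp only; omega⟩⟩ rfl rfl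
    have p2 : ∀ u : ℤ × ℤ, R.pot 2 u = ((u.2 - R.o.2 : ℤ) : ℝ) * (((u.2 - R.o.2 : ℤ) : ℝ) + 1) / (2 * R.p * R.q) :=
      fun _ => rfl
    show (if x + 1 < R.o.1 + R.p then R.pot 2 (x, y) - R.pot 2 (x + 1, y) else 0) + (if R.o.1 ≤ x - 1 then R.pot 2 (x, y) - R.pot 2 (x - 1, y) else 0)
      + (if y + 1 < R.o.2 + R.q then R.pot 2 (x, y) - R.pot 2 (x, y + 1) else 0) + (if R.o.2 ≤ y - 1 then R.pot 2 (x, y) - R.pot 2 (x, y - 1) else 0) = R.face 2 (x, y) - _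
    rw [f, ← k]
    simp only [p2, sub_self, ite_self, add_zero, zero_add, c1, c2]
    congr 1
    · exact if_congr ⟨fun h => by omega, fun h => by omega⟩ rfl rfl
    · exact if_congr ⟨fun h => by omega, fun h => by omega⟩ rfl rfl
  · have k := pot_1d R.q (2 * R.p * R.q) (R.o.2 + R.q - 1 - y) (by omega) (by omega)
    have c1 : ((R.o.2 + R.q - 1 - (y + 1) : ℤ) : ℝ) = ((R.o.2 + R.q - 1 - y : ℤ) : ℝ) - 1 := by push_cast; ring
    have c2 : ((R.o.2 + R.q - 1 - (y - 1) : ℤ) : ℝ) = ((R.o.2 + R.q - 1 - y : ℤ) : ℝ) + 1 := by push_cast; ring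
    have f : R.face 3 (x, y) = if R.o.2 + R.q - 1 - y + 1 = R.q then 2 * (R.q : ℝ) / (2 * R.p * R.q) else 0 := by
      rw [hQ]
      show R.faceD (x, y) = _
      unfold Rc.faceD
      exact if_congr ⟨fun h => by have := h.2; simp only at this; omega, fun h => ⟨hv, by simp only; omega⟩⟩ rfl rfl
    have p3 : ∀ u : ℤ × ℤ, R.pot 3 u = ((R.o.2 + R.q - 1 - u.2 : ℤ) : ℝ) * (((R.o.2 + R.q - 1 - u.2 : ℤ) : ℝ) + 1) / (2 * R.p * R.q) :=
      fun _ => rfl
    show (if x + 1 < R.o.1 + R.p then R.pot 3 (x, y) - R.pot 3 (x + 1, y) else 0) + (if R.o.1 ≤ x - 1 then R.pot 3 (x, y) - R.pot 3 (x - 1, y) else 0)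
      + (if y + 1 < R.o.2 + R.q then R.pot 3 (x, y) - R.pot 3 (x, y + 1) else 0) + (if R.o.2 ≤ y - 1 then R.pot 3 (x, y) - R.pot 3 (x, y - 1) else 0) = R.face 3 (x, y) - _
    rw [f, ← k, add_comm (if R.o.2 + (R.q : ℤ) - 1 - y + 1 < (R.q : ℤ) then _ else _) _]
    simp only [p3, sub_self, ite_self, add_zero, zero_add, c1, c2]
    congr 1
    · exact if_congr ⟨fun h => by omega, fun h => by omega⟩ rfl rfl
    · exact if_congr ⟨fun h => by omega, fun h => by omega⟩ rfl rfl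

/-- the cost of a flow carried by the bonds of one direction. -/
theorem cost_dir_le (R : Rc) (w : Bond → ℝ) (D : Bool) (c : ℝ) (hc : 0 ≤ c)
    (h : ∀ e ∈ R.bd, w e ^ 2 ≤ if e.2 = D then c else 0) : R.cost w ≤ ((R.p * R.q : ℕ) : ℝ) * c := by
  have hcard : R.set.card = R.p * R.q := by
    unfold Rc.set
    rw [Finset.card_product, Int.card_Ico, Int.card_Ico, add_sub_cancel_left, add_sub_cancel_left, Int.toNat_natCast,
      Int.toNat_natCast]
  calc R.cost w ≤ ∑ e ∈ R.bd, (if e.2 = D then c else 0) := Finset.sum_le_sum h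
    _ ≤ ∑ e ∈ R.set ×ˢ (Finset.univ : Finset Bool), (if e.2 = D then c else 0) := by
        refine Finset.sum_le_sum_of_subset_of_nonneg
          (fun e he => Finset.mem_product.2 ⟨(mem_bd.1 he).1, Finset.mem_univ _⟩) fun e _ _ => ?_
        split_ifs
        · exact hc
        · exact le_refl _
    _ = ∑ _v ∈ R.set, c := by
        rw [Finset.sum_product]
        refine Finset.sum_congr rfl fun v _ => ?_
        rw [Finset.sum_ite_eq', if_pos (Finset.mem_univ D)]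
    _ = ((R.p * R.q : ℕ) : ℝ) * c := by rw [Finset.sum_const, hcard, nsmul_eq_mul]

theorem sq_div_le (s M : ℝ) (hM : 0 < M) (hs : |s| ≤ M) : (s / (M * M)) ^ 2 ≤ (1 / M) ^ 2 := by
  have h1 : s ^ 2 ≤ M ^ 2 := sq_le_sq' (by linarith [(abs_le.1 hs).1]) (abs_le.1 hs).2
  rw [div_pow, div_pow, one_pow, div_le_div_iff₀ (by positivity) (by positivity)]
  nlinarith [mul_le_mul_of_nonneg_right h1 (sq_nonneg M)]

/-- L-PH-G4.  `∑_{y} ∑_{t < m-1} ((t+1)/m²)² ≤ m · m · (1/m)² = 1`. -/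
theorem cost_pot (m : ℕ) (d : Fin 4) : (C2.sq m).cost (gd ((C2.sq m).pot d)) ≤ 1 := by
  rcases Nat.eq_zero_or_pos m with rfl | hm
  · have : (C2.sq 0).bd = ∅ := by
      ext e
      simp only [mem_bd, fr_mem_set, C2.sq, Finset.notMem_empty, iff_false]
      push_cast
      omega
    unfold Rc.cost
    rw [this, Finset.sum_empty]
    exact zero_le_one
  have hM : (0 : ℝ) < m := by exact_mod_cast hm
  have hfin : (((C2.sq m).p * (C2.sq m).q : ℕ) : ℝ) * (1 / (m : ℝ)) ^ 2 = 1 := by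
    show ((m * m : ℕ) : ℝ) * (1 / (m : ℝ)) ^ 2 = 1
    push_cast
    field_simp
  have p0 : ∀ u : ℤ × ℤ, (C2.sq m).pot 0 u = (u.1 : ℝ) * ((u.1 : ℝ) + 1) / (2 * m * m) := fun u => by
    show ((u.1 - 0 : ℤ) : ℝ) * (((u.1 - 0 : ℤ) : ℝ) + 1) / (2 * m * m) = _
    rw [sub_zero]
  have p1 : ∀ u : ℤ × ℤ, (C2.sq m).pot 1 u = ((m : ℝ) - 1 - u.1) * (((m : ℝ) - 1 - u.1) + 1) / (2 * m * m) := fun u => by
    show ((0 + m - 1 - u.1 : ℤ) : ℝ) * (((0 + m - 1 - u.1 : ℤ) : ℝ) + 1) / (2 * m * m) = _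
    push_cast
    rw [zero_add]
  have p2 : ∀ u : ℤ × ℤ, (C2.sq m).pot 2 u = (u.2 : ℝ) * ((u.2 : ℝ) + 1) / (2 * m * m) := fun u => by
    show ((u.2 - 0 : ℤ) : ℝ) * (((u.2 - 0 : ℤ) : ℝ) + 1) / (2 * m * m) = _
    rw [sub_zero]
  have p3 : ∀ u : ℤ × ℤ, (C2.sq m).pot 3 u = ((m : ℝ) - 1 - u.2) * (((m : ℝ) - 1 - u.2) + 1) / (2 * m * m) := fun u => by
    show ((0 + m - 1 - u.2 : ℤ) : ℝ) * (((0 + m - 1 - u.2 : ℤ) : ℝ) + 1) / (2 * m * m) = _
    push_cast
    rw [zero_add]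
  have hmem : ∀ e : Bond, e ∈ (C2.sq m).bd → ((0 ≤ e.1.1 ∧ e.1.1 < m) ∧ 0 ≤ e.1.2 ∧ e.1.2 < m) ∧
      ((0 ≤ e.snd.1 ∧ e.snd.1 < m) ∧ 0 ≤ e.snd.2 ∧ e.snd.2 < m) := fun e he => by
    have h := mem_bd.1 he
    rw [fr_mem_set, fr_mem_set] at h
    simpa [C2.sq] using h
  rw [← hfin]
  fin_cases d
  · refine cost_dir_le _ _ true _ (by positivity) fun e he => ?_
    obtain ⟨⟨x, y⟩, b⟩ := e
    have h := hmem _ he
    cases b
    · show ((C2.sq m).pot 0 (x, y + 1) - (C2.sq m).pot 0 (x, y)) ^ 2 ≤ _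
      rw [p0, p0]
      simp
    · simp only [Bond.snd, if_true] at h
      have h1 : (0 : ℝ) ≤ x := by exact_mod_cast h.1.1.1
      have h2 : (x : ℝ) + 1 ≤ m := by exact_mod_cast h.2.1.2.le
      show ((C2.sq m).pot 0 (x + 1, y) - (C2.sq m).pot 0 (x, y)) ^ 2 ≤ _
      rw [p0, p0, if_pos rfl]
      have e1 : (((x + 1 : ℤ) : ℝ) * (((x + 1 : ℤ) : ℝ) + 1) / (2 * m * m) - (x : ℝ) * ((x : ℝ) + 1) / (2 * m * m)) =
          ((x : ℝ) + 1) / (m * m) := by
        push_cast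
        field_simp
        ring
      rw [e1]
      exact sq_div_le _ _ hM (by rw [abs_of_nonneg (by linarith)]; exact h2)
  · refine cost_dir_le _ _ true _ (by positivity) fun e he => ?_
    obtain ⟨⟨x, y⟩, b⟩ := e
    have h := hmem _ he
    cases b
    · show ((C2.sq m).pot 1 (x, y + 1) - (C2.sq m).pot 1 (x, y)) ^ 2 ≤ _
      rw [p1, p1]
      simp
    · simp only [Bond.snd, if_true] at h
      have h1 : (0 : ℝ) ≤ x := by exact_mod_cast h.1.1.1
      have h2 : (x : ℝ) + 1 ≤ m := by exact_mod_cast h.2.1.2.le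
      show ((C2.sq m).pot 1 (x + 1, y) - (C2.sq m).pot 1 (x, y)) ^ 2 ≤ _
      rw [p1, p1, if_pos rfl]
      have e1 : (((m : ℝ) - 1 - ((x + 1 : ℤ) : ℝ)) * (((m : ℝ) - 1 - ((x + 1 : ℤ) : ℝ)) + 1) / (2 * m * m)
          - ((m : ℝ) - 1 - x) * (((m : ℝ) - 1 - x) + 1) / (2 * m * m)) = (-((m : ℝ) - 1 - x)) / (m * m) := by
        push_cast
        field_simp
        ring
      rw [e1]
      exact sq_div_le _ _ hM (by rw [abs_neg, abs_of_nonneg (by linarith)]; linarith)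
  · refine cost_dir_le _ _ false _ (by positivity) fun e he => ?_
    obtain ⟨⟨x, y⟩, b⟩ := e
    have h := hmem _ he
    cases b
    · simp only [Bond.snd, Bool.false_eq_true, if_false] at h
      have h1 : (0 : ℝ) ≤ y := by exact_mod_cast h.1.2.1
      have h2 : (y : ℝ) + 1 ≤ m := by exact_mod_cast h.2.2.2.le
      show ((C2.sq m).pot 2 (x, y + 1) - (C2.sq m).pot 2 (x, y)) ^ 2 ≤ _
      rw [p2, p2, if_pos rfl]
      have e1 : (((y + 1 : ℤ) : ℝ) * (((y + 1 : ℤ) : ℝ) + 1) / (2 * m * m) - (y : ℝ) * ((y : ℝ) + 1) / (2 * m * m)) =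
          ((y : ℝ) + 1) / (m * m) := by
        push_cast
        field_simp
        ring
      rw [e1]
      exact sq_div_le _ _ hM (by rw [abs_of_nonneg (by linarith)]; exact h2)
    · show ((C2.sq m).pot 2 (x + 1, y) - (C2.sq m).pot 2 (x, y)) ^ 2 ≤ _
      rw [p2, p2]
      simp
  · refine cost_dir_le _ _ false _ (by positivity) fun e he => ?_
    obtain ⟨⟨x, y⟩, b⟩ := e
    have h := hmem _ he
    cases b
    · simp only [Bond.snd, Bool.false_eq_true, if_false] at h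
      have h1 : (0 : ℝ) ≤ y := by exact_mod_cast h.1.2.1
      have h2 : (y : ℝ) + 1 ≤ m := by exact_mod_cast h.2.2.2.le
      show ((C2.sq m).pot 3 (x, y + 1) - (C2.sq m).pot 3 (x, y)) ^ 2 ≤ _
      rw [p3, p3, if_pos rfl]
      have e1 : (((m : ℝ) - 1 - ((y + 1 : ℤ) : ℝ)) * (((m : ℝ) - 1 - ((y + 1 : ℤ) : ℝ)) + 1) / (2 * m * m)
          - ((m : ℝ) - 1 - y) * (((m : ℝ) - 1 - y) + 1) / (2 * m * m)) = (-((m : ℝ) - 1 - y)) / (m * m) := by
        push_cast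
        field_simp
        ring
      rw [e1]
      exact sq_div_le _ _ hM (by rw [abs_neg, abs_of_nonneg (by linarith)]; linarith)
    · show ((C2.sq m).pot 3 (x + 1, y) - (C2.sq m).pot 3 (x, y)) ^ 2 ≤ _
      rw [p3, p3]
      simp

/-- L-PH-G4 (= `C2.face_affine` and its transpose, on squares). -/
theorem lap_affine (m : ℕ) (hm : 0 < m) (v : ℤ × ℤ) (hv : v ∈ (C2.sq m).set) :
    (C2.sq m).lap (fun u => (u.1 : ℝ) / m) v = (C2.sq m).face 0 v - (C2.sq m).face 1 v ∧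
    (C2.sq m).lap (fun u => (u.2 : ℝ) / m) v = (C2.sq m).face 2 v - (C2.sq m).face 3 v := by
  obtain ⟨x, y⟩ := v
  have hv' := fr_mem_set.1 hv
  have hM : (m : ℝ) ≠ 0 := by exact_mod_cast hm.ne'
  have hx : (0 ≤ x ∧ x < m) ∧ 0 ≤ y ∧ y < m := by simpa [C2.sq] using hv'
  obtain ⟨⟨hx1, hx2⟩, hy1, hy2⟩ := hx
  have o1 : (C2.sq m).o.1 = 0 := rfl
  have o2 : (C2.sq m).o.2 = 0 := rfl
  have pp : (C2.sq m).p = m := rfl
  have qq : (C2.sq m).q = m := rfl
  constructor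
  · rw [lap_four _ _ x y hv]
    show _ = (C2.sq m).faceR (x, y) - (C2.sq m).faceL (x, y)
    unfold Rc.faceR Rc.faceL
    simp only [hv, true_and, o1, o2, pp, qq, zero_add, sub_self, ite_self, add_zero]
    by_cases k1 : x + 1 < m
    · rw [if_pos k1, if_neg (show ¬ (x + 1 = m) by omega)]
      by_cases k2 : 0 ≤ x - 1
      · rw [if_pos k2, if_neg (show ¬ (x = 0) by omega)]
        push_cast
        field_simp
        ring
      · rw [if_neg k2, if_pos (show x = 0 by omega)]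
        push_cast
        field_simp
        ring
    · rw [if_neg k1, if_pos (show x + 1 = m by omega)]
      by_cases k2 : 0 ≤ x - 1
      · rw [if_pos k2, if_neg (show ¬ (x = 0) by omega)]
        push_cast
        field_simp
        ring
      · rw [if_neg k2, if_pos (show x = 0 by omega)]
        ring
  · rw [lap_four _ _ x y hv]
    show _ = (C2.sq m).faceU (x, y) - (C2.sq m).faceD (x, y)
    unfold Rc.faceU Rc.faceD
    simp only [hv, true_and, o1, o2, pp, qq, zero_add, sub_self, ite_self, add_zero]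
    by_cases k1 : y + 1 < m
    · rw [if_pos k1, if_neg (show ¬ (y + 1 = m) by omega)]
      by_cases k2 : 0 ≤ y - 1
      · rw [if_pos k2, if_neg (show ¬ (y = 0) by omega)]
        push_cast
        field_simp
        ring
      · rw [if_neg k2, if_pos (show y = 0 by omega)]
        push_cast
        field_simp
        ring
    · rw [if_neg k1, if_pos (show y + 1 = m by omega)]
      by_cases k2 : 0 ≤ y - 1
      · rw [if_pos k2, if_neg (show ¬ (y = 0) by omega)]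
        push_cast
        field_simp
        ring
      · rw [if_neg k2, if_pos (show y = 0 by omega)]
        ring

/-- the four faces of the square, explicitly. -/
theorem face_sq (m : ℕ) (v : ℤ × ℤ) :
    (C2.sq m).face 0 v = (if ((0 ≤ v.1 ∧ v.1 < m) ∧ 0 ≤ v.2 ∧ v.2 < m) ∧ v.1 + 1 = m then (m : ℝ)⁻¹ else 0) ∧
    (C2.sq m).face 1 v = (if ((0 ≤ v.1 ∧ v.1 < m) ∧ 0 ≤ v.2 ∧ v.2 < m) ∧ v.1 = 0 then (m : ℝ)⁻¹ else 0) ∧
    (C2.sq m).face 2 v = (if ((0 ≤ v.1 ∧ v.1 < m) ∧ 0 ≤ v.2 ∧ v.2 < m) ∧ v.2 + 1 = m then (m : ℝ)⁻¹ else 0) ∧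
    (C2.sq m).face 3 v = (if ((0 ≤ v.1 ∧ v.1 < m) ∧ 0 ≤ v.2 ∧ v.2 < m) ∧ v.2 = 0 then (m : ℝ)⁻¹ else 0) := by
  have hs : v ∈ (C2.sq m).set ↔ ((0 ≤ v.1 ∧ v.1 < m) ∧ 0 ≤ v.2 ∧ v.2 < m) := by
    rw [fr_mem_set]
    simp [C2.sq]
  refine ⟨?_, ?_, ?_, ?_⟩
  · show (C2.sq m).faceR v = _
    unfold Rc.faceR
    exact if_congr (and_congr hs (by simp [C2.sq])) rfl rfl
  · show (C2.sq m).faceL v = _
    unfold Rc.faceL
    exact if_congr (and_congr hs (by simp [C2.sq])) rfl rfl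
  · show (C2.sq m).faceU v = _
    unfold Rc.faceU
    exact if_congr (and_congr hs (by simp [C2.sq])) rfl rfl
  · show (C2.sq m).faceD v = _
    unfold Rc.faceD
    exact if_congr (and_congr hs (by simp [C2.sq])) rfl rfl

/-- L-PH-G4.  Action of the symmetries of the square on the faces. -/
theorem face_refl (m : ℕ) (v : ℤ × ℤ) :
    ((C2.sq m).face 0 (reflX (m - 1) v) = (C2.sq m).face 1 v ∧ (C2.sq m).face 1 (reflX (m - 1) v) = (C2.sq m).face 0 v ∧
      (C2.sq m).face 2 (reflX (m - 1) v) = (C2.sq m).face 2 v ∧ (C2.sq m).face 3 (reflX (m - 1) v) = (C2.sq m).face 3 v) ∧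
    ((C2.sq m).face 0 (reflY (m - 1) v) = (C2.sq m).face 0 v ∧ (C2.sq m).face 1 (reflY (m - 1) v) = (C2.sq m).face 1 v ∧
      (C2.sq m).face 2 (reflY (m - 1) v) = (C2.sq m).face 3 v ∧ (C2.sq m).face 3 (reflY (m - 1) v) = (C2.sq m).face 2 v) ∧
    ((C2.sq m).face 0 (reflD 0 v) = (C2.sq m).face 2 v ∧ (C2.sq m).face 1 (reflD 0 v) = (C2.sq m).face 3 v ∧
      (C2.sq m).face 2 (reflD 0 v) = (C2.sq m).face 0 v ∧ (C2.sq m).face 3 (reflD 0 v) = (C2.sq m).face 1 v) := by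
  obtain ⟨x, y⟩ := v
  have hX : reflX ((m : ℤ) - 1) (x, y) = ((m : ℤ) - 1 - x, y) := rfl
  have hY : reflY ((m : ℤ) - 1) (x, y) = (x, (m : ℤ) - 1 - y) := rfl
  have hD : reflD 0 (x, y) = (y + 0, x - 0) := rfl
  rw [hX, hY, hD]
  have a := face_sq m (x, y)
  have b := face_sq m ((m : ℤ) - 1 - x, y)
  have c := face_sq m (x, (m : ℤ) - 1 - y)
  have d := face_sq m (y + 0, x - 0)
  rw [a.1, a.2.1, a.2.2.1, a.2.2.2, b.1, b.2.1, b.2.2.1, b.2.2.2, c.1, c.2.1, c.2.2.1, c.2.2.2, d.1, d.2.1, d.2.2.1, d.2.2.2]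
  simp only
  refine ⟨⟨?_, ?_, ?_, ?_⟩, ⟨?_, ?_, ?_, ?_⟩, ?_, ?_, ?_, ?_⟩ <;>
    exact if_congr ⟨fun h => by omega, fun h => by omega⟩ rfl rfl

/-- L-PH-G4.  The three reflections preserve the square. -/
theorem sq_refl (m : ℕ) (v : ℤ × ℤ) :
    (v ∈ (C2.sq m).set ↔ (reflX (m - 1)).symm v ∈ (C2.sq m).set) ∧ (v ∈ (C2.sq m).set ↔ (reflY (m - 1)).symm v ∈ (C2.sq m).set) ∧
    (v ∈ (C2.sq m).set ↔ (reflD 0).symm v ∈ (C2.sq m).set) := by
  obtain ⟨x, y⟩ := v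
  have hX : (reflX ((m : ℤ) - 1)).symm (x, y) = ((m : ℤ) - 1 - x, y) := rfl
  have hY : (reflY ((m : ℤ) - 1)).symm (x, y) = (x, (m : ℤ) - 1 - y) := rfl
  have hD : (reflD 0).symm (x, y) = (y + 0, x - 0) := rfl
  rw [hX, hY, hD]
  simp only [fr_mem_set, C2.sq]
  refine ⟨?_, ?_, ?_⟩ <;> constructor <;> intro h <;> omega

/-- L-PH-G4.  Cells are translates of the square. -/
theorem cel_transl (m : ℕ) (i v : ℤ × ℤ) :
    (v ∈ (cel m i).set ↔ (Equiv.addRight ((i.1 * m, i.2 * m) : ℤ × ℤ)).symm v ∈ (C2.sq m).set) ∧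
    ∀ d, (cel m i).face d (Equiv.addRight ((i.1 * m, i.2 * m) : ℤ × ℤ) v) = (C2.sq m).face d v := by
  obtain ⟨x, y⟩ := v
  obtain ⟨i1, i2⟩ := i
  have hs : (Equiv.addRight ((i1 * m, i2 * m) : ℤ × ℤ)).symm (x, y) = (x - i1 * m, y - i2 * m) := by
    rw [Equiv.addRight_symm, Equiv.coe_addRight]
    ext <;> simp [sub_eq_add_neg]
  have ht : Equiv.addRight ((i1 * m, i2 * m) : ℤ × ℤ) (x, y) = (x + i1 * m, y + i2 * m) := rfl
  have hmem : ∀ a c : ℤ, (a, c) ∈ (cel m (i1, i2)).set ↔ (a - i1 * m, c - i2 * m) ∈ (C2.sq m).set := by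
    intro a c
    simp only [fr_mem_set, C2.sq, cellRc]
    generalize i1 * (m : ℤ) = A
    generalize i2 * (m : ℤ) = C
    constructor <;> intro h <;> omega
  refine ⟨?_, fun d => ?_⟩
  · rw [hs]
    exact hmem x y
  · rw [ht]
    have hm2 : (x + i1 * m, y + i2 * m) ∈ (cel m (i1, i2)).set ↔ (x, y) ∈ (C2.sq m).set := by
      rw [hmem]
      simp
    fin_cases d
    · show (cel m (i1, i2)).faceR _ = (C2.sq m).faceR _
      unfold Rc.faceR
      refine if_congr (and_congr hm2 ?_) rfl rfl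
      simp only [C2.sq, cellRc]
      constructor <;> intro h <;> omega
    · show (cel m (i1, i2)).faceL _ = (C2.sq m).faceL _
      unfold Rc.faceL
      refine if_congr (and_congr hm2 ?_) rfl rfl
      simp only [C2.sq, cellRc]
      constructor <;> intro h <;> omega
    · show (cel m (i1, i2)).faceU _ = (C2.sq m).faceU _
      unfold Rc.faceU
      refine if_congr (and_congr hm2 ?_) rfl rfl
      simp only [C2.sq, cellRc]
      constructor <;> intro h <;> omega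
    · show (cel m (i1, i2)).faceD _ = (C2.sq m).faceD _
      unfold Rc.faceD
      refine if_congr (and_congr hm2 ?_) rfl rfl
      simp only [C2.sq, cellRc]
      constructor <;> intro h <;> omega

/-! ## 4. Bridge to `chr`, `zface` -/

/-- summation by parts in height variables, for every real height. -/
theorem fl_eq_vx (R : Rc) (w : Bond → ℝ) (φ : R.G.V → ℝ) : R.fl w φ = R.vx (R.dv w) φ := by
  unfold Rc.fl Rc.vx HLaw.pair
  have hdv : ∀ x : R.G.V, domFn (D := R.set) (cut := ∅) (R.dv w) x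
      = ∑ e : R.G.E, w (domBond (D := R.set) (cut := ∅) e) *
        ((if R.G.tgt e = x then 1 else 0) - (if R.G.src e = x then 1 else 0)) := by
    intro x
    show R.dv w x.1 = _
    unfold Rc.dv
    rw [← fr_sum_E R fun e => w e * ((if e.snd = x.1 then 1 else 0) - (if e.1 = x.1 then 1 else 0))]
    refine Finset.sum_congr rfl fun e _ => ?_
    have e1 : (R.G.tgt e = x) ↔ (domBond (D := R.set) (cut := ∅) e).snd = x.1 := by
      constructor
      · intro hx; rw [← hx]; rfl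
      · intro hx; exact Subtype.ext hx
    have e2 : (R.G.src e = x) ↔ (domBond (D := R.set) (cut := ∅) e).1 = x.1 := by
      constructor
      · intro hx; rw [← hx]; rfl
      · intro hx; exact Subtype.ext hx
    simp only [e1, e2]
  have h2 : ∑ x : R.G.V, domFn (D := R.set) (cut := ∅) (R.dv w) x * φ x
      = ∑ x : R.G.V, ∑ e : R.G.E, w (domBond (D := R.set) (cut := ∅) e) *
        ((if R.G.tgt e = x then 1 else 0) - (if R.G.src e = x then 1 else 0)) * φ x :=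
    Finset.sum_congr rfl fun x _ => by rw [hdv x, Finset.sum_mul]
  refine Eq.trans ?_ h2.symm
  rw [Finset.sum_comm]
  refine Finset.sum_congr rfl fun e _ => ?_
  have : ∀ x : R.G.V, w (domBond (D := R.set) (cut := ∅) e) *
        ((if R.G.tgt e = x then 1 else 0) - (if R.G.src e = x then 1 else 0)) * φ x
      = (if R.G.tgt e = x then w (domBond (D := R.set) (cut := ∅) e) * φ x else 0)
        - (if R.G.src e = x then w (domBond (D := R.set) (cut := ∅) e) * φ x else 0) := by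
    intro x
    split_ifs <;> ring
  simp only [this, Finset.sum_sub_distrib, Finset.sum_ite_eq, Finset.mem_univ, if_true]
  ring

/-- L-PH-G5.  `vx s φ + fl w φ = pair (domFn (s + dv w)) φ` (summation by parts on `R.G`), `ph_ex_eq_E0` (`fr_proper`) with the lift `X = flowX (w + pathFlow s)`: `fr_flowX_lift`, `dv_add`, `dv_pathFlow`; the term `δ_o` does not count because `h o = 0` on `Λ = pinned {o}`. -/
theorem chr_eq_ph (R : Rc) (b : ℝ) (s : ℤ × ℤ → ℝ) (w : Bond → ℝ) : R.chr b s w = R.ph b fun e => w e + R.pathFlow s e := by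
  have hL : R.law.Lift b (domFn (D := R.set) (cut := ∅) fun v => s v + R.dv w v) (R.flowX b fun e => w e + R.pathFlow s e) := by
    intro h hh
    refine (fr_flowX_lift R b (fun e => w e + R.pathFlow s e) h hh).trans ?_
    refine Finset.sum_congr rfl fun x _ => ?_
    show R.dv (fun e => w e + R.pathFlow s e) x.1 * _ = (s x.1 + R.dv w x.1) * _
    rw [dv_add, dv_pathFlow R s x.1 x.2]
    by_cases hx : x.1 = R.o
    · have : h x = 0 := hh x hx
      rw [this]; simp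
    · rw [if_neg hx]; ring
  have h1 := ph_ex_eq_E0 R.law (fr_proper R) b _ _ hL Real.cos
  unfold Rc.chr Rc.Ex Rc.ph LSys.phi
  refine Eq.trans ?_ h1
  congr 1
  funext φ
  congr 1
  rw [fl_eq_vx]
  unfold Rc.vx HLaw.pair
  rw [← Finset.sum_add_distrib]
  exact Finset.sum_congr rfl fun x _ => (add_mul _ _ _).symm

/-- L-PH-G5.  `chr_eq_ph`, `faceS = fch (1/4)`. -/
theorem zface_eq (b : ℝ) (m : ℕ) : zface b m = cph b m fun _ => 1 / 4 := by
  unfold zface cph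
  rw [chr_eq_ph]
  have h : (C2.sq m).faceS = (C2.sq m).fch fun _ => 1 / 4 := by
    funext v
    unfold Rc.faceS Rc.fch Rc.face
    rw [Fin.sum_univ_four]
    simp
    ring
  rw [h]
  congr 1
  funext e
  simp

/-- L-PH-G5.  `rd_phi_pos`, `lsys_phi_le_one`, `fr_ok`. -/
theorem ph_pos (R : Rc) (b : ℝ) (hb : 0 < b) (w : Bond → ℝ) : 0 < R.ph b w ∧ R.ph b w ≤ 1 :=
  ⟨rd_phi_pos (fr_ok R b hb) _, lsys_phi_le_one _ (fr_ok R b hb) _⟩

/-- L-PH-G5.  `lsys_phi_lower`, `fr_var_ref`. -/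
theorem ph_lower (R : Rc) (b : ℝ) (hb : 0 < b) (w : Bond → ℝ) : Real.exp (-(2 * Real.pi ^ 2 * b * R.cost w)) ≤ R.ph b w := by
  refine le_trans (Real.exp_le_exp.2 ?_) (lsys_phi_lower _ (fr_ok R b hb) (R.flowX b w))
  have h : (R.sys b).V0 (R.flowX b w) ≤ 4 * Real.pi ^ 2 * b * R.cost w := fr_var_ref R b hb w
  linarith

/-- L-PH-G5.  `lsys_phi_mono_b` (`(R.sys b).atb (fun _ => b') = R.sys b'` by `rfl`). -/
theorem ph_mono_b (R : Rc) (b b' : ℝ) (hb : 0 < b) (hbb : b ≤ b') (w : Bond → ℝ) : R.ph b' w ≤ R.ph b w :=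
  lsys_phi_mono_b _ (fr_ok R b hb) (fun _ => b') (fun _ => hbb) (R.flowX b w)

theorem gd_fpot (R : Rc) (H : Fin 4 → ℝ) (e : Bond) :
    gd (fun v => ∑ d, H d * R.pot d v) e = ∑ d, H d * gd (R.pot d) e := by
  unfold gd
  rw [← Finset.sum_sub_distrib]
  exact Finset.sum_congr rfl fun d _ => by ring

theorem dv_sum4 (R : Rc) (H : Fin 4 → ℝ) (g : Fin 4 → Bond → ℝ) (v : ℤ × ℤ) :
    R.dv (fun e => ∑ d, H d * g d e) v = ∑ d, H d * R.dv (g d) v := by
  unfold Rc.dv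
  simp only [Finset.mul_sum, Finset.sum_mul]
  rw [Finset.sum_comm]
  exact Finset.sum_congr rfl fun d _ => Finset.sum_congr rfl fun e _ => by ring

/-- L-PH-G5.  A face charge of total `l` is `l · unif` plus the divergence of the explicit gradient flow `∑ H_d ∇ pot_d`: `flowX_eq_of_dv`, `dv_pathFlow`, `lap_pot`, `sum_face`, `sum_unif`, `chr_eq_ph`. -/
theorem cph_eq_chr (b : ℝ) (m : ℕ) (hm : 0 < m) (H : Fin 4 → ℝ) :
    cph b m H = (C2.sq m).chr b (fun v => (∑ d, H d) * (C2.sq m).unif v) (gd fun v => ∑ d, H d * (C2.sq m).pot d v) := by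
  rw [chr_eq_ph]
  unfold cph Rc.ph
  congr 1
  refine flowX_eq_of_dv _ b fun v hv => ?_
  have hp : 0 < (C2.sq m).p := hm
  have hq : 0 < (C2.sq m).q := hm
  rw [dv_add, dv_pathFlow _ _ v hv, dv_pathFlow _ _ v hv, dv_congr _ (fun e _ => gd_fpot (C2.sq m) H e), dv_sum4]
  have h1 : ∀ d, (C2.sq m).dv (gd ((C2.sq m).pot d)) v = (C2.sq m).face d v - (C2.sq m).unif v :=
    fun d => lap_pot (C2.sq m) hp hq d v hv
  have h2 : ∑ u ∈ (C2.sq m).set, (C2.sq m).fch H u = ∑ d, H d := by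
    unfold Rc.fch
    rw [Finset.sum_comm]
    refine Finset.sum_congr rfl fun d _ => ?_
    rw [← Finset.mul_sum, sum_face _ hp hq, mul_one]
  have h3 : ∑ u ∈ (C2.sq m).set, (∑ d, H d) * (C2.sq m).unif u = ∑ d, H d := by
    rw [← Finset.mul_sum, sum_unif _ hp hq, mul_one]
  rw [h2, h3]
  simp only [h1]
  unfold Rc.fch
  simp only [mul_sub, Finset.sum_sub_distrib, Finset.sum_mul]
  ring

/-- L-PH-G5.  Cauchy-Schwarz and `cost_pot`. -/
theorem cost_fpot (m : ℕ) (H : Fin 4 → ℝ) : (C2.sq m).cost (gd fun v => ∑ d, H d * (C2.sq m).pot d v) ≤ 4 * ∑ d, H d ^ 2 := by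
  unfold Rc.cost
  have h1 : ∀ e ∈ (C2.sq m).bd, gd (fun v => ∑ d, H d * (C2.sq m).pot d v) e ^ 2
      ≤ (∑ d, H d ^ 2) * ∑ d, gd ((C2.sq m).pot d) e ^ 2 := fun e _ => by
    rw [gd_fpot]
    exact Finset.sum_mul_sq_le_sq_mul_sq _ _ _
  refine (Finset.sum_le_sum h1).trans ?_
  rw [← Finset.mul_sum, Finset.sum_comm, mul_comm]
  have h2 : ∑ d : Fin 4, ∑ e ∈ (C2.sq m).bd, gd ((C2.sq m).pot d) e ^ 2 ≤ ∑ _d : Fin 4, (1 : ℝ) :=
    Finset.sum_le_sum fun d _ => cost_pot m d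
  have h3 : ∑ _d : Fin 4, (1 : ℝ) = 4 := by simp
  rw [h3] at h2
  exact mul_le_mul_of_nonneg_right h2 (Finset.sum_nonneg fun d _ => sq_nonneg _)

/-! ## 5. Cut systems -/

section Cut

variable {ι : Type} [Fintype ι]

theorem cutS_ok (b : ℝ) (hb : 0 < b) (Q : ι → Rc) : (cutS b Q).Ok := pi_ok _ fun i => fr_ok (Q i) b hb

theorem cut_phi (b : ℝ) (hb : 0 < b) (Q : ι → Rc) (w : Bond → ℝ) : (cutS b Q).phi (cutX b Q w) = ∏ i, (Q i).ph b w :=
  pi_phi _ (fun i => fr_ok (Q i) b hb) _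

theorem cut_var (b : ℝ) (hb : 0 < b) (Q : ι → Rc) (w : Bond → ℝ) : (cutS b Q).V0 (cutX b Q w) = ∑ i, (Q i).var b w :=
  pi_var _ (fun i => fr_ok (Q i) b hb) _

/-- L-PH-G6.  `flowX_add`. -/
theorem cutX_add (b : ℝ) (Q : ι → Rc) (w w' : Bond → ℝ) : cutX b Q (fun e => w e + w' e) = cutX b Q w + cutX b Q w' := by
  unfold cutX
  rw [← Finset.sum_add_distrib]
  refine Finset.sum_congr rfl fun i _ => ?_
  rw [flowX_add]
  rfl

/-- L-PH-G6.  `flowX_smul`. -/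
theorem cutX_smul (b : ℝ) (Q : ι → Rc) (c : ℝ) (w : Bond → ℝ) : cutX b Q (fun e => c * w e) = c • cutX b Q w := by
  unfold cutX
  rw [Finset.smul_sum]
  refine Finset.sum_congr rfl fun i _ => ?_
  rw [flowX_smul]
  rfl

/-- L-PH-G6.  `cutX u = ∑_j (flowX u) ∘ pr_j`; `rd_E0_add` (finite sum, `rd_dom_*`), `ph_pi_sin` for every `j`. -/
theorem cut_sin (b : ℝ) (hb : 0 < b) (Q : ι → Rc) (u w : Bond → ℝ) :
    (cutS b Q).E0 (fun z => cutX b Q u z * Real.sin (cutX b Q w z)) =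
      ∑ j, ((Q j).sys b).E0 (fun z => (Q j).flowX b u z * Real.sin ((Q j).flowX b w z)) * ∏ i ∈ Finset.univ.erase j, (Q i).ph b w := by
  have hOk := cutS_ok b hb Q
  have e1 : (fun z : (cutS b Q).L => cutX b Q u z * Real.sin (cutX b Q w z)) =
      fun z => ∑ j, (Q j).flowX b u (piPr (fun i => (Q i).sys b) j z) * Real.sin (cutX b Q w z) := by
    funext z
    rw [← Finset.sum_mul]
    congr 1
    unfold cutX
    rw [AddMonoidHom.finset_sum_apply]
    rfl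
  rw [e1]
  refine (frs_E0_sum hOk Finset.univ
    (fun j (z : (cutS b Q).L) => (Q j).flowX b u (piPr (fun i => (Q i).sys b) j z) * Real.sin (cutX b Q w z)) fun j _ => ?_).trans ?_
  · exact rd_dom_mul (rd_dom_test (S := cutS b Q) (((Q j).flowX b u).comp (piPr (fun i => (Q i).sys b) j)))
      (rd_dom_bdd 1 fun z => Real.abs_sin_le_one _)
  · refine Finset.sum_congr rfl fun j _ => ?_
    exact ph_pi_sin (fun i => (Q i).sys b) (fun i => fr_ok (Q i) b hb) (fun i => (Q i).flowX b w) j ((Q j).flowX b u)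

end Cut

/-! ## 6. Arrays -/

/-- L-PH-G7.  The only bond of `bondRc e` is `e`. -/
theorem bondRc_bd (e : Bond) : (bondRc e).bd = {e} := by
  obtain ⟨⟨x, y⟩, d⟩ := e
  ext ⟨⟨x', y'⟩, d'⟩
  cases d <;> cases d' <;> simp [bondRc, mem_bd, fr_mem_set, Bond.snd, Prod.ext_iff] <;> omega

theorem bondRc_set (e : Bond) (v : ℤ × ℤ) : v ∈ (bondRc e).set ↔ v = e.1 ∨ v = e.snd := by
  obtain ⟨⟨x, y⟩, d⟩ := e
  obtain ⟨x', y'⟩ := v
  cases d <;> simp [bondRc, fr_mem_set, Bond.snd, Prod.ext_iff] <;> omega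

theorem mem_arrK {G₁ G₂ : ℕ} {i : ℤ × ℤ} : i ∈ (arrK G₁ G₂).set ↔ (0 ≤ i.1 ∧ i.1 < G₁) ∧ (0 ≤ i.2 ∧ i.2 < G₂) := by
  simp [arrK, fr_mem_set]

theorem mem_arrJ {m G₁ G₂ : ℕ} {v : ℤ × ℤ} : v ∈ (arrJ m G₁ G₂).set ↔ (0 ≤ v.1 ∧ v.1 < (G₁ : ℤ) * m) ∧ (0 ≤ v.2 ∧ v.2 < (G₂ : ℤ) * m) := by
  simp [arrJ, fr_mem_set]

theorem mem_cel {m : ℕ} {i v : ℤ × ℤ} : v ∈ (cel m i).set ↔ (i.1 * m ≤ v.1 ∧ v.1 < i.1 * m + m) ∧ (i.2 * m ≤ v.2 ∧ v.2 < i.2 * m + m) := by
  simp [cellRc, fr_mem_set]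

/-- the index of a site of the array is an index of the array. -/
theorem cidx_mem_arrK {m G₁ G₂ : ℕ} (hm : 0 < m) {v : ℤ × ℤ} (hv : v ∈ (arrJ m G₁ G₂).set) : cidx (0, 0) m v ∈ (arrK G₁ G₂).set := by
  have hm' : (0 : ℤ) < m := by exact_mod_cast hm
  obtain ⟨⟨h1, h2⟩, h3, h4⟩ := mem_arrJ.1 hv
  rw [mem_arrK]
  simp only [cidx, sub_zero]
  exact ⟨⟨Int.ediv_nonneg h1 hm'.le, Int.ediv_lt_of_lt_mul hm' h2⟩, Int.ediv_nonneg h3 hm'.le, Int.ediv_lt_of_lt_mul hm' h4⟩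

theorem cel_sub_arrJ {m G₁ G₂ : ℕ} {i : ℤ × ℤ} (hi : i ∈ (arrK G₁ G₂).set) : (cel m i).set ⊆ (arrJ m G₁ G₂).set := by
  intro v hv
  obtain ⟨⟨a1, a2⟩, a3, a4⟩ := mem_arrK.1 hi
  obtain ⟨⟨b1, b2⟩, b3, b4⟩ := mem_cel.1 hv
  have hm0 : (0 : ℤ) ≤ m := Int.natCast_nonneg m
  rw [mem_arrJ]
  refine ⟨⟨?_, ?_⟩, ?_, ?_⟩
  · nlinarith
  · nlinarith
  · nlinarith
  · nlinarith

/-- L-PH-G7.  `mem_cellRc`, `mem_bd`, `bondRc_bd`; `i ∈ arrK` and `v ∈ cel m i` give `v ∈ arrJ` (`0 ≤ i₁ < G₁`, `i₁ m ≤ x < (i₁+1) m`: `nlinarith`). -/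
theorem arr_sub (m G₁ G₂ : ℕ) (hm : 0 < m) (k : ArrI m G₁ G₂) : (arrQ m G₁ G₂ k).set ⊆ (arrJ m G₁ G₂).set := by
  rcases k with ⟨i, hi⟩ | ⟨e, he⟩
  · exact cel_sub_arrJ hi
  · intro v hv
    have he' := mem_bd.1 (Finset.mem_filter.1 he).1
    rcases (bondRc_set e v).1 hv with rfl | rfl
    · exact he'.1
    · exact he'.2

/-- L-PH-G7.  Two cells: `mem_cellRc`; cell and seam bond: the end points of a bond of a cell have the same `cidx`; two seam bonds: `bondRc_bd`. -/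
theorem arr_dis (m G₁ G₂ : ℕ) (hm : 0 < m) (k k' : ArrI m G₁ G₂) (h : k ≠ k') : Disjoint (arrQ m G₁ G₂ k).bd (arrQ m G₁ G₂ k').bd := by
  rw [Finset.disjoint_left]
  intro e he he'
  have key : ∀ (i : {i : ℤ × ℤ // i ∈ (arrK G₁ G₂).set}) (f : {e : Bond // e ∈ seam m G₁ G₂}), e ∈ (cel m i.1).bd → e ∈ (bondRc f.1).bd → False := by
    intro i f h1 h2
    rw [bondRc_bd, Finset.mem_singleton] at h2
    have h3 := mem_bd.1 h1
    have h4 := (Finset.mem_filter.1 f.2).2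
    rw [← h2] at h4
    exact h4 (((mem_cellRc hm).1 h3.1).trans ((mem_cellRc hm).1 h3.2).symm)
  rcases k with i | f <;> rcases k' with i' | f'
  · apply h
    have h1 := (mem_cellRc hm).1 (mem_bd.1 he).1
    have h2 := (mem_cellRc hm).1 (mem_bd.1 he').1
    exact congrArg Sum.inl (Subtype.ext (h1.symm.trans h2))
  · exact key i f' he he'
  · exact key i' f he' he
  · apply h
    have h1 : e ∈ (bondRc f.1).bd := he
    have h2 : e ∈ (bondRc f'.1).bd := he'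
    rw [bondRc_bd, Finset.mem_singleton] at h1 h2
    exact congrArg Sum.inr (Subtype.ext (h1.symm.trans h2))

/-- L-PH-G7.  A bond of the array is a seam bond or lies in the cell `cidx e.1 ∈ arrK` (`Int.ediv` bounds). -/
theorem arr_cover (m G₁ G₂ : ℕ) (hm : 0 < m) (e : Bond) (he : e ∈ (arrJ m G₁ G₂).bd) : ∃ k, e ∈ (arrQ m G₁ G₂ k).bd := by
  by_cases h : cidx (0, 0) m e.1 = cidx (0, 0) m e.snd
  · refine ⟨Sum.inl ⟨cidx (0, 0) m e.1, cidx_mem_arrK hm (mem_bd.1 he).1⟩, ?_⟩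
    show e ∈ (cel m (cidx (0, 0) m e.1)).bd
    exact mem_bd.2 ⟨(mem_cellRc hm).2 rfl, (mem_cellRc hm).2 h.symm⟩
  · refine ⟨Sum.inr ⟨e, Finset.mem_filter.2 ⟨he, h⟩⟩, ?_⟩
    show e ∈ (bondRc e).bd
    rw [bondRc_bd]; exact Finset.mem_singleton_self e

/-- **the array has more precision than its pieces**, and every flow statistic of the array is the restriction of the flow statistic of the pieces. -/
theorem arr_ref (b : ℝ) (m G₁ G₂ : ℕ) (hm : 0 < m) :
    ∃ r : LSys.Ref (cutS b (arrQ m G₁ G₂)) ((arrJ m G₁ G₂).sys b), ∀ w : Bond → ℝ,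
      (cutX b (arrQ m G₁ G₂) w).comp r.psi = (arrJ m G₁ G₂).flowX b w := by
  obtain ⟨r, hr⟩ := fr_cut_ref' (arrJ m G₁ G₂) b (arrQ m G₁ G₂) (arr_sub m G₁ G₂ hm) (arr_dis m G₁ G₂ hm)
  exact ⟨r, fun w => hr w fun e he h => absurd (arr_cover m G₁ G₂ hm e he) (fun ⟨k, hk⟩ => h k hk)⟩

/-- cutting decreases characteristic coefficients: `arr_ref`, `lsys_phi_mono`. -/
theorem arr_phi_le (b : ℝ) (hb : 0 < b) (m G₁ G₂ : ℕ) (hm : 0 < m) (w : Bond → ℝ) :
    (cutS b (arrQ m G₁ G₂)).phi (cutX b (arrQ m G₁ G₂) w) ≤ (arrJ m G₁ G₂).ph b w := by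
  obtain ⟨r, hr⟩ := arr_ref b m G₁ G₂ hm
  have h := lsys_phi_mono r (cutS_ok b hb _) (fr_ok _ b hb) (cutX b (arrQ m G₁ G₂) w)
  rwa [hr w] at h

theorem fch_add (R : Rc) (H H' : Fin 4 → ℝ) (v : ℤ × ℤ) : R.fch (fun d => H d + H' d) v = R.fch H v + R.fch H' v := by
  unfold Rc.fch
  rw [← Finset.sum_add_distrib]
  exact Finset.sum_congr rfl fun d _ => by ring

theorem fch_smul (R : Rc) (c : ℝ) (H : Fin 4 → ℝ) (v : ℤ × ℤ) : R.fch (fun d => c * H d) v = c * R.fch H v := by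
  unfold Rc.fch
  rw [Finset.mul_sum]
  exact Finset.sum_congr rfl fun d _ => by ring

/-- L-PH-G8. -/
theorem arrFlow_add (m : ℕ) (H H' : ℤ × ℤ → Fin 4 → ℝ) (e : Bond) :
    arrFlow m (fun i d => H i d + H' i d) e = arrFlow m H e + arrFlow m H' e := by
  unfold arrFlow
  split_ifs
  · rw [← pathFlow_add]
    congr 1
    funext v
    exact fch_add _ _ _ v
  · ring
  · ring

/-- L-PH-G8. -/
theorem arrFlow_smul (m : ℕ) (c : ℝ) (H : ℤ × ℤ → Fin 4 → ℝ) (e : Bond) : arrFlow m (fun i d => c * H i d) e = c * arrFlow m H e := by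
  unfold arrFlow
  split_ifs
  · rw [← pathFlow_smul]
    congr 1
    funext v
    exact fch_smul _ _ _ v
  · ring
  · ring

theorem arrFlow_sum (m : ℕ) {O : Type} (s : Finset O) (P : O → ℤ × ℤ → Fin 4 → ℝ) (d : O → ℝ) (e : Bond) :
    arrFlow m (fun i f => ∑ o ∈ s, d o * P o i f) e = ∑ o ∈ s, d o * arrFlow m (P o) e := by
  induction s using Finset.induction_on with
  | empty =>
    simp only [Finset.sum_empty]
    have := arrFlow_smul m 0 (fun _ _ => 0) e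
    simpa using this
  | insert a s ha ih =>
    simp only [Finset.sum_insert ha]
    rw [arrFlow_add m (fun i f => d a * P a i f) (fun i f => ∑ o ∈ s, d o * P o i f), arrFlow_smul, ih]

theorem cutX_sum (b : ℝ) {ι : Type} [Fintype ι] (Q : ι → Rc) {O : Type} (s : Finset O) (w : O → Bond → ℝ) (d : O → ℝ) :
    cutX b Q (fun e => ∑ o ∈ s, d o * w o e) = ∑ o ∈ s, d o • cutX b Q (w o) := by
  induction s using Finset.induction_on with
  | empty =>
    simp only [Finset.sum_empty]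
    have := cutX_smul b Q 0 (fun _ => 0)
    simpa using this
  | insert a s ha ih =>
    simp only [Finset.sum_insert ha]
    rw [cutX_add b Q (fun e => d a * w a e) (fun e => ∑ o ∈ s, d o * w o e), cutX_smul, ih]

/-- L-PH-G8.  Rows built from flux data: `rowS` is the flow statistic of the combined flux (`cutX_add`, `cutX_smul`, `arrFlow_add`, `arrFlow_smul`, induction on the finite sum). -/
theorem arr_rowS (b : ℝ) (m G₁ G₂ : ℕ) {O : Type} [Fintype O] (H₀ : ℤ × ℤ → Fin 4 → ℝ) (P : O → ℤ × ℤ → Fin 4 → ℝ) (d : O → ℝ) :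
    cutX b (arrQ m G₁ G₂) (arrFlow m H₀) + rowS (fun o => cutX b (arrQ m G₁ G₂) (arrFlow m (P o))) d =
      cutX b (arrQ m G₁ G₂) (arrFlow m fun i f => H₀ i f + ∑ o, d o * P o i f) := by
  have h1 : (arrFlow m fun i f => H₀ i f + ∑ o, d o * P o i f) = fun e => arrFlow m H₀ e + ∑ o, d o * arrFlow m (P o) e := by
    funext e
    rw [arrFlow_add m H₀ (fun i f => ∑ o, d o * P o i f), arrFlow_sum]
  rw [h1, cutX_add b _ (arrFlow m H₀) (fun e => ∑ o, d o * arrFlow m (P o) e), cutX_sum]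
  rfl

/-- the divergence is covariant under translations. -/
theorem dv_transl (R R' : Rc) (t : ℤ × ℤ) (hR : ∀ v : ℤ × ℤ, (v.1 + t.1, v.2 + t.2) ∈ R'.set ↔ v ∈ R.set) (w w' : Bond → ℝ)
    (hw : ∀ e ∈ R.bd, w' ((e.1.1 + t.1, e.1.2 + t.2), e.2) = w e) (x : ℤ × ℤ) :
    R'.dv w' (x.1 + t.1, x.2 + t.2) = R.dv w x := by
  have hb : ∀ e : Bond, ((e.1.1 + t.1, e.1.2 + t.2), e.2) ∈ R'.bd ↔ e ∈ R.bd := by
    intro e
    rw [mem_bd, mem_bd, ← hR e.1, ← hR e.snd]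
    obtain ⟨⟨a, c⟩, d⟩ := e
    cases d <;> simp [Bond.snd, add_right_comm]
  have key : ∀ e : Bond, (if ((e.1.1 + t.1, e.1.2 + t.2), e.2) ∈ R'.bd then w' ((e.1.1 + t.1, e.1.2 + t.2), e.2) else 0) =
      if e ∈ R.bd then w e else 0 := by
    intro e
    by_cases h : e ∈ R.bd
    · rw [if_pos h, if_pos ((hb e).2 h), hw e h]
    · rw [if_neg h, if_neg fun h' => h ((hb e).1 h')]
  have k1 := key ((x.1 - 1, x.2), true)
  have k2 := key ((x.1, x.2 - 1), false)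
  have k3 := key (x, true)
  have k4 := key (x, false)
  simp only at k1 k2 k3 k4
  rw [dv_four, dv_four]
  simp only
  rw [show x.1 + t.1 - 1 = x.1 - 1 + t.1 by ring, show x.2 + t.2 - 1 = x.2 - 1 + t.2 by ring, k1, k2, k3, k4]

theorem sum_fch (R : Rc) (hp : 0 < R.p) (hq : 0 < R.q) (A : Fin 4 → ℝ) : ∑ u ∈ R.set, R.fch A u = ∑ d, A d := by
  unfold Rc.fch
  rw [Finset.sum_comm]
  refine Finset.sum_congr rfl fun d _ => ?_
  rw [← Finset.mul_sum, sum_face _ hp hq, mul_one]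

/-- on the bonds of a cell the array flow is the path flow of the face charge. -/
theorem arrFlow_cel (m : ℕ) (hm : 0 < m) (H : ℤ × ℤ → Fin 4 → ℝ) (i : ℤ × ℤ) (e : Bond) (he : e ∈ (cel m i).bd) :
    arrFlow m H e = (cel m i).pathFlow ((cel m i).fch (H i)) e := by
  have h1 := (mem_cellRc hm).1 (mem_bd.1 he).1
  have h2 := (mem_cellRc hm).1 (mem_bd.1 he).2
  unfold arrFlow
  rw [h1, h2, if_pos rfl]

/-- L-PH-G9.  On the bonds of the cell `i` the array flow is the path flow of the face charge (`mem_cellRc`, `flowX_congr`); translate to `sq m`: `ph_law_eq` with `σ = Equiv.addRight (i m)`, `dv_pathFlow`, `cel_transl`, `sum_face`.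
`g` = any shift, transported by the translation (used with `g = x/m`). -/
theorem arr_cell_law (b : ℝ) (m : ℕ) (hm : 0 < m) (H : ℤ × ℤ → Fin 4 → ℝ) (i : ℤ × ℤ) (g : ℤ × ℤ → ℝ) (F : ℝ → ℝ → ℝ → ℝ) :
    ((cel m i).sys b).E0 (fun z => F ((cel m i).gradX b g z) (Real.cos ((cel m i).flowX b (arrFlow m H) z))
        (Real.sin ((cel m i).flowX b (arrFlow m H) z))) =
      ((C2.sq m).sys b).E0 fun z => F ((C2.sq m).gradX b (fun v => g (v.1 + i.1 * m, v.2 + i.2 * m)) z)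
        (Real.cos ((C2.sq m).flowX b ((C2.sq m).pathFlow ((C2.sq m).fch (H i))) z))
        (Real.sin ((C2.sq m).flowX b ((C2.sq m).pathFlow ((C2.sq m).fch (H i))) z)) := by
  have hσ : ∀ x : ℤ × ℤ, Equiv.addRight ((i.1 * m, i.2 * m) : ℤ × ℤ) x = (x.1 + i.1 * m, x.2 + i.2 * m) := fun x => rfl
  have hR' : ∀ v : ℤ × ℤ, (v.1 + ((i.1 * m, i.2 * m) : ℤ × ℤ).1, v.2 + ((i.1 * m, i.2 * m) : ℤ × ℤ).2) ∈ (cel m i).set ↔ v ∈ (C2.sq m).set := by
    intro v
    rw [mem_cel, fr_mem_sq]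
    simp only
    constructor <;> intro h <;> omega
  have hu : ∀ x ∈ (C2.sq m).set, (cel m i).dv (gd g) (Equiv.addRight ((i.1 * m, i.2 * m) : ℤ × ℤ) x) =
      (C2.sq m).dv (gd fun v => g (v.1 + i.1 * m, v.2 + i.2 * m)) x := by
    intro x _
    rw [hσ]
    refine dv_transl (C2.sq m) (cel m i) (i.1 * m, i.2 * m) hR' _ _ (fun e _ => ?_) x
    obtain ⟨⟨a, c⟩, d⟩ := e
    cases d <;> simp [gd, Bond.snd, add_right_comm]
  have hw : ∀ x ∈ (C2.sq m).set, ∃ n : ℤ, (cel m i).dv (arrFlow m H) (Equiv.addRight ((i.1 * m, i.2 * m) : ℤ × ℤ) x) =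
      (C2.sq m).dv ((C2.sq m).pathFlow ((C2.sq m).fch (H i))) x + n := by
    intro x hx
    refine ⟨0, ?_⟩
    have hx' : Equiv.addRight ((i.1 * m, i.2 * m) : ℤ × ℤ) x ∈ (cel m i).set := by rw [hσ]; exact (hR' x).2 hx
    rw [dv_congr (cel m i) (arrFlow_cel m hm H i), dv_pathFlow _ _ _ hx', dv_pathFlow _ _ _ hx, sum_fch _ hm hm, sum_fch _ hm hm]
    have h1 : (cel m i).fch (H i) (Equiv.addRight ((i.1 * m, i.2 * m) : ℤ × ℤ) x) = (C2.sq m).fch (H i) x := by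
      unfold Rc.fch
      exact Finset.sum_congr rfl fun d _ => by rw [(cel_transl m i x).2 d]
    have h2 : (Equiv.addRight ((i.1 * m, i.2 * m) : ℤ × ℤ) x = (cel m i).o) ↔ x = (C2.sq m).o := by
      rw [hσ]
      obtain ⟨a, c⟩ := x
      simp [cellRc, C2.sq, Prod.ext_iff]
    rw [h1]
    simp only [h2]
    push_cast
    ring
  exact ph_law_eq (Equiv.addRight ((i.1 * m, i.2 * m) : ℤ × ℤ)) (latIso_addRight _) (C2.sq m) (cel m i) (fun v => (cel_transl m i v).1) b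
    (gd fun v => g (v.1 + i.1 * m, v.2 + i.2 * m)) (gd g) (gd fun v => g (v.1 + i.1 * m, v.2 + i.2 * m)) (gd g)
    ((C2.sq m).pathFlow ((C2.sq m).fch (H i))) (arrFlow m H) hu hu hw fun a _ c s => F a c s

/-- L-PH-G9.  `arr_cell_law` with `F _ c _ = c`. -/
theorem arr_cell_ph (b : ℝ) (m : ℕ) (hm : 0 < m) (H : ℤ × ℤ → Fin 4 → ℝ) (i : ℤ × ℤ) : (cel m i).ph b (arrFlow m H) = cph b m (H i) :=
  arr_cell_law b m hm H i (fun _ => 0) fun _ c _ => c

/-- at most `m` seam bonds leave the cell `i` in a given direction. -/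
theorem seam_fiber_card (m G₁ G₂ : ℕ) (hm : 0 < m) (p : (ℤ × ℤ) × Bool) :
    ((seam m G₁ G₂).filter fun e => (cidx (0, 0) m e.1, e.2) = p).card ≤ m := by
  obtain ⟨i, d⟩ := p
  have hcard : (Finset.Ico ((if d then i.2 else i.1) * (m : ℤ)) ((if d then i.2 else i.1) * (m : ℤ) + m)).card = m := by
    rw [Int.card_Ico]; simp
  refine le_trans ?_ hcard.le
  have hfac : ∀ e ∈ (seam m G₁ G₂).filter fun e => (cidx (0, 0) m e.1, e.2) = (i, d),
      e.2 = d ∧ ((i.1 * m ≤ e.1.1 ∧ e.1.1 < i.1 * m + m) ∧ (i.2 * m ≤ e.1.2 ∧ e.1.2 < i.2 * m + m)) ∧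
        (if d then e.1.1 + 1 = i.1 * m + m else e.1.2 + 1 = i.2 * m + m) := by
    intro e he
    obtain ⟨he1, he2⟩ := Finset.mem_filter.1 he
    have h1 : cidx (0, 0) m e.1 = i := congrArg Prod.fst he2
    have h2 : e.2 = d := congrArg Prod.snd he2
    have h3 := mem_cel.1 ((mem_cellRc hm).2 h1)
    have h4 : cidx (0, 0) m e.snd ≠ i := fun h => (Finset.mem_filter.1 he1).2 (h1.trans h.symm)
    refine ⟨h2, h3, ?_⟩
    obtain ⟨⟨x, y⟩, d'⟩ := e
    simp only at h2 h3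
    subst h2
    cases d'
    · simp only [Bool.false_eq_true, if_false]
      by_contra hne
      apply h4
      refine (mem_cellRc hm).1 (mem_cel.2 ?_)
      show (i.1 * m ≤ x ∧ x < i.1 * m + m) ∧ (i.2 * m ≤ y + 1 ∧ y + 1 < i.2 * m + m)
      omega
    · simp only [if_true]
      by_contra hne
      apply h4
      refine (mem_cellRc hm).1 (mem_cel.2 ?_)
      show (i.1 * m ≤ x + 1 ∧ x + 1 < i.1 * m + m) ∧ (i.2 * m ≤ y ∧ y < i.2 * m + m)
      omega
  refine Finset.card_le_card_of_injOn (fun e => if d then e.1.2 else e.1.1) ?_ ?_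
  · intro e he
    obtain ⟨-, h3, -⟩ := hfac e (Finset.mem_coe.1 he)
    simp only [Finset.coe_Ico, Set.mem_Ico]
    cases d
    · simpa using h3.1
    · simpa using h3.2
  · intro e he e' he' hee
    obtain ⟨a2, -, a4⟩ := hfac e (Finset.mem_coe.1 he)
    obtain ⟨b2, -, b4⟩ := hfac e' (Finset.mem_coe.1 he')
    obtain ⟨⟨x, y⟩, d1⟩ := e
    obtain ⟨⟨x', y'⟩, d2⟩ := e'
    simp only at a2 b2 a4 b4 hee
    subst a2
    subst b2
    cases d2
    · simp only [Bool.false_eq_true, if_false] at a4 b4 hee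
      have : y = y' := by omega
      rw [hee, this]
    · simp only [if_true] at a4 b4 hee
      have : x = x' := by omega
      rw [hee, this]

/-- L-PH-G9.  Total cost of the seam bonds: the seam between two neighbouring cells has `m` bonds, each with the value `H/m`.  Inject the seam bonds into `(i, direction, position) ∈ arrK × Bool × [0,m)`. -/
theorem arr_seam_cost (m G₁ G₂ : ℕ) (hm : 0 < m) (H : ℤ × ℤ → Fin 4 → ℝ) :
    ∑ e ∈ seam m G₁ G₂, arrFlow m H e ^ 2 ≤ (∑ i ∈ (arrK G₁ G₂).set, ∑ d, H i d ^ 2) / m := by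
  have hmR : (0 : ℝ) < m := by exact_mod_cast hm
  let c : (ℤ × ℤ) × Bool → ℝ := fun p => (if p.2 then H p.1 0 else H p.1 2) ^ 2 / (m : ℝ) ^ 2
  have hc0 : ∀ p, 0 ≤ c p := fun p => by positivity
  have h1 : ∀ e ∈ seam m G₁ G₂, arrFlow m H e ^ 2 = c (cidx (0, 0) m e.1, e.2) := by
    intro e he
    unfold arrFlow
    rw [if_neg (Finset.mem_filter.1 he).2, div_pow]
  have hmaps : ∀ e ∈ seam m G₁ G₂, (cidx (0, 0) m e.1, e.2) ∈ (arrK G₁ G₂).set ×ˢ (Finset.univ : Finset Bool) := by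
    intro e he
    exact Finset.mem_product.2 ⟨cidx_mem_arrK hm (mem_bd.1 (Finset.mem_filter.1 he).1).1, Finset.mem_univ _⟩
  rw [Finset.sum_congr rfl h1, ← Finset.sum_fiberwise_of_maps_to hmaps]
  have h2 : ∀ p ∈ (arrK G₁ G₂).set ×ˢ (Finset.univ : Finset Bool),
      ∑ e ∈ (seam m G₁ G₂).filter (fun e => (cidx (0, 0) m e.1, e.2) = p), c (cidx (0, 0) m e.1, e.2) ≤ m * c p := by
    intro p _
    have : ∀ e ∈ (seam m G₁ G₂).filter (fun e => (cidx (0, 0) m e.1, e.2) = p), c (cidx (0, 0) m e.1, e.2) = c p :=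
      fun e he => by rw [(Finset.mem_filter.1 he).2]
    rw [Finset.sum_congr rfl this, Finset.sum_const, nsmul_eq_mul]
    exact mul_le_mul_of_nonneg_right (by exact_mod_cast seam_fiber_card m G₁ G₂ hm p) (hc0 p)
  refine (Finset.sum_le_sum h2).trans ?_
  rw [Finset.sum_product, Finset.sum_div]
  refine Finset.sum_le_sum fun i _ => ?_
  rw [Fintype.sum_bool, Fin.sum_univ_four]
  simp only [c, if_true, Bool.false_eq_true, if_false]
  have e1 : (m : ℝ) * (H i 0 ^ 2 / (m : ℝ) ^ 2) + m * (H i 2 ^ 2 / (m : ℝ) ^ 2) = (H i 0 ^ 2 + H i 2 ^ 2) / m := by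
    field_simp
  rw [e1]
  refine div_le_div_of_nonneg_right ?_ hmR.le
  nlinarith [sq_nonneg (H i 1), sq_nonneg (H i 3)]

/-- the phase of the cut system: cells times seam bonds. -/
theorem arr_phi_eq (b : ℝ) (hb : 0 < b) (m G₁ G₂ : ℕ) (hm : 0 < m) (H : ℤ × ℤ → Fin 4 → ℝ) :
    (cutS b (arrQ m G₁ G₂)).phi (cutX b (arrQ m G₁ G₂) (arrFlow m H)) =
      (∏ i ∈ (arrK G₁ G₂).set, cph b m (H i)) * ∏ e ∈ seam m G₁ G₂, (bondRc e).ph b (arrFlow m H) := by
  rw [cut_phi b hb, Fintype.prod_sum_type]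
  congr 1
  · rw [← Finset.prod_coe_sort (arrK G₁ G₂).set fun i => cph b m (H i)]
    exact Finset.prod_congr rfl fun i _ => arr_cell_ph b m hm H i.1
  · rw [← Finset.prod_coe_sort (seam m G₁ G₂) fun e => (bondRc e).ph b (arrFlow m H)]
    rfl

/-- L-PH-G10.  **Factorisation, lower bound**: `cut_phi`, `Fintype.prod_sum_type`; cells: `arr_cell_ph`; seam bonds: `ph_lower`, `bondRc_bd` (cost `= (arrFlow e)²`), `Real.exp_sum`, `arr_seam_cost`. -/
theorem arr_phi_lower (b : ℝ) (hb : 0 < b) (m G₁ G₂ : ℕ) (hm : 0 < m) (H : ℤ × ℤ → Fin 4 → ℝ) :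
    (∏ i ∈ (arrK G₁ G₂).set, cph b m (H i)) * Real.exp (-(2 * Real.pi ^ 2 * b * (∑ i ∈ (arrK G₁ G₂).set, ∑ d, H i d ^ 2) / m)) ≤
      (cutS b (arrQ m G₁ G₂)).phi (cutX b (arrQ m G₁ G₂) (arrFlow m H)) := by
  rw [arr_phi_eq b hb m G₁ G₂ hm H]
  refine mul_le_mul_of_nonneg_left ?_ (Finset.prod_nonneg fun i _ => (ph_pos _ b hb _).1.le)
  have h1 : ∏ e ∈ seam m G₁ G₂, Real.exp (-(2 * Real.pi ^ 2 * b * arrFlow m H e ^ 2)) ≤ ∏ e ∈ seam m G₁ G₂, (bondRc e).ph b (arrFlow m H) := by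
    refine Finset.prod_le_prod (fun e _ => (Real.exp_pos _).le) fun e _ => ?_
    have := ph_lower (bondRc e) b hb (arrFlow m H)
    unfold Rc.cost at this
    rwa [bondRc_bd, Finset.sum_singleton] at this
  refine le_trans ?_ h1
  rw [← Real.exp_sum]
  apply Real.exp_le_exp.2
  rw [Finset.sum_neg_distrib, ← Finset.mul_sum, neg_le_neg_iff, mul_div_assoc]
  exact mul_le_mul_of_nonneg_left (arr_seam_cost m G₁ G₂ hm H) (by positivity)

/-- L-PH-G10.  **Factorisation, upper bound**: all factors are in `(0,1]` (`ph_pos`): `Finset.prod_le_one`-type argument after isolating the factor `i`. -/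
theorem arr_phi_upper (b : ℝ) (hb : 0 < b) (m G₁ G₂ : ℕ) (hm : 0 < m) (H : ℤ × ℤ → Fin 4 → ℝ) (i : ℤ × ℤ) (hi : i ∈ (arrK G₁ G₂).set) :
    (cutS b (arrQ m G₁ G₂)).phi (cutX b (arrQ m G₁ G₂) (arrFlow m H)) ≤ cph b m (H i) := by
  rw [arr_phi_eq b hb m G₁ G₂ hm H, ← Finset.mul_prod_erase _ _ hi, mul_assoc]
  have h0 : 0 ≤ cph b m (H i) := (ph_pos _ b hb _).1.le
  have h1 : ∏ j ∈ (arrK G₁ G₂).set.erase i, cph b m (H j) ≤ 1 :=
    Finset.prod_le_one (fun j _ => (ph_pos _ b hb _).1.le) fun j _ => (ph_pos _ b hb _).2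
  have h1' : 0 ≤ ∏ j ∈ (arrK G₁ G₂).set.erase i, cph b m (H j) := Finset.prod_nonneg fun j _ => (ph_pos _ b hb _).1.le
  have h2 : ∏ e ∈ seam m G₁ G₂, (bondRc e).ph b (arrFlow m H) ≤ 1 :=
    Finset.prod_le_one (fun j _ => (ph_pos _ b hb _).1.le) fun j _ => (ph_pos _ b hb _).2
  have h3 := mul_le_one₀ h1 (Finset.prod_nonneg fun e _ => (ph_pos (bondRc e) b hb (arrFlow m H)).1.le) h2
  calc cph b m (H i) * ((∏ j ∈ (arrK G₁ G₂).set.erase i, cph b m (H j)) * ∏ e ∈ seam m G₁ G₂, (bondRc e).ph b (arrFlow m H))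
      ≤ cph b m (H i) * 1 := mul_le_mul_of_nonneg_left h3 h0
    _ = cph b m (H i) := mul_one _

theorem cidx_eq_iff {m : ℕ} (hm : 0 < m) {u i : ℤ × ℤ} :
    cidx (0, 0) m u = i ↔ (i.1 * m ≤ u.1 ∧ u.1 < i.1 * m + m) ∧ (i.2 * m ≤ u.2 ∧ u.2 < i.2 * m + m) :=
  (mem_cellRc hm).symm.trans mem_cel

/-- a site of the array next to `v`: it is in the array iff its index is. -/
theorem mem_arrJ_iff_cidx {m G₁ G₂ : ℕ} (hm : 0 < m) (u : ℤ × ℤ) : u ∈ (arrJ m G₁ G₂).set ↔ cidx (0, 0) m u ∈ (arrK G₁ G₂).set :=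
  ⟨fun h => cidx_mem_arrK hm h, fun h => cel_sub_arrJ h ((mem_cellRc hm).2 rfl)⟩

theorem arr_term_R (m G₁ G₂ : ℕ) (hm : 0 < m) (H : ℤ × ℤ → Fin 4 → ℝ) (v : ℤ × ℤ) (hv : v ∈ (arrJ m G₁ G₂).set) :
    (if (v, true) ∈ (arrJ m G₁ G₂).bd then arrFlow m H (v, true) else 0) =
      (if (v, true) ∈ (cel m (cidx (0, 0) m v)).bd then
          (cel m (cidx (0, 0) m v)).pathFlow ((cel m (cidx (0, 0) m v)).fch (H (cidx (0, 0) m v))) (v, true) else 0)
        + (if nbr (cidx (0, 0) m v) 0 ∈ (arrK G₁ G₂).set then H (cidx (0, 0) m v) 0 * (cel m (cidx (0, 0) m v)).face 0 v else 0) := by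
  obtain ⟨x, y⟩ := v
  set i := cidx (0, 0) m (x, y) with hi
  have hiK : i ∈ (arrK G₁ G₂).set := cidx_mem_arrK hm hv
  have hvC : (x, y) ∈ (cel m i).set := (mem_cellRc hm).2 rfl
  obtain ⟨⟨a1, a2⟩, a3, a4⟩ := mem_cel.1 hvC
  simp only at a1 a2 a3 a4
  have hface : (cel m i).face 0 (x, y) = if x + 1 = i.1 * m + m then (m : ℝ)⁻¹ else 0 := by
    show (cel m i).faceR (x, y) = _
    unfold Rc.faceR
    simp only [hvC, true_and]
    simp only [cellRc, zero_add]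
  have hsnd : Bond.snd ((x, y), true) = (x + 1, y) := rfl
  by_cases hc : x + 1 < i.1 * m + m
  · have hu : cidx (0, 0) m (x + 1, y) = i := (cidx_eq_iff hm).2 ⟨⟨by simp only; omega, hc⟩, a3, a4⟩
    have hC : ((x, y), true) ∈ (cel m i).bd := mem_bd.2 ⟨hvC, (mem_cellRc hm).2 hu⟩
    have hJ : ((x, y), true) ∈ (arrJ m G₁ G₂).bd := fr_bd_mono (cel_sub_arrJ hiK) hC
    have hf0 : (cel m i).face 0 (x, y) = 0 := by rw [hface, if_neg (by omega)]
    rw [if_pos hJ, if_pos hC, hf0, mul_zero, ite_self, add_zero]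
    unfold arrFlow
    rw [if_pos (by rw [hsnd, hu])]
  · have hx : x + 1 = i.1 * m + m := by omega
    have hu : cidx (0, 0) m (x + 1, y) = nbr i 0 := by
      refine (cidx_eq_iff hm).2 ⟨⟨?_, ?_⟩, a3, a4⟩
      · show (i.1 + 1) * m ≤ x + 1
        rw [hx]; linarith
      · show x + 1 < (i.1 + 1) * m + m
        have : (0 : ℤ) < m := by exact_mod_cast hm
        rw [hx]; linarith
    have hne : nbr i 0 ≠ i := by
      intro h
      have := congrArg Prod.fst h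
      simp [nbr] at this
    have hC : ((x, y), true) ∉ (cel m i).bd := fun h => hne (hu.symm.trans ((mem_cellRc hm).1 (mem_bd.1 h).2))
    have hJ : ((x, y), true) ∈ (arrJ m G₁ G₂).bd ↔ nbr i 0 ∈ (arrK G₁ G₂).set := by
      rw [mem_bd, hsnd, mem_arrJ_iff_cidx hm (x + 1, y), hu]
      exact ⟨fun h => h.2, fun h => ⟨hv, h⟩⟩
    rw [if_neg hC, zero_add, hface, if_pos hx]
    simp only [hJ]
    refine if_congr Iff.rfl ?_ rfl
    unfold arrFlow
    rw [if_neg (by rw [hsnd, hu]; exact fun h => hne h.symm)]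
    simp only [if_true]
    rw [div_eq_mul_inv]

theorem arr_term_U (m G₁ G₂ : ℕ) (hm : 0 < m) (H : ℤ × ℤ → Fin 4 → ℝ) (v : ℤ × ℤ) (hv : v ∈ (arrJ m G₁ G₂).set) :
    (if (v, false) ∈ (arrJ m G₁ G₂).bd then arrFlow m H (v, false) else 0) =
      (if (v, false) ∈ (cel m (cidx (0, 0) m v)).bd then
          (cel m (cidx (0, 0) m v)).pathFlow ((cel m (cidx (0, 0) m v)).fch (H (cidx (0, 0) m v))) (v, false) else 0)
        + (if nbr (cidx (0, 0) m v) 2 ∈ (arrK G₁ G₂).set then H (cidx (0, 0) m v) 2 * (cel m (cidx (0, 0) m v)).face 2 v else 0) := by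
  obtain ⟨x, y⟩ := v
  set i := cidx (0, 0) m (x, y) with hi
  have hiK : i ∈ (arrK G₁ G₂).set := cidx_mem_arrK hm hv
  have hvC : (x, y) ∈ (cel m i).set := (mem_cellRc hm).2 rfl
  obtain ⟨⟨a1, a2⟩, a3, a4⟩ := mem_cel.1 hvC
  simp only at a1 a2 a3 a4
  have hface : (cel m i).face 2 (x, y) = if y + 1 = i.2 * m + m then (m : ℝ)⁻¹ else 0 := by
    show (cel m i).faceU (x, y) = _
    unfold Rc.faceU
    simp only [hvC, true_and]
    simp only [cellRc, zero_add]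
  have hsnd : Bond.snd ((x, y), false) = (x, y + 1) := rfl
  by_cases hc : y + 1 < i.2 * m + m
  · have hu : cidx (0, 0) m (x, y + 1) = i := (cidx_eq_iff hm).2 ⟨⟨a1, a2⟩, by simp only; omega, hc⟩
    have hC : ((x, y), false) ∈ (cel m i).bd := mem_bd.2 ⟨hvC, (mem_cellRc hm).2 hu⟩
    have hJ : ((x, y), false) ∈ (arrJ m G₁ G₂).bd := fr_bd_mono (cel_sub_arrJ hiK) hC
    have hf0 : (cel m i).face 2 (x, y) = 0 := by rw [hface, if_neg (by omega)]
    rw [if_pos hJ, if_pos hC, hf0, mul_zero, ite_self, add_zero]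
    unfold arrFlow
    rw [if_pos (by rw [hsnd, hu])]
  · have hx : y + 1 = i.2 * m + m := by omega
    have hu : cidx (0, 0) m (x, y + 1) = nbr i 2 := by
      refine (cidx_eq_iff hm).2 ⟨⟨a1, a2⟩, ?_, ?_⟩
      · show (i.2 + 1) * m ≤ y + 1
        rw [hx]; linarith
      · show y + 1 < (i.2 + 1) * m + m
        have : (0 : ℤ) < m := by exact_mod_cast hm
        rw [hx]; linarith
    have hne : nbr i 2 ≠ i := by
      intro h
      have := congrArg Prod.snd h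
      simp [nbr] at this
    have hC : ((x, y), false) ∉ (cel m i).bd := fun h => hne (hu.symm.trans ((mem_cellRc hm).1 (mem_bd.1 h).2))
    have hJ : ((x, y), false) ∈ (arrJ m G₁ G₂).bd ↔ nbr i 2 ∈ (arrK G₁ G₂).set := by
      rw [mem_bd, hsnd, mem_arrJ_iff_cidx hm (x, y + 1), hu]
      exact ⟨fun h => h.2, fun h => ⟨hv, h⟩⟩
    rw [if_neg hC, zero_add, hface, if_pos hx]
    simp only [hJ]
    refine if_congr Iff.rfl ?_ rfl
    unfold arrFlow
    rw [if_neg (by rw [hsnd, hu]; exact fun h => hne h.symm)]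
    simp only [Bool.false_eq_true, if_false]
    rw [div_eq_mul_inv]

theorem arr_term_L (m G₁ G₂ : ℕ) (hm : 0 < m) (H : ℤ × ℤ → Fin 4 → ℝ) (hH : Flux G₁ G₂ H) (v : ℤ × ℤ) (hv : v ∈ (arrJ m G₁ G₂).set) :
    (if ((v.1 - 1, v.2), true) ∈ (arrJ m G₁ G₂).bd then arrFlow m H ((v.1 - 1, v.2), true) else 0) =
      (if ((v.1 - 1, v.2), true) ∈ (cel m (cidx (0, 0) m v)).bd then
          (cel m (cidx (0, 0) m v)).pathFlow ((cel m (cidx (0, 0) m v)).fch (H (cidx (0, 0) m v))) ((v.1 - 1, v.2), true) else 0)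
        - (if nbr (cidx (0, 0) m v) 1 ∈ (arrK G₁ G₂).set then H (cidx (0, 0) m v) 1 * (cel m (cidx (0, 0) m v)).face 1 v else 0) := by
  obtain ⟨x, y⟩ := v
  set i := cidx (0, 0) m (x, y) with hi
  have hiK : i ∈ (arrK G₁ G₂).set := cidx_mem_arrK hm hv
  have hvC : (x, y) ∈ (cel m i).set := (mem_cellRc hm).2 rfl
  obtain ⟨⟨a1, a2⟩, a3, a4⟩ := mem_cel.1 hvC
  simp only at a1 a2 a3 a4 ⊢
  have hface : (cel m i).face 1 (x, y) = if x = i.1 * m then (m : ℝ)⁻¹ else 0 := by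
    show (cel m i).faceL (x, y) = _
    unfold Rc.faceL
    simp only [hvC, true_and]
    simp only [cellRc, zero_add]
  have hsnd : Bond.snd ((x - 1, y), true) = (x, y) := by
    show (x - 1 + 1, y) = (x, y)
    rw [sub_add_cancel]
  have hfst : (((x - 1, y), true) : Bond).1 = (x - 1, y) := rfl
  by_cases hc : i.1 * m ≤ x - 1
  · have hu : cidx (0, 0) m (x - 1, y) = i := (cidx_eq_iff hm).2 ⟨⟨hc, by simp only; omega⟩, a3, a4⟩
    have hC : ((x - 1, y), true) ∈ (cel m i).bd := mem_bd.2 ⟨(mem_cellRc hm).2 hu, by rw [hsnd]; exact hvC⟩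
    have hJ : ((x - 1, y), true) ∈ (arrJ m G₁ G₂).bd := fr_bd_mono (cel_sub_arrJ hiK) hC
    have hf0 : (cel m i).face 1 (x, y) = 0 := by rw [hface, if_neg (by omega)]
    rw [if_pos hJ, if_pos hC, hf0, mul_zero, ite_self, sub_zero]
    unfold arrFlow
    rw [hsnd, hfst, hu, if_pos hi]
  · have hx : x = i.1 * m := by omega
    have hu : cidx (0, 0) m (x - 1, y) = nbr i 1 := by
      have : (0 : ℤ) < m := by exact_mod_cast hm
      refine (cidx_eq_iff hm).2 ⟨⟨?_, ?_⟩, a3, a4⟩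
      · show (i.1 - 1) * m ≤ x - 1
        rw [hx]; linarith
      · show x - 1 < (i.1 - 1) * m + m
        rw [hx]; linarith
    have hne : nbr i 1 ≠ i := by
      intro h
      have := congrArg Prod.fst h
      simp [nbr] at this
    have hC : ((x - 1, y), true) ∉ (cel m i).bd := fun h => hne (hu.symm.trans ((mem_cellRc hm).1 (mem_bd.1 h).1))
    have hJ : ((x - 1, y), true) ∈ (arrJ m G₁ G₂).bd ↔ nbr i 1 ∈ (arrK G₁ G₂).set := by
      rw [mem_bd, hsnd, hfst, mem_arrJ_iff_cidx hm (x - 1, y), hu]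
      exact ⟨fun h => h.1, fun h => ⟨h, hv⟩⟩
    rw [if_neg hC, zero_sub, hface, if_pos hx]
    simp only [hJ]
    by_cases hK : nbr i 1 ∈ (arrK G₁ G₂).set
    · rw [if_pos hK, if_pos hK]
      unfold arrFlow
      rw [hsnd, hfst, hu, if_neg (by rw [← hi]; exact hne)]
      simp only [if_true]
      have hback : ((nbr i 1).1 + 1, (nbr i 1).2) = i := by
        show (i.1 - 1 + 1, i.2) = i
        rw [sub_add_cancel]
      have := hH.1 (nbr i 1) hK (by rw [hback]; exact hiK)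
      rw [hback] at this
      rw [this, div_eq_mul_inv, neg_mul]
    · rw [if_neg hK, if_neg hK, neg_zero]

theorem arr_term_D (m G₁ G₂ : ℕ) (hm : 0 < m) (H : ℤ × ℤ → Fin 4 → ℝ) (hH : Flux G₁ G₂ H) (v : ℤ × ℤ) (hv : v ∈ (arrJ m G₁ G₂).set) :
    (if ((v.1, v.2 - 1), false) ∈ (arrJ m G₁ G₂).bd then arrFlow m H ((v.1, v.2 - 1), false) else 0) =
      (if ((v.1, v.2 - 1), false) ∈ (cel m (cidx (0, 0) m v)).bd then
          (cel m (cidx (0, 0) m v)).pathFlow ((cel m (cidx (0, 0) m v)).fch (H (cidx (0, 0) m v))) ((v.1, v.2 - 1), false) else 0)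
        - (if nbr (cidx (0, 0) m v) 3 ∈ (arrK G₁ G₂).set then H (cidx (0, 0) m v) 3 * (cel m (cidx (0, 0) m v)).face 3 v else 0) := by
  obtain ⟨x, y⟩ := v
  set i := cidx (0, 0) m (x, y) with hi
  have hiK : i ∈ (arrK G₁ G₂).set := cidx_mem_arrK hm hv
  have hvC : (x, y) ∈ (cel m i).set := (mem_cellRc hm).2 rfl
  obtain ⟨⟨a1, a2⟩, a3, a4⟩ := mem_cel.1 hvC
  simp only at a1 a2 a3 a4 ⊢
  have hface : (cel m i).face 3 (x, y) = if y = i.2 * m then (m : ℝ)⁻¹ else 0 := by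
    show (cel m i).faceD (x, y) = _
    unfold Rc.faceD
    simp only [hvC, true_and]
    simp only [cellRc, zero_add]
  have hsnd : Bond.snd ((x, y - 1), false) = (x, y) := by
    show (x, y - 1 + 1) = (x, y)
    rw [sub_add_cancel]
  have hfst : (((x, y - 1), false) : Bond).1 = (x, y - 1) := rfl
  by_cases hc : i.2 * m ≤ y - 1
  · have hu : cidx (0, 0) m (x, y - 1) = i := (cidx_eq_iff hm).2 ⟨⟨a1, a2⟩, hc, by simp only; omega⟩
    have hC : ((x, y - 1), false) ∈ (cel m i).bd := mem_bd.2 ⟨(mem_cellRc hm).2 hu, by rw [hsnd]; exact hvC⟩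
    have hJ : ((x, y - 1), false) ∈ (arrJ m G₁ G₂).bd := fr_bd_mono (cel_sub_arrJ hiK) hC
    have hf0 : (cel m i).face 3 (x, y) = 0 := by rw [hface, if_neg (by omega)]
    rw [if_pos hJ, if_pos hC, hf0, mul_zero, ite_self, sub_zero]
    unfold arrFlow
    rw [hsnd, hfst, hu, if_pos hi]
  · have hx : y = i.2 * m := by omega
    have hu : cidx (0, 0) m (x, y - 1) = nbr i 3 := by
      have : (0 : ℤ) < m := by exact_mod_cast hm
      refine (cidx_eq_iff hm).2 ⟨⟨a1, a2⟩, ?_, ?_⟩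
      · show (i.2 - 1) * m ≤ y - 1
        rw [hx]; linarith
      · show y - 1 < (i.2 - 1) * m + m
        rw [hx]; linarith
    have hne : nbr i 3 ≠ i := by
      intro h
      have := congrArg Prod.snd h
      simp [nbr] at this
    have hC : ((x, y - 1), false) ∉ (cel m i).bd := fun h => hne (hu.symm.trans ((mem_cellRc hm).1 (mem_bd.1 h).1))
    have hJ : ((x, y - 1), false) ∈ (arrJ m G₁ G₂).bd ↔ nbr i 3 ∈ (arrK G₁ G₂).set := by
      rw [mem_bd, hsnd, hfst, mem_arrJ_iff_cidx hm (x, y - 1), hu]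
      exact ⟨fun h => h.1, fun h => ⟨h, hv⟩⟩
    rw [if_neg hC, zero_sub, hface, if_pos hx]
    simp only [hJ]
    by_cases hK : nbr i 3 ∈ (arrK G₁ G₂).set
    · rw [if_pos hK, if_pos hK]
      unfold arrFlow
      rw [hsnd, hfst, hu, if_neg (by rw [← hi]; exact hne)]
      simp only [Bool.false_eq_true, if_false]
      have hback : ((nbr i 3).1, (nbr i 3).2 + 1) = i := by
        show (i.1, i.2 - 1 + 1) = i
        rw [sub_add_cancel]
      have := hH.2 (nbr i 3) hK (by rw [hback]; exact hiK)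
      rw [hback] at this
      rw [this, div_eq_mul_inv, neg_mul]
    · rw [if_neg hK, if_neg hK, neg_zero]

/-- L-PH-G11.  **Divergence of the array flow.**  `(arrJ).bd` = disjoint union of the bonds of the pieces (`arr_dis`, `arr_cover`, `arr_sub`), so `dv_J w v = ∑_cells dv_cell w v + ∑_{seam e} w_e ([e.snd = v] - [e.1 = v])`.  Only the cell `i = cidx v` contributes (`dv_off`): `dv_pathFlow`, `sum_face`:
`fch (H i) v - (∑_d H i d) [v = corner of i]`.  At most four seam bonds touch `v`: `(v,true)` is a seam bond iff `v` lies on the right face of `i` and `nbr i 0 ∈ arrK`; it contributes `- H i 0 / m = - H i 0 · face 0 v`; `((v.1-1,v.2),true)` iff `v` lies on the left face and `nbr i 1 ∈ arrK`; it contributes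
`+ H (nbr i 1) 0 / m = - H i 1 · face 1 v` (`hH`); the same for the vertical bonds.  The inner faces cancel. -/
theorem arr_dv (m G₁ G₂ : ℕ) (hm : 0 < m) (H : ℤ × ℤ → Fin 4 → ℝ) (hH : Flux G₁ G₂ H) (v : ℤ × ℤ) (hv : v ∈ (arrJ m G₁ G₂).set) :
    (arrJ m G₁ G₂).dv (arrFlow m H) v =
      (∑ d, if nbr (cidx (0, 0) m v) d ∈ (arrK G₁ G₂).set then 0 else H (cidx (0, 0) m v) d * (cel m (cidx (0, 0) m v)).face d v)
        - (∑ d, H (cidx (0, 0) m v) d) * (if v = (cel m (cidx (0, 0) m v)).o then 1 else 0) := by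
  have hvC : v ∈ (cel m (cidx (0, 0) m v)).set := (mem_cellRc hm).2 rfl
  have h1 := dv_pathFlow (cel m (cidx (0, 0) m v)) ((cel m (cidx (0, 0) m v)).fch (H (cidx (0, 0) m v))) v hvC
  have hsum : ∑ u ∈ (cel m (cidx (0, 0) m v)).set, (cel m (cidx (0, 0) m v)).fch (H (cidx (0, 0) m v)) u = ∑ d, H (cidx (0, 0) m v) d := by
    unfold Rc.fch
    rw [Finset.sum_comm]
    refine Finset.sum_congr rfl fun d _ => ?_
    rw [← Finset.mul_sum, sum_face _ hm hm, mul_one]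
  have hf : (cel m (cidx (0, 0) m v)).fch (H (cidx (0, 0) m v)) v = ∑ d, H (cidx (0, 0) m v) d * (cel m (cidx (0, 0) m v)).face d v := rfl
  rw [hsum, hf, dv_four] at h1
  rw [dv_four, arr_term_R m G₁ G₂ hm H v hv, arr_term_U m G₁ G₂ hm H v hv, arr_term_L m G₁ G₂ hm H hH v hv, arr_term_D m G₁ G₂ hm H hH v hv]
  have key : ∀ (p : Prop) [Decidable p] (a : ℝ), (if p then 0 else a) = a - if p then a else 0 := by
    intro p _ a
    split_ifs <;> ring
  simp only [key, Fin.sum_univ_four] at h1 ⊢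
  linarith

/-- L-PH-G12.  **Integrality of the rows on the joined lattice**: `arr_dv`, `hout` (`t = 0`), `htot`; `flowX_int`. -/
theorem arr_int (b : ℝ) (m G₁ G₂ : ℕ) (hm : 0 < m) (H : ℤ × ℤ → Fin 4 → ℝ) (hH : Flux G₁ G₂ H) (hout : Outer G₁ G₂ H 0)
    (htot : ∀ i ∈ (arrK G₁ G₂).set, ∃ n : ℤ, ∑ d, H i d = n) (z : ((arrJ m G₁ G₂).sys b).L) :
    ∃ c : ℤ, (arrJ m G₁ G₂).flowX b (arrFlow m H) z = 2 * Real.pi * (c : ℝ) := by
  refine flowX_int _ b (fun v hv => ?_) z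
  have hiK := cidx_mem_arrK hm hv
  obtain ⟨n, hn⟩ := htot _ hiK
  rw [arr_dv m G₁ G₂ hm H hH v hv, hn]
  have h0 : (∑ d, if nbr (cidx (0, 0) m v) d ∈ (arrK G₁ G₂).set then 0 else H (cidx (0, 0) m v) d * (cel m (cidx (0, 0) m v)).face d v) = 0 := by
    refine Finset.sum_eq_zero fun d _ => ?_
    split_ifs with h
    · rfl
    · rw [hout _ hiK d h, zero_mul]
  rw [h0]
  by_cases hv0 : v = (cel m (cidx (0, 0) m v)).o
  · exact ⟨-n, by rw [if_pos hv0]; push_cast; ring⟩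
  · exact ⟨0, by rw [if_neg hv0]; push_cast; ring⟩

/-- the outer faces of the outer cells make up the faces of the big square. -/
theorem arr_face_outer (m G : ℕ) (hm : 0 < m) (hG : 0 < G) (v : ℤ × ℤ) (hv : v ∈ (arrJ m G G).set) (d : Fin 4) :
    (if nbr (cidx (0, 0) m v) d ∈ (arrK G G).set then 0 else (1 / (4 * G) : ℝ) * (cel m (cidx (0, 0) m v)).face d v) =
      1 / 4 * (C2.sq (G * m)).face d v := by
  obtain ⟨x, y⟩ := v
  set i := cidx (0, 0) m (x, y) with hi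
  have hiK : i ∈ (arrK G G).set := cidx_mem_arrK hm hv
  have hvC : (x, y) ∈ (cel m i).set := (mem_cellRc hm).2 rfl
  have hvS : (x, y) ∈ (C2.sq (G * m)).set := hv
  obtain ⟨⟨a1, a2⟩, a3, a4⟩ := mem_cel.1 hvC
  obtain ⟨⟨k1, k2⟩, k3, k4⟩ := mem_arrK.1 hiK
  simp only at a1 a2 a3 a4
  have hm' : (0 : ℤ) < m := by exact_mod_cast hm
  have hmR : (0 : ℝ) < m := by exact_mod_cast hm
  have hGR : (0 : ℝ) < G := by exact_mod_cast hG
  have hval : (1 / (4 * G) : ℝ) * (m : ℝ)⁻¹ = 1 / 4 * (((G * m : ℕ) : ℝ))⁻¹ := by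
    push_cast
    field_simp
  have f0 : (cel m i).face 0 (x, y) = if x + 1 = i.1 * m + m then (m : ℝ)⁻¹ else 0 := by
    show (cel m i).faceR (x, y) = _
    unfold Rc.faceR
    simp only [hvC, true_and]
    simp only [cellRc, zero_add]
  have f1 : (cel m i).face 1 (x, y) = if x = i.1 * m then (m : ℝ)⁻¹ else 0 := by
    show (cel m i).faceL (x, y) = _
    unfold Rc.faceL
    simp only [hvC, true_and]
    simp only [cellRc, zero_add]
  have f2 : (cel m i).face 2 (x, y) = if y + 1 = i.2 * m + m then (m : ℝ)⁻¹ else 0 := by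
    show (cel m i).faceU (x, y) = _
    unfold Rc.faceU
    simp only [hvC, true_and]
    simp only [cellRc, zero_add]
  have f3 : (cel m i).face 3 (x, y) = if y = i.2 * m then (m : ℝ)⁻¹ else 0 := by
    show (cel m i).faceD (x, y) = _
    unfold Rc.faceD
    simp only [hvC, true_and]
    simp only [cellRc, zero_add]
  have g0 : (C2.sq (G * m)).face 0 (x, y) = if x + 1 = (G : ℤ) * m then (((G * m : ℕ) : ℝ))⁻¹ else 0 := by
    show (C2.sq (G * m)).faceR (x, y) = _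
    unfold Rc.faceR
    simp only [hvS, true_and]
    simp only [C2.sq, zero_add, Nat.cast_mul]
  have g1 : (C2.sq (G * m)).face 1 (x, y) = if x = 0 then (((G * m : ℕ) : ℝ))⁻¹ else 0 := by
    show (C2.sq (G * m)).faceL (x, y) = _
    unfold Rc.faceL
    simp only [hvS, true_and]
    by_cases h : x = 0 <;> simp [C2.sq, h]
  have g2 : (C2.sq (G * m)).face 2 (x, y) = if y + 1 = (G : ℤ) * m then (((G * m : ℕ) : ℝ))⁻¹ else 0 := by
    show (C2.sq (G * m)).faceU (x, y) = _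
    unfold Rc.faceU
    simp only [hvS, true_and]
    simp only [C2.sq, zero_add, Nat.cast_mul]
  have g3 : (C2.sq (G * m)).face 3 (x, y) = if y = 0 then (((G * m : ℕ) : ℝ))⁻¹ else 0 := by
    show (C2.sq (G * m)).faceD (x, y) = _
    unfold Rc.faceD
    simp only [hvS, true_and]
    by_cases h : y = 0 <;> simp [C2.sq, h]
  fin_cases d
  · show (if nbr i 0 ∈ (arrK G G).set then 0 else (1 / (4 * G) : ℝ) * (cel m i).face 0 (x, y)) = 1 / 4 * (C2.sq (G * m)).face 0 (x, y)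
    rw [f0, g0]
    have hn : nbr i 0 ∈ (arrK G G).set ↔ i.1 + 1 < G := by
      rw [mem_arrK]
      show ((0 ≤ i.1 + 1 ∧ i.1 + 1 < G) ∧ (0 ≤ i.2 ∧ i.2 < G)) ↔ _
      constructor
      · intro h; exact h.1.2
      · intro h; exact ⟨⟨by omega, h⟩, k3, k4⟩
    by_cases h : i.1 + 1 < G
    · rw [if_pos (hn.2 h), if_neg, mul_zero]
      have : (i.1 + 2) * m ≤ (G : ℤ) * m := mul_le_mul_of_nonneg_right (by omega) hm'.le
      intro h'
      nlinarith
    · have hG' : (G : ℤ) = i.1 + 1 := by omega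
      rw [if_neg (fun h' => h (hn.1 h')), hG']
      have e : (i.1 + 1) * (m : ℤ) = i.1 * m + m := by ring
      rw [e]
      split_ifs
      · exact hval
      · ring
  · show (if nbr i 1 ∈ (arrK G G).set then 0 else (1 / (4 * G) : ℝ) * (cel m i).face 1 (x, y)) = 1 / 4 * (C2.sq (G * m)).face 1 (x, y)
    rw [f1, g1]
    have hn : nbr i 1 ∈ (arrK G G).set ↔ 0 ≤ i.1 - 1 := by
      rw [mem_arrK]
      show ((0 ≤ i.1 - 1 ∧ i.1 - 1 < G) ∧ (0 ≤ i.2 ∧ i.2 < G)) ↔ _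
      constructor
      · intro h; exact h.1.1
      · intro h; exact ⟨⟨h, by omega⟩, k3, k4⟩
    by_cases h : 0 ≤ i.1 - 1
    · rw [if_pos (hn.2 h), if_neg, mul_zero]
      intro h'
      nlinarith
    · have hi0 : i.1 = 0 := by omega
      rw [if_neg (fun h' => h (hn.1 h')), hi0, zero_mul]
      split_ifs
      · exact hval
      · ring
  · show (if nbr i 2 ∈ (arrK G G).set then 0 else (1 / (4 * G) : ℝ) * (cel m i).face 2 (x, y)) = 1 / 4 * (C2.sq (G * m)).face 2 (x, y)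
    rw [f2, g2]
    have hn : nbr i 2 ∈ (arrK G G).set ↔ i.2 + 1 < G := by
      rw [mem_arrK]
      show ((0 ≤ i.1 ∧ i.1 < G) ∧ (0 ≤ i.2 + 1 ∧ i.2 + 1 < G)) ↔ _
      constructor
      · intro h; exact h.2.2
      · intro h; exact ⟨⟨k1, k2⟩, by omega, h⟩
    by_cases h : i.2 + 1 < G
    · rw [if_pos (hn.2 h), if_neg, mul_zero]
      have : (i.2 + 2) * m ≤ (G : ℤ) * m := mul_le_mul_of_nonneg_right (by omega) hm'.le
      intro h'
      nlinarith
    · have hG' : (G : ℤ) = i.2 + 1 := by omega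
      rw [if_neg (fun h' => h (hn.1 h')), hG']
      have e : (i.2 + 1) * (m : ℤ) = i.2 * m + m := by ring
      rw [e]
      split_ifs
      · exact hval
      · ring
  · show (if nbr i 3 ∈ (arrK G G).set then 0 else (1 / (4 * G) : ℝ) * (cel m i).face 3 (x, y)) = 1 / 4 * (C2.sq (G * m)).face 3 (x, y)
    rw [f3, g3]
    have hn : nbr i 3 ∈ (arrK G G).set ↔ 0 ≤ i.2 - 1 := by
      rw [mem_arrK]
      show ((0 ≤ i.1 ∧ i.1 < G) ∧ (0 ≤ i.2 - 1 ∧ i.2 - 1 < G)) ↔ _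
      constructor
      · intro h; exact h.2.1
      · intro h; exact ⟨⟨k1, k2⟩, h, by omega⟩
    by_cases h : 0 ≤ i.2 - 1
    · rw [if_pos (hn.2 h), if_neg, mul_zero]
      intro h'
      nlinarith
    · have hi0 : i.2 = 0 := by omega
      rw [if_neg (fun h' => h (hn.1 h')), hi0, zero_mul]
      split_ifs
      · exact hval
      · ring

/-- L-PH-G12.  **A radial flux represents the face phase of the big square**: `arr_dv`; the outer part is `faceS` of `arrJ m G G = sq (G m)` (`1/(4G) · 1/m = (1/4) · 1/(G m)`; a corner vertex lies on two outer faces); integer totals drop out: `ph_sym` with `σ = id` against `pathFlow faceS`; `zface_eq`. -/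
theorem arr_zface (b : ℝ) (m G : ℕ) (hm : 0 < m) (hG : 0 < G) (H : ℤ × ℤ → Fin 4 → ℝ) (hH : Flux G G H) (hout : Outer G G H (1 / (4 * G)))
    (htot : ∀ i ∈ (arrK G G).set, ∃ n : ℤ, ∑ d, H i d = n) :
    (arrJ m G G).ph b (arrFlow m H) = zface b (G * m) := by
  rw [zface_eq]
  unfold cph
  have hGm : 0 < G * m := Nat.mul_pos hG hm
  refine ph_sym (Equiv.refl _) latIso_refl (C2.sq (G * m)) (arrJ m G G) (fun v => Iff.rfl) b _ _ fun v hv => ?_
  have hv' : v ∈ (arrJ m G G).set := hv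
  have hiK := cidx_mem_arrK hm hv'
  obtain ⟨n, hn⟩ := htot _ hiK
  rw [Equiv.refl_apply, arr_dv m G G hm H hH v hv', dv_pathFlow _ _ v hv, hn]
  have hsum : ∑ u ∈ (C2.sq (G * m)).set, (C2.sq (G * m)).fch (fun _ => 1 / 4) u = 1 := by
    unfold Rc.fch
    rw [Finset.sum_comm]
    have : ∀ d : Fin 4, ∑ u ∈ (C2.sq (G * m)).set, (1 / 4 : ℝ) * (C2.sq (G * m)).face d u = 1 / 4 := by
      intro d
      rw [← Finset.mul_sum, sum_face _ hGm hGm, mul_one]
    rw [Finset.sum_congr rfl fun d _ => this d]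
    simp
  have h0 : (∑ d, if nbr (cidx (0, 0) m v) d ∈ (arrK G G).set then 0 else H (cidx (0, 0) m v) d * (cel m (cidx (0, 0) m v)).face d v) =
      (C2.sq (G * m)).fch (fun _ => 1 / 4) v := by
    unfold Rc.fch
    refine Finset.sum_congr rfl fun d _ => ?_
    rw [← arr_face_outer m G hm hG v hv' d]
    split_ifs with h
    · rfl
    · rw [hout _ hiK d h]
  rw [h0, hsum]
  by_cases h1 : v = (cel m (cidx (0, 0) m v)).o <;> by_cases h2 : v = (C2.sq (G * m)).o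
  · exact ⟨-n + 1, by rw [if_pos h1, if_pos h2]; push_cast; ring⟩
  · exact ⟨-n, by rw [if_pos h1, if_neg h2]; push_cast; ring⟩
  · exact ⟨1, by rw [if_neg h1, if_pos h2]; push_cast; ring⟩
  · exact ⟨0, by rw [if_neg h1, if_neg h2]; push_cast; ring⟩

/-! ## 7. The phase of one cell -/

/-- L-PH-G13 (abstract).  `lsys_phi_four`: `φ(X)² φ(Y)² ≤ φ(X+Y) φ(X-Y) = φ(X+Y)²`; `rd_phi_nonneg`, `abs_le_of_sq_le_sq`. -/
theorem phi_split (S : LSys) (hS : S.Ok) (X Y : S.L →+ ℝ) (h : S.phi (X + Y) = S.phi (X - Y)) : S.phi X * S.phi Y ≤ S.phi (X + Y) := by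
  have h4 := lsys_phi_four S hS X Y
  rw [← h] at h4
  have a := rd_phi_nonneg hS X
  have c := rd_phi_nonneg hS Y
  have d := rd_phi_nonneg hS (X + Y)
  refine abs_le_of_sq_le_sq' ?_ d |>.2
  nlinarith

/-- the test of a face charge is additive in the fluxes. -/
theorem cX_add (b : ℝ) (m : ℕ) (A A' : Fin 4 → ℝ) :
    (C2.sq m).flowX b ((C2.sq m).pathFlow ((C2.sq m).fch fun d => A d + A' d)) =
      (C2.sq m).flowX b ((C2.sq m).pathFlow ((C2.sq m).fch A)) + (C2.sq m).flowX b ((C2.sq m).pathFlow ((C2.sq m).fch A')) := by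
  rw [← flowX_add]
  congr 1
  funext e
  rw [← pathFlow_add]
  congr 1
  funext v
  exact fch_add _ A A' v

theorem cX_sub (b : ℝ) (m : ℕ) (A A' : Fin 4 → ℝ) :
    (C2.sq m).flowX b ((C2.sq m).pathFlow ((C2.sq m).fch fun d => A d - A' d)) =
      (C2.sq m).flowX b ((C2.sq m).pathFlow ((C2.sq m).fch A)) - (C2.sq m).flowX b ((C2.sq m).pathFlow ((C2.sq m).fch A')) := by
  have h := cX_add b m (fun d => A d - A' d) A'
  simp only [sub_add_cancel] at h
  rw [h, add_sub_cancel_right]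

theorem cph_mul_le (b : ℝ) (hb : 0 < b) (m : ℕ) (A B : Fin 4 → ℝ) (h : cph b m (fun d => A d + B d) = cph b m fun d => A d - B d) :
    cph b m A * cph b m B ≤ cph b m fun d => A d + B d := by
  unfold cph Rc.ph at h ⊢
  rw [cX_add] at h ⊢
  rw [cX_sub] at h
  exact phi_split _ (fr_ok _ b hb) _ _ h

theorem cph_reflX (b : ℝ) (m : ℕ) (hm : 0 < m) (A A' : Fin 4 → ℝ) (h0 : A' 0 = A 1) (h1 : A' 1 = A 0) (h2 : A' 2 = A 2) (h3 : A' 3 = A 3)
    (l : ℤ) (hl : ∑ d, A d = l) : cph b m A' = cph b m A := by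
  refine ph_charge_sym (reflX (m - 1)) (latIso_reflX _) (C2.sq m) (C2.sq m) (fun v => (sq_refl m v).1) b _ _ (fun x _ => ?_) l
    (by rw [sum_fch _ hm hm, hl])
  obtain ⟨⟨f0, f1, f2, f3⟩, -, -⟩ := face_refl m x
  unfold Rc.fch
  rw [Fin.sum_univ_four, Fin.sum_univ_four, f0, f1, f2, f3, h0, h1, h2, h3]
  ring

theorem cph_reflY (b : ℝ) (m : ℕ) (hm : 0 < m) (A A' : Fin 4 → ℝ) (h0 : A' 0 = A 0) (h1 : A' 1 = A 1) (h2 : A' 2 = A 3) (h3 : A' 3 = A 2)
    (l : ℤ) (hl : ∑ d, A d = l) : cph b m A' = cph b m A := by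
  refine ph_charge_sym (reflY (m - 1)) (latIso_reflY _) (C2.sq m) (C2.sq m) (fun v => (sq_refl m v).2.1) b _ _ (fun x _ => ?_) l
    (by rw [sum_fch _ hm hm, hl])
  obtain ⟨-, ⟨f0, f1, f2, f3⟩, -⟩ := face_refl m x
  unfold Rc.fch
  rw [Fin.sum_univ_four, Fin.sum_univ_four, f0, f1, f2, f3, h0, h1, h2, h3]
  ring

theorem cph_reflD (b : ℝ) (m : ℕ) (hm : 0 < m) (A A' : Fin 4 → ℝ) (h0 : A' 0 = A 2) (h1 : A' 1 = A 3) (h2 : A' 2 = A 0) (h3 : A' 3 = A 1)
    (l : ℤ) (hl : ∑ d, A d = l) : cph b m A' = cph b m A := by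
  refine ph_charge_sym (reflD 0) (latIso_reflD _) (C2.sq m) (C2.sq m) (fun v => (sq_refl m v).2.2) b _ _ (fun x _ => ?_) l
    (by rw [sum_fch _ hm hm, hl])
  obtain ⟨-, -, ⟨f0, f1, f2, f3⟩⟩ := face_refl m x
  unfold Rc.fch
  rw [Fin.sum_univ_four, Fin.sum_univ_four, f0, f1, f2, f3, h0, h1, h2, h3]
  ring

/-- a dipole between opposite faces is an affine test. -/
theorem cph_dipole (b : ℝ) (hb : 0 < b) (m : ℕ) (hm : 0 < m) (D₁ D₂ : ℝ) (u : Fin 4 → ℝ) (h0 : u 0 = D₁) (h1 : u 1 = -D₁) (h2 : u 2 = D₂) (h3 : u 3 = -D₂) :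
    Real.exp (-(aCoef b m * (D₁ ^ 2 + D₂ ^ 2) / 2)) ≤ cph b m u := by
  have hmR : (m : ℝ) ≠ 0 := by exact_mod_cast hm.ne'
  have hX : (C2.sq m).flowX b ((C2.sq m).pathFlow ((C2.sq m).fch u)) =
      (C2.sq m).flowX b (gd fun v => D₁ / m * v.1 + D₂ / m * v.2 + 0) := by
    refine flowX_eq_of_dv _ b fun v hv => ?_
    have hg : (gd fun v : ℤ × ℤ => D₁ / m * v.1 + D₂ / m * v.2 + 0) =
        fun e => D₁ * gd (fun u : ℤ × ℤ => (u.1 : ℝ) / m) e + D₂ * gd (fun u : ℤ × ℤ => (u.2 : ℝ) / m) e := by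
      funext e
      unfold gd
      ring
    rw [dv_pathFlow _ _ v hv, sum_fch _ hm hm, hg, dv_add, dv_smul, dv_smul]
    have ha := lap_affine m hm v hv
    have a1 : (C2.sq m).dv (gd fun u : ℤ × ℤ => (u.1 : ℝ) / m) v = (C2.sq m).face 0 v - (C2.sq m).face 1 v := ha.1
    have a2 : (C2.sq m).dv (gd fun u : ℤ × ℤ => (u.2 : ℝ) / m) v = (C2.sq m).face 2 v - (C2.sq m).face 3 v := ha.2
    rw [a1, a2]
    unfold Rc.fch
    rw [Fin.sum_univ_four, Fin.sum_univ_four, h0, h1, h2, h3]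
    ring
  have hV : ((C2.sq m).sys b).V0 ((C2.sq m).flowX b (gd fun v => D₁ / m * v.1 + D₂ / m * v.2 + 0)) = aCoef b m * (D₁ ^ 2 + D₂ ^ 2) := by
    have := fr_affine_sq (0, 0) m b hb (D₁ / m) (D₂ / m) 0
    refine Eq.trans this ?_
    field_simp
  have := lsys_phi_lower _ (fr_ok (C2.sq m) b hb) ((C2.sq m).flowX b (gd fun v => D₁ / m * v.1 + D₂ / m * v.2 + 0))
  rw [hV] at this
  unfold cph Rc.ph
  rw [hX]
  refine le_trans (le_of_eq ?_) this
  congr 1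
  ring

/-- the quadrupole is the gradient test of the exact potentials. -/
theorem cph_quad (b : ℝ) (hb : 0 < b) (m : ℕ) (hm : 0 < m) (e : ℝ) (u : Fin 4 → ℝ) (h0 : u 0 = e) (h1 : u 1 = e) (h2 : u 2 = -e) (h3 : u 3 = -e) :
    Real.exp (-(32 * Real.pi ^ 2 * b * e ^ 2)) ≤ cph b m u := by
  have hX : (C2.sq m).flowX b ((C2.sq m).pathFlow ((C2.sq m).fch u)) = (C2.sq m).flowX b (gd fun v => ∑ d, u d * (C2.sq m).pot d v) := by
    refine flowX_eq_of_dv _ b fun v hv => ?_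
    rw [dv_pathFlow _ _ v hv, sum_fch _ hm hm, dv_congr _ (fun e _ => gd_fpot (C2.sq m) u e), dv_sum4]
    have h1' : ∀ d, (C2.sq m).dv (gd ((C2.sq m).pot d)) v = (C2.sq m).face d v - (C2.sq m).unif v :=
      fun d => lap_pot (C2.sq m) hm hm d v hv
    simp only [h1']
    unfold Rc.fch
    simp only [Fin.sum_univ_four, h0, h1, h2, h3]
    ring
  have hV : ((C2.sq m).sys b).V0 ((C2.sq m).flowX b (gd fun v => ∑ d, u d * (C2.sq m).pot d v)) ≤ 64 * Real.pi ^ 2 * b * e ^ 2 := by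
    refine (fr_var_ref (C2.sq m) b hb _).trans ?_
    have hc := cost_fpot m u
    rw [Fin.sum_univ_four, h0, h1, h2, h3] at hc
    have : 0 ≤ 4 * Real.pi ^ 2 * b := by positivity
    calc 4 * Real.pi ^ 2 * b * (C2.sq m).cost (gd fun v => ∑ d, u d * (C2.sq m).pot d v)
        ≤ 4 * Real.pi ^ 2 * b * (4 * (e ^ 2 + e ^ 2 + (-e) ^ 2 + (-e) ^ 2)) := mul_le_mul_of_nonneg_left hc this
      _ = 64 * Real.pi ^ 2 * b * e ^ 2 := by ring
  have := lsys_phi_lower _ (fr_ok (C2.sq m) b hb) ((C2.sq m).flowX b (gd fun v => ∑ d, u d * (C2.sq m).pot d v))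
  unfold cph Rc.ph
  rw [hX]
  refine le_trans (Real.exp_le_exp.2 ?_) this
  linarith

/-- L-PH-G13.  **[B](2.21) + (2.23), [C] before (2.14): the phase of a cell with face fluxes `H` of integer total `l`.**
`fch H = l ρ̄ + D₁ (ρ₀-ρ₁) + D₂ (ρ₂-ρ₃) + e (ρ₀+ρ₁-ρ₂-ρ₃)`, `D₁ = (H0-H1)/2`, `D₂ = (H2-H3)/2`, `e = (H0+H1-H2-H3)/4`.  Three uses of `phi_split`; the hypothesis is `ph_charge_sym` with `reflX (m-1)` (flips `D₁`), `reflY (m-1)` (flips `D₂`), `reflD 0` (flips `e`)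
(`face_refl`, `sq_refl`, `latIso_refl*`, `pathFlow_add`, `flowX_add`).  Then `lsys_phi_lower`: the test of `ρ₀-ρ₁` is `gradX (x/m)` (`flowX_eq_of_dv`, `lap_affine`, `dv_pathFlow`), variance `aCoef b m` (`fr_affine_sq`); the same for `y/m`;
the test of `ρ₀+ρ₁-ρ₂-ρ₃` is the gradient test of `pot 0 + pot 1 - pot 2 - pot 3`: variance `≤ 4π² b · 16` (`fr_var_ref`, `cost_fpot`). -/
theorem cph_lower (b : ℝ) (hb : 0 < b) (m : ℕ) (hm : 0 < m) (H : Fin 4 → ℝ) (l : ℤ) (hl : ∑ d, H d = l) :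
    cph b m (fun _ => (l : ℝ) / 4) * Real.exp (-(aCoef b m * (((H 0 - H 1) / 2) ^ 2 + ((H 2 - H 3) / 2) ^ 2) / 2)
        - 32 * Real.pi ^ 2 * b * ((H 0 + H 1 - H 2 - H 3) / 4) ^ 2) ≤ cph b m H := by
  rw [Fin.sum_univ_four] at hl
  set D₁ := (H 0 - H 1) / 2 with hD₁
  set D₂ := (H 2 - H 3) / 2 with hD₂
  set e := (H 0 + H 1 - H 2 - H 3) / 4 with he
  -- the pieces
  let L : Fin 4 → ℝ := fun _ => (l : ℝ) / 4
  let u₁ : Fin 4 → ℝ := ![D₁, -D₁, 0, 0]
  let u₂ : Fin 4 → ℝ := ![0, 0, D₂, -D₂]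
  let u₃ : Fin 4 → ℝ := ![e, e, -e, -e]
  have hpos : ∀ A, 0 ≤ cph b m A := fun A => (ph_pos _ b hb _).1.le
  have hH : (fun d => ((L d + u₃ d) + u₂ d) + u₁ d) = H := by
    funext d
    fin_cases d
    · show (l : ℝ) / 4 + e + 0 + D₁ = H 0
      rw [← hl, he, hD₁]; ring
    · show (l : ℝ) / 4 + e + 0 + -D₁ = H 1
      rw [← hl, he, hD₁]; ring
    · show (l : ℝ) / 4 + -e + D₂ + 0 = H 2
      rw [← hl, he, hD₂]; ring
    · show (l : ℝ) / 4 + -e + -D₂ + 0 = H 3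
      rw [← hl, he, hD₂]; ring
  -- first split: reflection in `x`
  have s1 : cph b m (fun d => (L d + u₃ d) + u₂ d) * cph b m u₁ ≤ cph b m fun d => ((L d + u₃ d) + u₂ d) + u₁ d := by
    refine cph_mul_le b hb m _ _ (cph_reflX b m hm _ _ ?_ ?_ ?_ ?_ l ?_).symm
    · show (l : ℝ) / 4 + e + 0 - D₁ = (l : ℝ) / 4 + e + 0 + -D₁
      ring
    · show (l : ℝ) / 4 + e + 0 - -D₁ = (l : ℝ) / 4 + e + 0 + D₁
      ring
    · show (l : ℝ) / 4 + -e + D₂ - 0 = (l : ℝ) / 4 + -e + D₂ + 0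
      ring
    · show (l : ℝ) / 4 + -e + -D₂ - 0 = (l : ℝ) / 4 + -e + -D₂ + 0
      ring
    · rw [Fin.sum_univ_four]
      show ((l : ℝ) / 4 + e + 0 + D₁) + ((l : ℝ) / 4 + e + 0 + -D₁) + ((l : ℝ) / 4 + -e + D₂ + 0) + ((l : ℝ) / 4 + -e + -D₂ + 0) = l
      ring
  have s2 : cph b m (fun d => L d + u₃ d) * cph b m u₂ ≤ cph b m fun d => (L d + u₃ d) + u₂ d := by
    refine cph_mul_le b hb m _ _ (cph_reflY b m hm _ _ ?_ ?_ ?_ ?_ l ?_).symm
    · show (l : ℝ) / 4 + e - 0 = (l : ℝ) / 4 + e + 0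
      ring
    · show (l : ℝ) / 4 + e - 0 = (l : ℝ) / 4 + e + 0
      ring
    · show (l : ℝ) / 4 + -e - D₂ = (l : ℝ) / 4 + -e + -D₂
      ring
    · show (l : ℝ) / 4 + -e - -D₂ = (l : ℝ) / 4 + -e + D₂
      ring
    · rw [Fin.sum_univ_four]
      show ((l : ℝ) / 4 + e + 0) + ((l : ℝ) / 4 + e + 0) + ((l : ℝ) / 4 + -e + D₂) + ((l : ℝ) / 4 + -e + -D₂) = l
      ring
  have s3 : cph b m L * cph b m u₃ ≤ cph b m fun d => L d + u₃ d := by
    refine cph_mul_le b hb m _ _ (cph_reflD b m hm _ _ ?_ ?_ ?_ ?_ l ?_).symm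
    · show (l : ℝ) / 4 - e = (l : ℝ) / 4 + -e
      ring
    · show (l : ℝ) / 4 - e = (l : ℝ) / 4 + -e
      ring
    · show (l : ℝ) / 4 - -e = (l : ℝ) / 4 + e
      ring
    · show (l : ℝ) / 4 - -e = (l : ℝ) / 4 + e
      ring
    · rw [Fin.sum_univ_four]
      show ((l : ℝ) / 4 + e) + ((l : ℝ) / 4 + e) + ((l : ℝ) / 4 + -e) + ((l : ℝ) / 4 + -e) = l
      ring
  have d1 := cph_dipole b hb m hm D₁ 0 u₁ rfl rfl rfl (by show (0 : ℝ) = -0; ring)
  have d2 := cph_dipole b hb m hm 0 D₂ u₂ rfl (by show (0 : ℝ) = -0; ring) rfl rfl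
  have d3 := cph_quad b hb m hm e u₃ rfl rfl rfl rfl
  rw [hH] at s1
  have e0 : Real.exp (-(aCoef b m * (D₁ ^ 2 + D₂ ^ 2) / 2) - 32 * Real.pi ^ 2 * b * e ^ 2) =
      Real.exp (-(32 * Real.pi ^ 2 * b * e ^ 2)) * Real.exp (-(aCoef b m * (0 ^ 2 + D₂ ^ 2) / 2)) * Real.exp (-(aCoef b m * (D₁ ^ 2 + 0 ^ 2) / 2)) := by
    rw [← Real.exp_add, ← Real.exp_add]
    congr 1
    ring
  rw [e0]
  calc cph b m L * (Real.exp (-(32 * Real.pi ^ 2 * b * e ^ 2)) * Real.exp (-(aCoef b m * (0 ^ 2 + D₂ ^ 2) / 2)) * Real.exp (-(aCoef b m * (D₁ ^ 2 + 0 ^ 2) / 2)))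
      ≤ cph b m L * (cph b m u₃ * cph b m u₂ * cph b m u₁) := by
        refine mul_le_mul_of_nonneg_left ?_ (hpos L)
        exact mul_le_mul (mul_le_mul d3 d2 (Real.exp_pos _).le (hpos _)) d1 (Real.exp_pos _).le (mul_nonneg (hpos _) (hpos _))
    _ = cph b m L * cph b m u₃ * cph b m u₂ * cph b m u₁ := by ring
    _ ≤ cph b m (fun d => L d + u₃ d) * cph b m u₂ * cph b m u₁ := by
        exact mul_le_mul_of_nonneg_right (mul_le_mul_of_nonneg_right s3 (hpos _)) (hpos _)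
    _ ≤ cph b m (fun d => (L d + u₃ d) + u₂ d) * cph b m u₁ := mul_le_mul_of_nonneg_right s2 (hpos _)
    _ ≤ cph b m H := s1

/-- L-PH-G13.  The zero charge: `flowX` of the zero flow vanishes, `rd_phi_zero`. -/
theorem cph_zero (b : ℝ) (hb : 0 < b) (m : ℕ) : cph b m (fun _ => 0) = 1 := by
  have h1 : (C2.sq m).fch (fun _ => 0) = fun _ => (0 : ℝ) * 0 := by
    funext v
    simp [Rc.fch]
  have h2 : (C2.sq m).pathFlow (fun _ => (0 : ℝ) * 0) = fun e => 0 * (C2.sq m).pathFlow (fun _ => 0) e :=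
    funext (pathFlow_smul _ 0 _)
  unfold cph Rc.ph
  rw [h1, h2, flowX_smul, zero_smul]
  exact rd_phi_zero (fr_ok _ b hb)

end

end Claimed.Agent.R285.Phase
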