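import Claimed.Agent.R285.Phase.Defs
import Claimed.Agent.R285.Rsd.Calc

/-!
# ROW 285, unit FREE / PHASE, file 1: the ABSTRACT layer of [C]T2.5 (architect helper200).   Paper-free: only `LSys`, `lsys_*` (Base/Height, all PROVED), `rd_*` (Rsd/CalcKit, Calc), `Free/Sys`.

## Exports (the only statements used by the geometry files `Phase/Two.lean`, `Phase/Ratio.lean`)
* `ph_join_phi` : `secSum S₀ ℓ θ ≤ φ_J(θ) · secSum S₀ ℓ 0`                                    ([C](2.10)-(2.11): soft joining + Poisson summation + monotonicity of characteristic coefficients)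
* `ph_join_var` : `Var_J T + e^{-|q|²/2} (E₀[T sin⟨q,ℓ⟩])² / (φ₀(⟨q,ℓ⟩) Θ) ≤ Var₀ T`           (the same for variances, with the Hessian bound in every sector)
* `secSum_*`    : bounds and the limit of the denominator
* `ph_ratio_deriv`, `ph_segment_lower`, `ph_pi_sin`, `ph_transfer_zero` : calculus of `E[X sin θ] / E cos θ` ([C](2.12)-(2.13) in finite form)
* s0 of `Read/C2.lean`: `ph_phase_tilt`, `ph_ex_eq_E0`, `ph_replica` (`ref_*`: `Free/Sys.lean`).

Here `S₀` is ANY proper system, `J` any system with more precision (`r : Ref S₀ J`) on which all rows `ℓ o` take values in `2πℤ`.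

LEAVES `L-PH-A*` (soft joining), `L-PH-B*` (calculus), `L-PH-Z*` (s0): every `sorry`; the leaf name is in the docstring.  Several leaves share this file: edit only your own theorems (private helpers directly above them), splice on a fresh pull.
-/

set_option autoImplicit false

namespace Claimed.Agent.R285.Phase

open Filter Topology C2 Free
open scoped Classical

noncomputable section

/-! ## 1. Poisson summation (Mathlib only) -/

private theorem ph_tsum_pi_fin {κ : Type} : ∀ (n : ℕ) (f : Fin n → κ → ℂ),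
    (∀ o, Summable fun j => ‖f o j‖) →
    Summable (fun j : Fin n → κ => ‖∏ o, f o (j o)‖) ∧
      ∑' j : Fin n → κ, ∏ o, f o (j o) = ∏ o, ∑' j, f o j
  | 0, f, _ => by
    constructor
    · exact (hasSum_fintype _).summable
    · simp
  | n + 1, f, hf => by
    obtain ⟨h1, h2⟩ := ph_tsum_pi_fin n (fun o => f o.succ) (fun o => hf o.succ)
    let e : κ × (Fin n → κ) ≃ (Fin (n + 1) → κ) := Fin.consEquiv (fun _ => κ)
    have hprod : ∀ p : κ × (Fin n → κ),
        ∏ o, f o (e p o) = f 0 p.1 * ∏ o : Fin n, f o.succ (p.2 o) := by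
      intro p
      rw [Fin.prod_univ_succ]
      simp [e, Fin.consEquiv]
    constructor
    · rw [← e.summable_iff]
      have h3 : (fun j : Fin (n + 1) → κ => ‖∏ o, f o (j o)‖) ∘ e =
          fun p : κ × (Fin n → κ) => ‖f 0 p.1‖ * ‖∏ o : Fin n, f o.succ (p.2 o)‖ := by
        funext p
        simp only [Function.comp, hprod, norm_mul]
      rw [h3]
      exact (hf 0).mul_of_nonneg h1 (fun _ => norm_nonneg _) (fun _ => norm_nonneg _)
    · rw [← e.tsum_eq]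
      simp_rw [hprod]
      rw [Fin.prod_univ_succ, ← h2]
      exact (tsum_mul_tsum_of_summable_norm (hf 0) h1).symm

/-- L-PH-A1 (Mathlib only).  Sum of a product over a finite product of index sets, complex version.  Induction on `O` (`Fintype.induction_empty_option`, `Equiv.piOptionEquivProd`, or `Finset.induction` after `Fintype.equivFin` and `Fin.consEquiv`/`Fin.insertNthEquiv`)
with `tsum_mul_tsum_of_summable_norm`, `summable_mul_of_summable_norm`.  (Nonnegative real version, proved: `Rsd.cs_real_tsum_pi`, `Rsd.ms_hasSum_pi_prod`; the summability of the norms follows from it.) -/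
theorem ph_tsum_pi {O κ : Type} [Fintype O] (f : O → κ → ℂ) (hf : ∀ o, Summable fun j => ‖f o j‖) :
    Summable (fun j : O → κ => ‖∏ o, f o (j o)‖) ∧ ∑' j : O → κ, ∏ o, f o (j o) = ∏ o, ∑' j, f o j := by
  let e := Fintype.equivFin O
  obtain ⟨h1, h2⟩ := ph_tsum_pi_fin (Fintype.card O) (fun i => f (e.symm i)) (fun i => hf _)
  let E : (O → κ) ≃ (Fin (Fintype.card O) → κ) := Equiv.arrowCongr e (Equiv.refl κ)
  have hprod : ∀ j : O → κ, ∏ i, f (e.symm i) (E j i) = ∏ o, f o (j o) := by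
    intro j
    exact Fintype.prod_equiv e.symm _ _ (fun i => by simp [E])
  constructor
  · refine ((E.summable_iff).2 h1).congr fun j => ?_
    simp only [Function.comp, hprod]
  · rw [← Fintype.prod_equiv e.symm (fun i => ∑' j, f (e.symm i) j) (fun o => ∑' j, f o j)
      (fun i => rfl), ← h2, ← E.tsum_eq]
    exact tsum_congr fun j => (hprod j).symm

/-- L-PH-A2 (Mathlib only).  `Complex.tsum_exp_neg_quadratic` with `a = 2π`, `b = -x`: `-(x + 2πc)²/2 = -x²/2 - π a c² + 2π b c`, `-π/a (q + I b)² = -q²/2 + I q x + x²/2`; `(2π : ℂ)^(1/2) = √(2π)` (`Complex.ofReal_cpow`, `Real.sqrt_eq_rpow`). -/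
theorem ph_poisson1 (x : ℝ) :
    ∑' c : ℤ, ((Real.exp (-(x + 2 * Real.pi * (c : ℝ)) ^ 2 / 2) : ℝ) : ℂ) =
      ((Real.sqrt (2 * Real.pi))⁻¹ : ℝ) * ∑' q : ℤ, ((Real.exp (-(q : ℝ) ^ 2 / 2) : ℝ) : ℂ) * Complex.exp (Complex.I * ((q : ℝ) * x : ℝ)) := by
  have hπ : (0 : ℝ) < 2 * Real.pi := by positivity
  have hπc : (Real.pi : ℂ) ≠ 0 := by exact_mod_cast Real.pi_ne_zero
  have key := Complex.tsum_exp_neg_quadratic (a := ((2 * Real.pi : ℝ) : ℂ))
    (by rw [Complex.ofReal_re]; exact hπ) ((-x : ℝ) : ℂ)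
  have hL : ∀ c : ℤ, ((Real.exp (-(x + 2 * Real.pi * (c : ℝ)) ^ 2 / 2) : ℝ) : ℂ) =
      Complex.exp (-(x : ℂ) ^ 2 / 2) * Complex.exp (-Real.pi * ((2 * Real.pi : ℝ) : ℂ) * (c : ℂ) ^ 2 +
        2 * Real.pi * ((-x : ℝ) : ℂ) * (c : ℂ)) := by
    intro c
    rw [← Complex.exp_add, Complex.ofReal_exp]
    congr 1
    push_cast
    ring
  have hR : ∀ n : ℤ, Complex.exp (-Real.pi / ((2 * Real.pi : ℝ) : ℂ) *
        ((n : ℂ) + Complex.I * ((-x : ℝ) : ℂ)) ^ 2) =
      Complex.exp ((x : ℂ) ^ 2 / 2) * (((Real.exp (-(n : ℝ) ^ 2 / 2) : ℝ) : ℂ) *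
        Complex.exp (Complex.I * ((n : ℝ) * x : ℝ))) := by
    intro n
    rw [Complex.ofReal_exp, ← Complex.exp_add, ← Complex.exp_add]
    congr 1
    push_cast
    have h1 : -(Real.pi : ℂ) / (2 * Real.pi) = -1 / 2 := by
      field_simp
    rw [h1]
    have h2 : Complex.I ^ 2 = -1 := Complex.I_sq
    linear_combination (-1 / 2 * (x : ℂ) ^ 2) * h2
  have hs : (((2 * Real.pi : ℝ) : ℂ)) ^ (1 / 2 : ℂ) = ((Real.sqrt (2 * Real.pi) : ℝ) : ℂ) := by
    rw [Real.sqrt_eq_rpow, Complex.ofReal_cpow hπ.le]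
    norm_num
  simp_rw [hL]
  rw [tsum_mul_left, key]
  simp_rw [hR]
  rw [tsum_mul_left, hs, ← mul_assoc, ← mul_assoc, mul_comm (Complex.exp (-(x : ℂ) ^ 2 / 2)),
    mul_assoc (1 / _), ← Complex.exp_add]
  have h3 : -(x : ℂ) ^ 2 / 2 + (x : ℂ) ^ 2 / 2 = 0 := by ring
  rw [h3, Complex.exp_zero, mul_one, Complex.ofReal_inv, one_div]

/-- L-PH-A2 (Mathlib only).  E.g. `Real.summable_exp_neg_mul_sq`-type lemmas / comparison `(x + 2πc)² ≥ c² - C` ; or `summable_exp_mul_sq`, `Complex.summable...` used in the proof of `tsum_exp_neg_quadratic`. -/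
theorem ph_gauss_summable (x : ℝ) : Summable fun c : ℤ => Real.exp (-(x + 2 * Real.pi * (c : ℝ)) ^ 2 / 2) := by
  have h1 : Summable (fun c : ℤ => jacobiTheta₂_term c ((x : ℂ) * Complex.I)
      (((2 * Real.pi : ℝ) : ℂ) * Complex.I)) := by
    rw [summable_jacobiTheta₂_term_iff]
    simp
    positivity
  have h2 := (h1.norm).mul_left (Real.exp (-x ^ 2 / 2))
  refine h2.congr fun c => ?_
  rw [norm_jacobiTheta₂_term, ← Real.exp_add]
  congr 1
  simp
  ring

/-- L-PH-A2 (Mathlib only). -/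
theorem ph_gauss_summable' : Summable fun q : ℤ => Real.exp (-(q : ℝ) ^ 2 / 2) := by
  have h1 : Summable (fun c : ℤ => jacobiTheta₂_term c 0
      ((((2 * Real.pi)⁻¹ : ℝ) : ℂ) * Complex.I)) := by
    rw [summable_jacobiTheta₂_term_iff]
    simp
    positivity
  refine (h1.norm).congr fun c => ?_
  rw [norm_jacobiTheta₂_term]
  congr 1
  simp
  field_simp

section

variable {O : Type} [Fintype O]

theorem secW_eq_prod (q : O → ℤ) : secW q = ∏ o, Real.exp (-(q o : ℝ) ^ 2 / 2) := by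
  unfold secW
  rw [← Real.exp_sum]
  congr 1
  rw [← Finset.sum_neg_distrib, Finset.sum_div]

/-- L-PH-A3.  `secW q = ∏ o, exp(-q_o²/2)` (`Real.exp_sum`), `ph_tsum_pi` / `Rsd.cs_real_tsum_pi`, `ph_gauss_summable'`. -/
theorem secW_summable : Summable fun q : O → ℤ => secW q := by
  have h := (ph_tsum_pi (O := O) (fun _ (j : ℤ) => ((Real.exp (-(j : ℝ) ^ 2 / 2) : ℝ) : ℂ)) fun _ => by
    simpa only [Complex.norm_real, Real.norm_eq_abs, abs_of_pos (Real.exp_pos _)] using ph_gauss_summable').1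
  refine h.congr fun q => ?_
  rw [secW_eq_prod, norm_prod]
  refine Finset.prod_congr rfl fun o _ => ?_
  rw [Complex.norm_real, Real.norm_eq_abs, abs_of_pos (Real.exp_pos _)]

theorem secW_pos (q : O → ℤ) : 0 < secW q := Real.exp_pos _

/-- L-PH-A3.  **Poisson summation on `ℤ^O`**, real form with a phase `t`.  Both sides are real parts: `e^{it} ∏_o ∑_c exp(-(x_o+2πc)²/2) = e^{it} ∏_o (2π)^{-1/2} ∑_q e^{-q²/2} e^{iq x_o}` (`ph_poisson1`), expand both products by `ph_tsum_pi`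
(`∏_o e^{i q_o x_o} = e^{i ∑ q_o x_o}`: `Complex.exp_sum`), take real parts (`Complex.re_tsum`/`Complex.hasSum_re`, `Complex.exp_ofReal_mul_I_re`). -/
theorem ph_poisson (x : O → ℝ) (t : ℝ) :
    Summable (fun c : O → ℤ => Real.exp (-(∑ o, (x o + 2 * Real.pi * (c o : ℝ)) ^ 2) / 2)) ∧
    (∑' c : O → ℤ, Real.exp (-(∑ o, (x o + 2 * Real.pi * (c o : ℝ)) ^ 2) / 2)) * Real.cos t =
      (Real.sqrt (2 * Real.pi))⁻¹ ^ Fintype.card O * ∑' q : O → ℤ, secW q * Real.cos (t + ∑ o, (q o : ℝ) * x o) := by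
  -- the left family
  have eL : ∀ c : O → ℤ, Real.exp (-(∑ o, (x o + 2 * Real.pi * (c o : ℝ)) ^ 2) / 2) =
      ∏ o, Real.exp (-(x o + 2 * Real.pi * (c o : ℝ)) ^ 2 / 2) := fun c => by
    rw [← Real.exp_sum]
    congr 1
    rw [← Finset.sum_neg_distrib, Finset.sum_div]
  have hL := ph_tsum_pi (O := O) (fun o (j : ℤ) => ((Real.exp (-(x o + 2 * Real.pi * (j : ℝ)) ^ 2 / 2) : ℝ) : ℂ))
    fun o => by
      simpa only [Complex.norm_real, Real.norm_eq_abs, abs_of_pos (Real.exp_pos _)] using ph_gauss_summable (x o)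
  have hsL : Summable (fun c : O → ℤ => Real.exp (-(∑ o, (x o + 2 * Real.pi * (c o : ℝ)) ^ 2) / 2)) := by
    refine hL.1.congr fun c => ?_
    rw [eL, norm_prod]
    refine Finset.prod_congr rfl fun o _ => ?_
    rw [Complex.norm_real, Real.norm_eq_abs, abs_of_pos (Real.exp_pos _)]
  refine ⟨hsL, ?_⟩
  -- the right family
  have hnR : ∀ (o : O) (j : ℤ), ‖((Real.exp (-(j : ℝ) ^ 2 / 2) : ℝ) : ℂ) * Complex.exp (Complex.I * (((j : ℝ) * x o : ℝ) : ℂ))‖ =
      Real.exp (-(j : ℝ) ^ 2 / 2) := fun o j => by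
    rw [norm_mul, Complex.norm_real, Real.norm_eq_abs, abs_of_pos (Real.exp_pos _), mul_comm Complex.I,
      Complex.norm_exp_ofReal_mul_I, mul_one]
  have hR := ph_tsum_pi (O := O) (fun o (j : ℤ) => ((Real.exp (-(j : ℝ) ^ 2 / 2) : ℝ) : ℂ) *
    Complex.exp (Complex.I * (((j : ℝ) * x o : ℝ) : ℂ))) fun o => by
      simpa only [hnR] using ph_gauss_summable'
  have eR : ∀ q : O → ℤ, ∏ o, (((Real.exp (-(q o : ℝ) ^ 2 / 2) : ℝ) : ℂ) *
      Complex.exp (Complex.I * (((q o : ℝ) * x o : ℝ) : ℂ))) =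
      (secW q : ℂ) * Complex.exp (((∑ o, (q o : ℝ) * x o : ℝ) : ℂ) * Complex.I) := fun q => by
    rw [Finset.prod_mul_distrib, secW_eq_prod, Complex.ofReal_prod, ← Complex.exp_sum]
    congr 2
    rw [Complex.ofReal_sum, Finset.sum_mul]
    exact Finset.sum_congr rfl fun o _ => mul_comm _ _
  -- the complex identity
  have key : ((∑' c : O → ℤ, Real.exp (-(∑ o, (x o + 2 * Real.pi * (c o : ℝ)) ^ 2) / 2) : ℝ) : ℂ) =
      (((Real.sqrt (2 * Real.pi))⁻¹ ^ Fintype.card O : ℝ) : ℂ) *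
        ∑' q : O → ℤ, (secW q : ℂ) * Complex.exp (((∑ o, (q o : ℝ) * x o : ℝ) : ℂ) * Complex.I) := by
    rw [Complex.ofReal_tsum]
    simp only [eL, Complex.ofReal_prod]
    rw [hL.2]
    simp only [ph_poisson1]
    rw [Finset.prod_mul_distrib, Finset.prod_const, Finset.card_univ, ← hR.2]
    simp only [eR]
    push_cast
    rfl
  have hsR : Summable fun q : O → ℤ => (secW q : ℂ) * Complex.exp (((∑ o, (q o : ℝ) * x o : ℝ) : ℂ) * Complex.I) := by
    refine Summable.of_norm ?_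
    refine hR.1.congr fun q => ?_
    rw [eR]
  have h2 := congrArg (fun w : ℂ => (w * Complex.exp ((t : ℂ) * Complex.I)).re) key
  beta_reduce at h2
  rw [Complex.re_ofReal_mul, Complex.exp_ofReal_mul_I_re] at h2
  rw [h2, mul_assoc, Complex.re_ofReal_mul, ← tsum_mul_right, Complex.re_tsum (hsR.mul_right _)]
  congr 1
  refine tsum_congr fun q => ?_
  rw [mul_assoc, Complex.re_ofReal_mul, ← Complex.exp_add, ← add_mul, ← Complex.ofReal_add,
    Complex.exp_ofReal_mul_I_re, add_comm]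

/-! ## 2. The soft extension -/

theorem rowS_apply {S₀ : LSys} (ℓ : O → S₀.L →+ ℝ) (d : O → ℝ) (z : S₀.L) : rowS ℓ d z = ∑ o, d o * ℓ o z := by
  simp [rowS]

/-- L-PH-A4.  `Rsd.kit_ok_of_le` with the family `Fin n ⊕ O → Amb`: `softHom (v_i, 0)`, `softHom (0, e_o)` (`v` = the basis of `S₀.L` given by `hS`; lift `v i` to `S₀.L` by `AddSubgroup.subset_closure`).
Real linear independence: block triangular (`∑ a_i real(v_i) = 0` in the old coordinates gives `a = 0`; then `2π c_o = 0`).  `L ≤ closure`: `softHom` is additive, `S₀.L × ℤ^O` is generated by the two families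
(`AddSubgroup.closure_induction` on the first component, `Pi.single` decomposition on the second). -/
theorem soft_ok (S₀ : LSys) (hS : S₀.Ok) (ℓ : O → S₀.L →+ ℝ) : (soft S₀ ℓ).Ok := by
  obtain ⟨hb, n, v, hv, hL⟩ := hS
  have hmem : ∀ i, v i ∈ S₀.L := fun i => hL ▸ AddSubgroup.subset_closure ⟨i, rfl⟩
  let V : Fin n → S₀.L := fun i => ⟨v i, hmem i⟩
  let w : Fin n ⊕ O → (soft S₀ ℓ).Amb :=
    Sum.elim (fun i => softHom S₀ ℓ (V i, 0)) (fun o => softHom S₀ ℓ (0, Pi.single o 1))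
  refine Rsd.kit_ok_of_le (soft S₀ ℓ) hb w ?_ ?_
  · rw [Fintype.linearIndependent_iff]
    intro a ha
    rw [Fintype.sum_sum_type] at ha
    have ha' : (∑ i, a (Sum.inl i) • (((fun e => ((v i).1 e : ℝ)), Sum.elim (v i).2 fun o => ℓ o (V i) + 2 * Real.pi * ((0 : ℤ) : ℝ)) : (S₀.E → ℝ) × (S₀.O ⊕ O → ℝ))) +
        ∑ o', a (Sum.inr o') • (((fun e => ((0 : ℤ) : ℝ)), Sum.elim 0 fun o => ℓ o 0 + 2 * Real.pi * (((Pi.single o' (1:ℤ) : O → ℤ) o : ℤ) : ℝ)) : (S₀.E → ℝ) × (S₀.O ⊕ O → ℝ)) = 0 := ha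
    clear ha
    have h1 : ∀ e : S₀.E, ∑ i, a (Sum.inl i) * ((v i).1 e : ℝ) = 0 := by
      intro e
      have := congrFun (congrArg Prod.fst ha') e
      simpa [Prod.fst_sum, Finset.sum_apply] using this
    have h2 : ∀ o : S₀.O, ∑ i, a (Sum.inl i) * ((v i).2 o) = 0 := by
      intro o
      have := congrFun (congrArg Prod.snd ha') (Sum.inl o)
      simpa [Prod.snd_sum, Finset.sum_apply] using this
    have h3 : ∑ i, a (Sum.inl i) • S₀.real (v i) = 0 := by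
      ext x
      · simpa [LSys.real, Finset.sum_apply, Prod.fst_sum, Prod.snd_sum] using h1 x
      · simpa [LSys.real, Finset.sum_apply, Prod.fst_sum, Prod.snd_sum] using h2 x
    have h4 := Fintype.linearIndependent_iff.1 hv (fun i => a (Sum.inl i)) h3
    have h5 : ∀ o : O, a (Sum.inr o) = 0 := by
      intro o
      have := congrFun (congrArg Prod.snd ha') (Sum.inr o)
      simp only [h4, zero_smul, Finset.sum_const_zero, zero_add] at this
      have h6 : ∑ o', a (Sum.inr o') * (2 * Real.pi * ((Pi.single o' (1:ℤ) : O → ℤ) o : ℝ)) = 0 := by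
        simpa [Prod.snd_sum, Finset.sum_apply] using this
      rw [Finset.sum_eq_single o] at h6
      · simpa [Real.pi_ne_zero] using h6
      · intro o' _ ho
        simp [Ne.symm ho]
      · intro h; exact absurd (Finset.mem_univ o) h
    rintro (i | o)
    · exact h4 i
    · exact h5 o
  · rintro _ ⟨⟨z, c⟩, rfl⟩
    have e1 : ((z, c) : S₀.L × (O → ℤ)) = (z, 0) + (0, c) := by simp
    rw [e1, map_add]
    refine add_mem ?_ ?_
    · obtain ⟨z, hz⟩ := z
      have hz' : z ∈ AddSubgroup.closure (Set.range v) := hL ▸ hz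
      have key : ∀ (x : S₀.Amb) (hx : x ∈ AddSubgroup.closure (Set.range v)),
          softHom S₀ ℓ ((⟨x, hL ▸ hx⟩ : S₀.L), 0) ∈ AddSubgroup.closure (Set.range w) := by
        intro x hx
        induction hx using AddSubgroup.closure_induction with
        | mem x hx =>
          obtain ⟨i, rfl⟩ := hx
          exact AddSubgroup.subset_closure ⟨Sum.inl i, rfl⟩
        | zero =>
          have : (((⟨0, hL ▸ zero_mem _⟩ : S₀.L), 0) : S₀.L × (O → ℤ)) = 0 := rfl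
          rw [this, map_zero]
          exact zero_mem _
        | add x y hx hy ihx ihy =>
          have : (((⟨x + y, hL ▸ add_mem hx hy⟩ : S₀.L), 0) : S₀.L × (O → ℤ)) =
            ((⟨x, hL ▸ hx⟩ : S₀.L), 0) + ((⟨y, hL ▸ hy⟩ : S₀.L), 0) := by
            ext <;> simp
          rw [this, map_add]
          exact add_mem ihx ihy
        | neg x hx ihx =>
          have : (((⟨-x, hL ▸ neg_mem hx⟩ : S₀.L), 0) : S₀.L × (O → ℤ)) =
            -((⟨x, hL ▸ hx⟩ : S₀.L), 0) := by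
            ext <;> simp
          rw [this, map_neg]
          exact neg_mem ihx
      exact key z hz'
    · have e2 : ((0, c) : S₀.L × (O → ℤ)) = ∑ o, c o • ((0, Pi.single o 1) : S₀.L × (O → ℤ)) := by
        ext x
        · simp [Prod.fst_sum]
        · simp [Prod.fst_sum]
        · simp [Prod.snd_sum, Finset.sum_apply, Pi.single_apply]
      rw [e2, map_sum]
      refine sum_mem fun o _ => ?_
      rw [map_zsmul]
      exact zsmul_mem (AddSubgroup.subset_closure (Set.mem_range.2 ⟨Sum.inr o, rfl⟩)) _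

theorem softPr_equiv (S₀ : LSys) (ℓ : O → S₀.L →+ ℝ) (p : S₀.L × (O → ℤ)) :
    softPr S₀ ℓ (softEquiv S₀ ℓ p) = p.1 := by
  show ((softEquiv S₀ ℓ).symm (softEquiv S₀ ℓ p)).1 = p.1
  rw [AddEquiv.symm_apply_apply]

theorem soft_W (S₀ : LSys) (ℓ : O → S₀.L →+ ℝ) (p : S₀.L × (O → ℤ)) :
    (soft S₀ ℓ).W (((softEquiv S₀ ℓ p : (soft S₀ ℓ).L) : (soft S₀ ℓ).Amb) + 0) =
      S₀.W ((p.1 : S₀.Amb) + 0) * Real.exp (-(∑ o, (ℓ o p.1 + 2 * Real.pi * (p.2 o : ℝ)) ^ 2) / 2) := by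
  rw [add_zero, add_zero]
  show (∏ e : S₀.E, bes (S₀.b e) ((p.1 : S₀.Amb).1 e)) *
      Real.exp (-(∑ o : S₀.O ⊕ O, (Sum.elim (p.1 : S₀.Amb).2 (fun o => ℓ o p.1 + 2 * Real.pi * (p.2 o : ℝ)) o) ^ 2) / 2) =
    ((∏ e : S₀.E, bes (S₀.b e) ((p.1 : S₀.Amb).1 e)) * Real.exp (-(∑ o, (p.1 : S₀.Amb).2 o ^ 2) / 2)) * _
  rw [Fintype.sum_sum_type, mul_assoc, ← Real.exp_add]
  congr 2
  simp only [Sum.elim_inl, Sum.elim_inr]
  ring

theorem soft_Zf (S₀ : LSys) (ℓ : O → S₀.L →+ ℝ) (Φ : S₀.L → ℝ) :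
    (soft S₀ ℓ).Zf 0 (fun z => Φ (softPr S₀ ℓ z)) = ∑' p : S₀.L × (O → ℤ), Φ p.1 *
      (S₀.W ((p.1 : S₀.Amb) + 0) * Real.exp (-(∑ o, (ℓ o p.1 + 2 * Real.pi * (p.2 o : ℝ)) ^ 2) / 2)) := by
  unfold LSys.Zf
  rw [← (softEquiv S₀ ℓ).toEquiv.tsum_eq]
  refine tsum_congr fun p => ?_
  have h1 := softPr_equiv S₀ ℓ p
  have h2 := soft_W S₀ ℓ p
  simp only [AddEquiv.toEquiv_eq_coe, EquivLike.coe_coe]
  rw [h1, h2]

/-- the periodised Gaussian is bounded -/
theorem ph_gsum_le (x : O → ℝ) :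
    ∑' c : O → ℤ, Real.exp (-(∑ o, (x o + 2 * Real.pi * (c o : ℝ)) ^ 2) / 2) ≤
      (Real.sqrt (2 * Real.pi))⁻¹ ^ Fintype.card O * secTheta O := by
  have h := (ph_poisson x 0).2
  rw [Real.cos_zero, mul_one] at h
  rw [h]
  refine mul_le_mul_of_nonneg_left ?_ (by positivity)
  have hs : Summable fun q : O → ℤ => secW q * Real.cos (0 + ∑ o, (q o : ℝ) * x o) := by
    refine Summable.of_norm_bounded secW_summable fun q => ?_
    rw [norm_mul, Real.norm_eq_abs, Real.norm_eq_abs, abs_of_pos (secW_pos q)]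
    exact mul_le_of_le_one_right (secW_pos q).le (Real.abs_cos_le_one _)
  refine hs.tsum_le_tsum (fun q => ?_) secW_summable
  exact mul_le_of_le_one_right (secW_pos q).le (Real.cos_le_one _)

/-- Poisson summation in every fibre of an absolutely summable family + Fubini -/
theorem ph_sector_abs {Z : Type} (x : Z → O → ℝ) (t a : Z → ℝ) (ha : Summable fun z => |a z|) :
    ∑' p : Z × (O → ℤ), a p.1 * Real.cos (t p.1) *
        Real.exp (-(∑ o, (x p.1 o + 2 * Real.pi * (p.2 o : ℝ)) ^ 2) / 2) =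
      (Real.sqrt (2 * Real.pi))⁻¹ ^ Fintype.card O *
        ∑' q : O → ℤ, secW q * ∑' z, a z * Real.cos (t z + ∑ o, (q o : ℝ) * x z o) := by
  obtain ⟨K, hK⟩ : ∃ K : ℝ, K = (Real.sqrt (2 * Real.pi))⁻¹ ^ Fintype.card O := ⟨_, rfl⟩
  have hK0 : 0 ≤ K := by rw [hK]; positivity
  rw [← hK]
  obtain ⟨Gf, hGf⟩ : ∃ Gf : Z → (O → ℤ) → ℝ, ∀ z c, Gf z c =
      Real.exp (-(∑ o, (x z o + 2 * Real.pi * (c o : ℝ)) ^ 2) / 2) := ⟨_, fun _ _ => rfl⟩
  simp only [← hGf]
  have hG0 : ∀ z c, 0 ≤ Gf z c := fun z c => by rw [hGf]; exact (Real.exp_pos _).le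
  have hGs : ∀ z, Summable (Gf z) := fun z => by
    have := (ph_poisson (x z) 0).1
    exact this.congr fun c => (hGf z c).symm
  have hGle : ∀ z, ∑' c, Gf z c ≤ K * secTheta O := fun z => by
    have := ph_gsum_le (x z)
    rw [← hK] at this
    simpa only [hGf] using this
  have hs1 : Summable fun p : Z × (O → ℤ) => a p.1 * Real.cos (t p.1) * Gf p.1 p.2 := by
    have hb : Summable fun p : Z × (O → ℤ) => |a p.1| * Gf p.1 p.2 := by
      have h1 : ∀ z, Summable fun c => |a z| * Gf z c := fun z => (hGs z).mul_left _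
      have h2 : Summable fun z => ∑' c, |a z| * Gf z c := by
        simp only [tsum_mul_left]
        refine Summable.of_nonneg_of_le (fun z => mul_nonneg (abs_nonneg _) (tsum_nonneg (hG0 z)))
          (fun z => ?_) (ha.mul_right (K * secTheta O))
        exact mul_le_mul_of_nonneg_left (hGle z) (abs_nonneg _)
      exact (summable_prod_of_nonneg (f := fun p : Z × (O → ℤ) => |a p.1| * Gf p.1 p.2)
        fun p => mul_nonneg (abs_nonneg _) (hG0 _ _)).2 ⟨h1, h2⟩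
    refine Summable.of_norm_bounded hb fun p => ?_
    rw [norm_mul, norm_mul, Real.norm_eq_abs, Real.norm_eq_abs, Real.norm_eq_abs, abs_of_nonneg (hG0 _ _)]
    refine mul_le_mul_of_nonneg_right ?_ (hG0 _ _)
    exact mul_le_of_le_one_right (abs_nonneg _) (Real.abs_cos_le_one _)
  rw [hs1.tsum_prod]
  have e2 : ∀ z : Z, ∑' c, a z * Real.cos (t z) * Gf z c =
      K * ∑' q : O → ℤ, secW q * (a z * Real.cos (t z + ∑ o, (q o : ℝ) * x z o)) := by
    intro z
    have h := (ph_poisson (x z) (t z)).2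
    rw [← hK] at h
    simp only [← hGf] at h
    rw [tsum_mul_left]
    calc a z * Real.cos (t z) * ∑' c : O → ℤ, Gf z c
        = a z * ((∑' c : O → ℤ, Gf z c) * Real.cos (t z)) := by ring
      _ = K * (a z * ∑' q : O → ℤ, secW q * Real.cos (t z + ∑ o, (q o : ℝ) * x z o)) := by rw [h]; ring
      _ = _ := by
        rw [← tsum_mul_left]
        congr 1
        refine tsum_congr fun q => ?_
        ring
  simp only [e2]
  rw [tsum_mul_left]
  congr 1
  have hs2 : Summable (Function.uncurry fun (z : Z) (q : O → ℤ) =>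
      secW q * (a z * Real.cos (t z + ∑ o, (q o : ℝ) * x z o))) := by
    have hb := ha.mul_of_nonneg (secW_summable (O := O)) (fun z => abs_nonneg _) (fun q => (secW_pos q).le)
    refine Summable.of_norm_bounded hb fun p => ?_
    show ‖secW p.2 * (a p.1 * Real.cos (t p.1 + ∑ o, (p.2 o : ℝ) * x p.1 o))‖ ≤ _
    rw [norm_mul, norm_mul, Real.norm_eq_abs, Real.norm_eq_abs, Real.norm_eq_abs, abs_of_pos (secW_pos _), mul_comm]
    refine mul_le_mul_of_nonneg_right ?_ (secW_pos _).le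
    exact mul_le_of_le_one_right (abs_nonneg _) (Real.abs_cos_le_one _)
  rw [← hs2.tsum_comm]
  refine tsum_congr fun q => ?_
  rw [tsum_mul_left]

/-- L-PH-A5.  **Sectors** = [C](2.11).  Reindex `Zf` of the soft system by `softEquiv` (`Equiv.tsum_eq`); `W_soft (softHom (z,c)) = W₀ z · exp(-∑_o (ℓ_o z + 2π c_o)²/2)` (`Fintype.sum_sum_type`, `Real.exp_add`);
sum over `c` first (`Summable.tsum_prod'`; summability: `rd_dom_summable` for `F`, times the bounded function `∑_c`), `ph_poisson` with `x = ℓ z`, `t = θ z`, then exchange `∑_z ∑_q` (`Summable.tsum_comm'`; the double family is bounded by `|F z| W₀ z · secW q`). -/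
theorem soft_sector (S₀ : LSys) (hS : S₀.Ok) (ℓ : O → S₀.L →+ ℝ) (F : S₀.L → ℝ) (hF : S₀.Dom F) (θ : S₀.L →+ ℝ) :
    (soft S₀ ℓ).Zf 0 (fun z => F (softPr S₀ ℓ z) * Real.cos (θ (softPr S₀ ℓ z))) =
      (Real.sqrt (2 * Real.pi))⁻¹ ^ Fintype.card O *
        ∑' q : O → ℤ, secW q * S₀.Zf 0 fun z => F z * Real.cos ((θ + rowS ℓ fun o => (q o : ℝ)) z) := by
  have hFs : Summable fun z : S₀.L => |F z * S₀.W ((z : S₀.Amb) + 0)| := by
    refine (rd_dom_summable hS (rd_dom_abs hF) 0).congr fun z => ?_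
    rw [abs_mul, abs_of_pos (rd_W_pos hS _)]
  have h := ph_sector_abs (fun (z : S₀.L) o => ℓ o z) (fun z => θ z) (fun z => F z * S₀.W ((z : S₀.Amb) + 0)) hFs
  rw [soft_Zf S₀ ℓ (fun z => F z * Real.cos (θ z))]
  refine Eq.trans (tsum_congr fun p => ?_) (h.trans ?_)
  · ring
  · congr 1
    refine tsum_congr fun q => ?_
    congr 1
    unfold LSys.Zf
    refine tsum_congr fun z => ?_
    show _ = F z * Real.cos ((θ + rowS ℓ fun o => (q o : ℝ)) z) * S₀.W ((z : S₀.Amb) + 0)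
    rw [AddMonoidHom.add_apply, rowS_apply]
    ring

theorem secSum_term_nonneg (S₀ : LSys) (hS : S₀.Ok) (ℓ : O → S₀.L →+ ℝ) (θ : S₀.L →+ ℝ) (q : O → ℤ) :
    0 ≤ secW q * S₀.phi (θ + rowS ℓ fun o => (q o : ℝ)) :=
  mul_nonneg (secW_pos q).le (rd_phi_nonneg hS _)

theorem secSum_term_le (S₀ : LSys) (hS : S₀.Ok) (ℓ : O → S₀.L →+ ℝ) (θ : S₀.L →+ ℝ) (q : O → ℤ) :
    secW q * S₀.phi (θ + rowS ℓ fun o => (q o : ℝ)) ≤ secW q := by
  have := mul_le_mul_of_nonneg_left (lsys_phi_le_one S₀ hS (θ + rowS ℓ fun o => (q o : ℝ))) (secW_pos q).le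
  rwa [mul_one] at this

/-- L-PH-A6.  Terms `≥ 0` (`rd_phi_nonneg`), `≤ secW q` (`lsys_phi_le_one`). -/
theorem secSum_summable (S₀ : LSys) (hS : S₀.Ok) (ℓ : O → S₀.L →+ ℝ) (θ : S₀.L →+ ℝ) :
    Summable fun q : O → ℤ => secW q * S₀.phi (θ + rowS ℓ fun o => (q o : ℝ)) := by
  exact Summable.of_nonneg_of_le (secSum_term_nonneg S₀ hS ℓ θ) (secSum_term_le S₀ hS ℓ θ) secW_summable

theorem secSum_term_zero (S₀ : LSys) (hS : S₀.Ok) (ℓ : O → S₀.L →+ ℝ) :
    secW (0 : O → ℤ) * S₀.phi (0 + rowS ℓ fun o => (((0 : O → ℤ) o : ℤ) : ℝ)) = 1 := by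
  have h1 : rowS ℓ (fun o => (((0 : O → ℤ) o : ℤ) : ℝ)) = 0 := by
    simp [rowS]
  rw [h1, add_zero, rd_phi_zero hS, mul_one]
  simp [secW]

/-- L-PH-A6.  The term `q = 0` is `1` (`rd_phi_zero`). -/
theorem secSum_one_le (S₀ : LSys) (hS : S₀.Ok) (ℓ : O → S₀.L →+ ℝ) : 1 ≤ secSum S₀ ℓ 0 := by
  have h := (secSum_summable S₀ hS ℓ 0).le_tsum (0 : O → ℤ) fun q _ => secSum_term_nonneg S₀ hS ℓ 0 q
  rw [secSum_term_zero S₀ hS ℓ] at h
  exact h

/-- L-PH-A6. -/
theorem secSum_le_theta (S₀ : LSys) (hS : S₀.Ok) (ℓ : O → S₀.L →+ ℝ) (θ : S₀.L →+ ℝ) : secSum S₀ ℓ θ ≤ secTheta O := by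
  exact (secSum_summable S₀ hS ℓ θ).tsum_le_tsum (secSum_term_le S₀ hS ℓ θ) secW_summable

/-- L-PH-A6.  `Summable.sum_le_tsum`. -/
theorem secSum_ge_sum (S₀ : LSys) (hS : S₀.Ok) (ℓ : O → S₀.L →+ ℝ) (θ : S₀.L →+ ℝ) (A : Finset (O → ℤ)) :
    ∑ q ∈ A, secW q * S₀.phi (θ + rowS ℓ fun o => (q o : ℝ)) ≤ secSum S₀ ℓ θ := by
  exact (secSum_summable S₀ hS ℓ θ).sum_le_tsum A fun q _ => secSum_term_nonneg S₀ hS ℓ θ q

/-- L-PH-A6.  **The denominator tends to one**: `tendsto_tsum_of_dominated_convergence` with the bound `secW`; the limit family is `if q = 0 then 1 else 0` (`tsum_ite_eq`). -/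
theorem secSum_tendsto_one (S : ℕ → LSys) (hS : ∀ k, (S k).Ok) (ℓ : ∀ k, O → (S k).L →+ ℝ)
    (h : ∀ q : O → ℤ, q ≠ 0 → Tendsto (fun k => (S k).phi (rowS (ℓ k) fun o => (q o : ℝ))) atTop (𝓝 0)) :
    Tendsto (fun k => secSum (S k) (ℓ k) 0) atTop (𝓝 1) := by
  have h1 : (1 : ℝ) = ∑' q : O → ℤ, if q = 0 then (1 : ℝ) else 0 := (tsum_ite_eq 0 (fun _ => (1 : ℝ))).symm
  rw [h1]
  refine tendsto_tsum_of_dominated_convergence (bound := fun q : O → ℤ => secW q) secW_summable ?_ ?_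
  · intro q
    by_cases hq : q = 0
    · rw [if_pos hq, hq]
      simp only [secSum_term_zero _ (hS _)]
      exact tendsto_const_nhds
    · rw [if_neg hq]
      have := (h q hq).const_mul (secW q)
      simpa only [mul_zero, zero_add] using this
  · refine Filter.Eventually.of_forall fun k q => ?_
    rw [Real.norm_eq_abs, abs_of_nonneg (secSum_term_nonneg _ (hS k) _ _ q)]
    exact secSum_term_le _ (hS k) _ _ q

/-- `soft_sector` in normalised form -/
theorem soft_sector_E0 (S₀ : LSys) (hS : S₀.Ok) (ℓ : O → S₀.L →+ ℝ) (F : S₀.L → ℝ) (hF : S₀.Dom F) (θ : S₀.L →+ ℝ) :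
    (soft S₀ ℓ).Zf 0 (fun z => F (softPr S₀ ℓ z) * Real.cos (θ (softPr S₀ ℓ z))) =
      ((Real.sqrt (2 * Real.pi))⁻¹ ^ Fintype.card O * S₀.w 0) *
        ∑' q : O → ℤ, secW q * S₀.E0 fun z => F z * Real.cos ((θ + rowS ℓ fun o => (q o : ℝ)) z) := by
  rw [soft_sector S₀ hS ℓ F hF θ, mul_assoc, ← tsum_mul_left (a := S₀.w 0)]
  congr 1
  refine tsum_congr fun q => ?_
  rw [rd_E0_eq]
  have := (rd_w_pos hS 0).ne'
  field_simp

theorem soft_w (S₀ : LSys) (hS : S₀.Ok) (ℓ : O → S₀.L →+ ℝ) :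
    (soft S₀ ℓ).w 0 = ((Real.sqrt (2 * Real.pi))⁻¹ ^ Fintype.card O * S₀.w 0) * secSum S₀ ℓ 0 := by
  have h := soft_sector_E0 S₀ hS ℓ (fun _ => 1) (rd_dom_const 1) 0
  simp only [AddMonoidHom.zero_apply, Real.cos_zero, mul_one, one_mul] at h
  exact h

/-- L-PH-A7.  `soft_sector` with `F = 1` for `θ` and for `0`; `rd_E0_eq`, `rd_Zf_cos`; the constants `(2π)^{-|O|/2}` and `w₀(0)` cancel. -/
theorem soft_phi (S₀ : LSys) (hS : S₀.Ok) (ℓ : O → S₀.L →+ ℝ) (θ : S₀.L →+ ℝ) :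
    (soft S₀ ℓ).phi (θ.comp (softPr S₀ ℓ)) = secSum S₀ ℓ θ / secSum S₀ ℓ 0 := by
  have h := soft_sector_E0 S₀ hS ℓ (fun _ => 1) (rd_dom_const 1) θ
  simp only [one_mul] at h
  have hK : ((Real.sqrt (2 * Real.pi))⁻¹ ^ Fintype.card O * S₀.w 0) ≠ 0 :=
    mul_ne_zero (by positivity) (rd_w_pos hS 0).ne'
  show (soft S₀ ℓ).E0 (fun z => Real.cos (θ (softPr S₀ ℓ z))) = _
  rw [rd_E0_eq, h, soft_w S₀ hS ℓ, mul_div_mul_left _ _ hK]
  rfl

/-- L-PH-A7.  `soft_sector` with `F = T²`, `θ = 0`; `rd_V0_eq`. -/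
theorem soft_var (S₀ : LSys) (hS : S₀.Ok) (ℓ : O → S₀.L →+ ℝ) (T : S₀.L →+ ℝ) :
    (soft S₀ ℓ).V0 (T.comp (softPr S₀ ℓ)) =
      (∑' q : O → ℤ, secW q * S₀.E0 fun z => T z ^ 2 * Real.cos (rowS ℓ (fun o => (q o : ℝ)) z)) / secSum S₀ ℓ 0 := by
  have h := soft_sector_E0 S₀ hS ℓ (fun z => T z ^ 2) (rd_dom_pow (rd_dom_test T) 2) 0
  simp only [AddMonoidHom.zero_apply, Real.cos_zero, mul_one, zero_add] at h
  have hK : ((Real.sqrt (2 * Real.pi))⁻¹ ^ Fintype.card O * S₀.w 0) ≠ 0 :=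
    mul_ne_zero (by positivity) (rd_w_pos hS 0).ne'
  rw [rd_V0_eq]
  show (soft S₀ ℓ).E0 (fun z => T (softPr S₀ ℓ z) ^ 2) = _
  rw [rd_E0_eq, h, soft_w S₀ hS ℓ, mul_div_mul_left _ _ hK]

end

theorem ph_cos_taylor (x : ℝ) : |Real.cos x - 1 + x ^ 2 / 2| ≤ 3 * |x| ^ 3 := by
  rcases le_total |x| 1 with h | h
  · have h1 := Real.cos_bound h
    have h2 : Real.cos x - 1 + x ^ 2 / 2 = Real.cos x - (1 - x ^ 2 / 2) := by ring
    rw [h2]
    refine h1.trans ?_
    have h0 := abs_nonneg x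
    have h3 : |x| ^ 4 ≤ |x| ^ 3 := by
      have : |x| ^ 4 = |x| ^ 3 * |x| := by ring
      rw [this]
      exact mul_le_of_le_one_right (by positivity) h
    have h4 : 0 ≤ |x| ^ 3 := by positivity
    linarith
  · have h1 : |Real.cos x - 1 + x ^ 2 / 2| ≤ 2 + |x| ^ 2 / 2 := by
      rw [abs_le]
      have := Real.neg_one_le_cos x
      have := Real.cos_le_one x
      have h5 : |x| ^ 2 = x ^ 2 := sq_abs x
      have := sq_nonneg x
      constructor <;> linarith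
    refine h1.trans ?_
    have h2 : |x| ^ 2 ≤ |x| ^ 3 := pow_le_pow_right₀ h (by norm_num)
    have h3 : 1 ≤ |x| ^ 3 := one_le_pow₀ h
    linarith

theorem ph_sin_taylor (x : ℝ) : |Real.sin x - x| ≤ 3 * |x| ^ 3 := by
  rcases le_total |x| 1 with h | h
  · have h1 := Real.sin_bound h
    have h0 := abs_nonneg x
    have h3 : |x| ^ 5 ≤ |x| ^ 3 := pow_le_pow_of_le_one h0 h (by norm_num)
    have h4 : 0 ≤ |x| ^ 3 := by positivity
    have h5 : Real.sin x - x = (Real.sin x - (x - x ^ 3 / 6)) + (-(x ^ 3 / 6)) := by ring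
    rw [h5]
    refine (abs_add_le _ _).trans ?_
    have h6 : |-(x ^ 3 / 6)| = |x| ^ 3 / 6 := by
      rw [abs_neg, abs_div, abs_pow]
      norm_num
    rw [h6]
    linarith
  · have h1 : |Real.sin x - x| ≤ 1 + |x| := by
      refine (abs_sub _ _).trans ?_
      have := Real.abs_sin_le_one x
      linarith
    refine h1.trans ?_
    have h2 : |x| ≤ |x| ^ 3 := by
      have := pow_le_pow_right₀ h (show 1 ≤ 3 by norm_num)
      simpa using this
    have h3 : 1 ≤ |x| ^ 3 := one_le_pow₀ h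
    linarith

/-- abstract comparison of the coefficients of `s²` -/
theorem ph_hess_abs {p c2 s1 V R : ℝ} {A B M : ℝ → ℝ} (hR : 0 ≤ R)
    (hA : ∀ s : ℝ, 0 < s → s ≤ 1 → |A s - (p - s ^ 2 / 2 * c2)| ≤ 3 * s ^ 3 * R)
    (hB : ∀ s : ℝ, 0 < s → s ≤ 1 → |B s - s * s1| ≤ 3 * s ^ 3 * R)
    (hM : ∀ s : ℝ, 0 < s → s ≤ 1 → 1 - s ^ 2 * V ≤ M s ^ 2)
    (h : ∀ s : ℝ, 0 < s → s ≤ 1 → p ^ 2 * M s ^ 2 ≤ (A s - B s) * (A s + B s)) :
    p * c2 + s1 ^ 2 ≤ V * p ^ 2 := by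
  refine rd_le_of_cubic (K := c2 ^ 2 / 4 + 6 * R * (|p| + |c2|) + 9 * R ^ 2 + 6 * |s1| * R) fun s hs0 hs1 => ?_
  obtain ⟨rA, hrA⟩ : ∃ rA, rA = A s - (p - s ^ 2 / 2 * c2) := ⟨_, rfl⟩
  obtain ⟨rB, hrB⟩ : ∃ rB, rB = B s - s * s1 := ⟨_, rfl⟩
  have bA := hA s hs0 hs1
  have bB := hB s hs0 hs1
  rw [← hrA] at bA
  rw [← hrB] at bB
  have eA : A s = p - s ^ 2 / 2 * c2 + rA := by rw [hrA]; ring
  have eB : B s = s * s1 + rB := by rw [hrB]; ring
  have h1 := h s hs0 hs1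
  have h2 : p ^ 2 * (1 - s ^ 2 * V) ≤ p ^ 2 * M s ^ 2 :=
    mul_le_mul_of_nonneg_left (hM s hs0 hs1) (sq_nonneg p)
  rw [eA, eB] at h1
  have hs3 : 0 < s ^ 3 := by positivity
  have hs4 : s ^ 4 ≤ s ^ 3 := pow_le_pow_of_le_one hs0.le hs1 (by norm_num)
  have hs6 : s ^ 6 ≤ s ^ 3 := pow_le_pow_of_le_one hs0.le hs1 (by norm_num)
  have hs2 : s ^ 2 ≤ 1 := pow_le_one₀ hs0.le hs1
  -- the error terms
  have c1 : s ^ 4 * (c2 ^ 2 / 4) ≤ c2 ^ 2 / 4 * s ^ 3 := by
    rw [mul_comm]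
    exact mul_le_mul_of_nonneg_left hs4 (by positivity)
  have c2' : 2 * (rA * (p - s ^ 2 / 2 * c2)) ≤ 6 * R * (|p| + |c2|) * s ^ 3 := by
    have t : |p - s ^ 2 / 2 * c2| ≤ |p| + |c2| := by
      refine (abs_sub _ _).trans ?_
      rw [abs_mul, abs_of_nonneg (by positivity : 0 ≤ s ^ 2 / 2)]
      have : s ^ 2 / 2 * |c2| ≤ 1 * |c2| := mul_le_mul_of_nonneg_right (by linarith) (abs_nonneg _)
      linarith
    have := (le_abs_self _).trans (rd_mul_le_of_abs bA t)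
    linarith
  have c3 : rA ^ 2 ≤ 9 * R ^ 2 * s ^ 3 := by
    have t : rA ^ 2 ≤ (3 * s ^ 3 * R) ^ 2 := sq_le_sq' (by linarith [(abs_le.1 bA).1]) (abs_le.1 bA).2
    have t2 : (3 * s ^ 3 * R) ^ 2 = 9 * R ^ 2 * s ^ 6 := by ring
    rw [t2] at t
    exact t.trans (mul_le_mul_of_nonneg_left hs6 (by positivity))
  have c4 : -(2 * ((s * s1) * rB)) ≤ 6 * |s1| * R * s ^ 3 := by
    have t : |s * s1| ≤ s * |s1| := by rw [abs_mul, abs_of_pos hs0]
    have t1 := (neg_le_abs _).trans (rd_mul_le_of_abs t bB)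
    have t2 : s * |s1| * (3 * s ^ 3 * R) = 3 * |s1| * R * s ^ 4 := by ring
    rw [t2] at t1
    have t3 : 3 * |s1| * R * s ^ 4 ≤ 3 * |s1| * R * s ^ 3 := mul_le_mul_of_nonneg_left hs4 (by positivity)
    linarith
  have c5 : 0 ≤ rB ^ 2 := sq_nonneg _
  have hid : (p - s ^ 2 / 2 * c2 + rA - (s * s1 + rB)) * (p - s ^ 2 / 2 * c2 + rA + (s * s1 + rB)) =
      p ^ 2 - (p * c2 + s1 ^ 2) * s ^ 2 + s ^ 4 * (c2 ^ 2 / 4) + 2 * (rA * (p - s ^ 2 / 2 * c2)) + rA ^ 2
        + -(2 * ((s * s1) * rB)) - rB ^ 2 := by ring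
  rw [hid] at h1
  have e3 : p ^ 2 * (1 - s ^ 2 * V) = p ^ 2 - V * p ^ 2 * s ^ 2 := by ring
  rw [e3] at h2
  have e4 : (c2 ^ 2 / 4 + 6 * R * (|p| + |c2|) + 9 * R ^ 2 + 6 * |s1| * R) * s ^ 3 =
      c2 ^ 2 / 4 * s ^ 3 + 6 * R * (|p| + |c2|) * s ^ 3 + 9 * R ^ 2 * s ^ 3 + 6 * |s1| * R * s ^ 3 := by ring
  rw [e4]
  linarith

theorem ph_E0_lin3 {S : LSys} (hS : S.Ok) {F G H : S.L → ℝ} (hF : S.Dom F) (hG : S.Dom G) (hH : S.Dom H) (a b : ℝ) :
    S.E0 (fun z => F z + a * G z + b * H z) = S.E0 F + a * S.E0 G + b * S.E0 H := by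
  rw [rd_E0_add hS (rd_dom_add hF (rd_dom_smul a hG)) (rd_dom_smul b hH), rd_E0_add hS hF (rd_dom_smul a hG),
    rd_E0_smul, rd_E0_smul]

/-- L-PH-A8.  **Hessian bound** ([C]L2.2(iii) in the form used in (2.13)).  `lsys_phi_four S hS θ (s • T)`: `φ(θ)² φ(sT)² ≤ φ(θ+sT) φ(θ-sT)`.  With `A(s) = E[cos θ cos sT]`, `B(s) = E[sin θ sin sT]`: `φ(θ ± sT) = A ∓ B`, product `= A² - B²`.
`|cos x - 1 + x²/2| ≤ x⁴/24 ≤ |x|³ e^{|x|}`, `|sin x - x| ≤ |x|³` (from `Real.cos_bound`-type lemmas or `Complex.norm_exp_sub_sum_le_norm_mul_exp` at `I x`) give `|A(s) - φ(θ) + s² E[T² cos θ]/2| ≤ K s³`, `|B(s) - s E[T sin θ]| ≤ K s³` for `0 < s ≤ 1`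
(`rd_E0_mono`, `rd_dom_*`);  `φ(sT) ≥ 1 - s² V0 T/2` (`rd_phi_quad_lower`).  Compare the coefficients of `s²`: `rd_le_of_cubic`. -/
theorem phi_hess (S : LSys) (hS : S.Ok) (θ T : S.L →+ ℝ) :
    S.phi θ * S.E0 (fun z => T z ^ 2 * Real.cos (θ z)) + S.E0 (fun z => T z * Real.sin (θ z)) ^ 2 ≤ S.V0 T * S.phi θ ^ 2 := by
  have dsin : ∀ f : S.L → ℝ, S.Dom fun z => Real.sin (f z) := fun f => rd_dom_bdd 1 fun z => Real.abs_sin_le_one _
  have dT : S.Dom fun z => T z := rd_dom_test T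
  have d3 : S.Dom fun z => |T z| ^ 3 := rd_dom_pow (rd_dom_abs dT) 3
  have dc : S.Dom fun z => Real.cos (θ z) := rd_dom_cos _
  have dc2 : S.Dom fun z => T z ^ 2 * Real.cos (θ z) := rd_dom_mul (rd_dom_pow dT 2) dc
  have ds1 : S.Dom fun z => T z * Real.sin (θ z) := rd_dom_mul dT (dsin _)
  have hR : 0 ≤ S.E0 fun z => |T z| ^ 3 := by
    rw [rd_E0_eq]
    exact div_nonneg (rd_Zf_nonneg hS 0 fun z => by positivity) (rd_w_pos hS 0).le
  refine ph_hess_abs (A := fun s => S.E0 fun z => Real.cos (θ z) * Real.cos (s * T z))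
    (B := fun s => S.E0 fun z => Real.sin (θ z) * Real.sin (s * T z)) (M := fun s => S.phi (s • T)) hR ?_ ?_ ?_ ?_
  · intro s hs0 hs1
    have dA : S.Dom fun z => Real.cos (θ z) * Real.cos (s * T z) := rd_dom_mul dc (rd_dom_cos _)
    have key : ∀ z, |Real.cos (θ z) * Real.cos (s * T z) - (Real.cos (θ z) - s ^ 2 / 2 * (T z ^ 2 * Real.cos (θ z)))| ≤
        3 * s ^ 3 * |T z| ^ 3 := by
      intro z
      have e : Real.cos (θ z) * Real.cos (s * T z) - (Real.cos (θ z) - s ^ 2 / 2 * (T z ^ 2 * Real.cos (θ z))) =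
          Real.cos (θ z) * (Real.cos (s * T z) - 1 + (s * T z) ^ 2 / 2) := by ring
      rw [e]
      have := rd_mul_le_of_abs (Real.abs_cos_le_one (θ z)) (ph_cos_taylor (s * T z))
      rw [abs_mul s, abs_of_pos hs0, mul_pow s |T z|] at this
      linarith
    rw [abs_le]
    constructor
    · have := rd_E0_mono hS (rd_dom_add (rd_dom_add dc (rd_dom_smul (-(s ^ 2 / 2)) dc2)) (rd_dom_smul (-(3 * s ^ 3)) d3)) dA
        fun z => by
          have := (abs_le.1 (key z)).1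
          linarith
      rw [ph_E0_lin3 hS dc dc2 d3] at this
      unfold LSys.phi
      linarith
    · have := rd_E0_mono hS dA (rd_dom_add (rd_dom_add dc (rd_dom_smul (-(s ^ 2 / 2)) dc2)) (rd_dom_smul (3 * s ^ 3) d3))
        fun z => by
          have := (abs_le.1 (key z)).2
          linarith
      rw [ph_E0_lin3 hS dc dc2 d3] at this
      unfold LSys.phi
      linarith
  · intro s hs0 hs1
    have dB : S.Dom fun z => Real.sin (θ z) * Real.sin (s * T z) := rd_dom_mul (dsin _) (dsin _)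
    have key : ∀ z, |Real.sin (θ z) * Real.sin (s * T z) - s * (T z * Real.sin (θ z))| ≤
        3 * s ^ 3 * |T z| ^ 3 := by
      intro z
      have e : Real.sin (θ z) * Real.sin (s * T z) - s * (T z * Real.sin (θ z)) =
          Real.sin (θ z) * (Real.sin (s * T z) - s * T z) := by ring
      rw [e]
      have := rd_mul_le_of_abs (Real.abs_sin_le_one (θ z)) (ph_sin_taylor (s * T z))
      rw [abs_mul s, abs_of_pos hs0, mul_pow s |T z|] at this
      linarith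
    have d0 : S.Dom fun _ : S.L => (0 : ℝ) := rd_dom_const 0
    rw [abs_le]
    constructor
    · have := rd_E0_mono hS (rd_dom_add (rd_dom_add d0 (rd_dom_smul s ds1)) (rd_dom_smul (-(3 * s ^ 3)) d3)) dB
        fun z => by
          have := (abs_le.1 (key z)).1
          linarith
      rw [ph_E0_lin3 hS d0 ds1 d3, rd_E0_const hS] at this
      linarith
    · have := rd_E0_mono hS dB (rd_dom_add (rd_dom_add d0 (rd_dom_smul s ds1)) (rd_dom_smul (3 * s ^ 3) d3))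
        fun z => by
          have := (abs_le.1 (key z)).2
          linarith
      rw [ph_E0_lin3 hS d0 ds1 d3, rd_E0_const hS] at this
      linarith
  · intro s hs0 hs1
    have h1 := rd_phi_quad_lower hS T s
    have h2 := rd_phi_nonneg hS (s • T)
    have hV := rd_V0_nonneg hS T
    rcases le_total 0 (1 + s ^ 2 * (-S.V0 T / 2)) with h3 | h3
    · have h4 : (1 + s ^ 2 * (-S.V0 T / 2)) ^ 2 ≤ S.phi (s • T) ^ 2 := pow_le_pow_left₀ h3 h1 2
      nlinarith [sq_nonneg (s ^ 2 * S.V0 T)]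
    · have h4 : 0 ≤ S.phi (s • T) ^ 2 := sq_nonneg _
      have h5 : 0 ≤ s ^ 2 * S.V0 T := by positivity
      linarith
  · intro s hs0 hs1
    have h1 := lsys_phi_four S hS θ (s • T)
    have dA : S.Dom fun z => Real.cos (θ z) * Real.cos (s * T z) := rd_dom_mul dc (rd_dom_cos _)
    have dB : S.Dom fun z => Real.sin (θ z) * Real.sin (s * T z) := rd_dom_mul (dsin _) (dsin _)
    have e1 : S.phi (θ + s • T) = S.E0 (fun z => Real.cos (θ z) * Real.cos (s * T z)) -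
        S.E0 (fun z => Real.sin (θ z) * Real.sin (s * T z)) := by
      have := ph_E0_lin3 hS dA dB (rd_dom_const 0) (-1) 0
      rw [rd_E0_const hS] at this
      have e : S.phi (θ + s • T) = S.E0 fun z => Real.cos (θ z) * Real.cos (s * T z) + -1 * (Real.sin (θ z) * Real.sin (s * T z)) + 0 * 0 := by
        unfold LSys.phi
        congr 1
        funext z
        have : (θ + s • T) z = θ z + s * T z := by simp
        rw [this, Real.cos_add]
        ring
      rw [e, this]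
      ring
    have e2 : S.phi (θ - s • T) = S.E0 (fun z => Real.cos (θ z) * Real.cos (s * T z)) +
        S.E0 (fun z => Real.sin (θ z) * Real.sin (s * T z)) := by
      rw [← rd_E0_add hS dA dB]
      unfold LSys.phi
      congr 1
      funext z
      have : (θ - s • T) z = θ z - s * T z := by simp
      rw [this, Real.cos_sub]
    rw [e1, e2] at h1
    exact h1

section

variable {O : Type} [Fintype O]

/-- L-PH-A9.  `Rsd.kit_ok_of_le` with the images of the basis of `S` (or `kit_ok_of_map`). -/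
theorem zext_ok (S : LSys) (hS : S.Ok) (O : Type) [Fintype O] : (zext S O).Ok := by
  obtain ⟨hb, n, v, hv, hL⟩ := hS
  let w : Fin n → (zext S O).Amb := fun i => zextHom S O (v i)
  refine Rsd.kit_ok_of_le (zext S O) hb w ?_ ?_
  · rw [Fintype.linearIndependent_iff]
    intro a ha
    have ha' : (∑ i, a i • (((fun e => ((v i).1 e : ℝ)), Sum.elim (v i).2 fun _ => 0) : (S.E → ℝ) × (S.O ⊕ O → ℝ))) = 0 := ha
    clear ha
    have h1 : ∀ e : S.E, ∑ i, a i * ((v i).1 e : ℝ) = 0 := by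
      intro e
      have := congrFun (congrArg Prod.fst ha') e
      simpa [Prod.fst_sum, Finset.sum_apply] using this
    have h2 : ∀ o : S.O, ∑ i, a i * ((v i).2 o) = 0 := by
      intro o
      have := congrFun (congrArg Prod.snd ha') (Sum.inl o)
      simpa [Prod.snd_sum, Finset.sum_apply] using this
    have h3 : ∑ i, a i • S.real (v i) = 0 := by
      ext x
      · simpa [LSys.real, Finset.sum_apply, Prod.fst_sum, Prod.snd_sum] using h1 x
      · simpa [LSys.real, Finset.sum_apply, Prod.fst_sum, Prod.snd_sum] using h2 x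
    exact Fintype.linearIndependent_iff.1 hv a h3
  · have h1 : (zext S O).L = S.L.map (zextHom S O) := rfl
    rw [h1, hL, AddMonoidHom.map_closure, ← Set.range_comp]
    exact le_of_eq rfl

theorem zextL_bijective (S : LSys) (O : Type) [Fintype O] : Function.Bijective (zextL S O) := by
  constructor
  · intro x y h
    have h1 : zextHom S O (x : S.Amb) = zextHom S O (y : S.Amb) := congrArg Subtype.val h
    apply Subtype.ext
    apply Prod.ext
    · have h2 : (zextHom S O (x : S.Amb)).1 = (zextHom S O (y : S.Amb)).1 := congrArg Prod.fst h1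
      exact h2
    · funext o
      exact congrFun (congrArg Prod.snd h1) (Sum.inl o)
  · rintro ⟨_, z, hz, rfl⟩
    exact ⟨⟨z, hz⟩, rfl⟩

theorem zext_W (S : LSys) (O : Type) [Fintype O] (z : S.L) :
    (zext S O).W (((zextL S O z : (zext S O).L) : (zext S O).Amb) + 0) = S.W ((z : S.Amb) + 0) := by
  rw [add_zero, add_zero]
  show (∏ e : S.E, bes (S.b e) ((z : S.Amb).1 e)) *
      Real.exp (-(∑ o : S.O ⊕ O, (Sum.elim (z : S.Amb).2 (fun _ => (0 : ℝ)) o) ^ 2) / 2) =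
    (∏ e : S.E, bes (S.b e) ((z : S.Amb).1 e)) * Real.exp (-(∑ o, (z : S.Amb).2 o ^ 2) / 2)
  rw [Fintype.sum_sum_type]
  simp

theorem zext_Zf (S : LSys) (O : Type) [Fintype O] (F : (zext S O).L → ℝ) :
    (zext S O).Zf 0 F = S.Zf 0 fun z => F (zextL S O z) := by
  unfold LSys.Zf
  rw [← (Equiv.ofBijective _ (zextL_bijective S O)).tsum_eq]
  refine tsum_congr fun z => ?_
  rw [Equiv.ofBijective_apply, zext_W]

/-- L-PH-A9.  `zextL` is a bijection, `(zext S O).W (zextHom z) = S.W z` (`Fintype.sum_sum_type`, the new squares vanish); reindex both `tsum`s (`Equiv.ofBijective`, `Equiv.tsum_eq`). -/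
theorem zext_E0 (S : LSys) (O : Type) [Fintype O] (F : (zext S O).L → ℝ) : (zext S O).E0 F = S.E0 fun z => F (zextL S O z) := by
  rw [rd_E0_eq, rd_E0_eq, zext_Zf, LSys.w, LSys.w, zext_Zf]

/-- L-PH-A9.  **The joined law has more precision than the soft law.**  `iE = r.iE`, `iO = Sum.map r.iO id`; `map_mem`: a point of `(zext J O).L` is `zextHom z`, `z ∈ J.L`; its restriction is `softHom (r.psi z, c)` with `c o = -` (the integer of `hint`). -/
theorem join_ref {S₀ J : LSys} (r : LSys.Ref S₀ J) (ℓ : O → S₀.L →+ ℝ)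
    (hint : ∀ (z : J.L) (o : O), ∃ c : ℤ, ℓ o (r.psi z) = 2 * Real.pi * (c : ℝ)) :
    ∃ r' : LSys.Ref (soft S₀ ℓ) (zext J O), ∀ z : J.L, softPr S₀ ℓ (r'.psi (zextL J O z)) = r.psi z := by
  choose c hc using hint
  have key : ∀ z : J.L, ((fun e => (zextHom J O (z : J.Amb)).1 (r.iE e),
      fun o => (zextHom J O (z : J.Amb)).2 (Sum.map r.iO id o)) : (S₀.E → ℤ) × (S₀.O ⊕ O → ℝ)) =
      softHom S₀ ℓ (r.psi z, fun o => -c z o) := by
    intro z
    apply Prod.ext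
    · rfl
    · funext o
      rcases o with o | o
      · rfl
      · show (0 : ℝ) = ℓ o (r.psi z) + 2 * Real.pi * ((-c z o : ℤ) : ℝ)
        rw [hc]
        push_cast
        ring
  let r' : LSys.Ref (soft S₀ ℓ) (zext J O) :=
    { iE := r.iE
      iO := ⟨Sum.map r.iO id, Sum.map_injective.2 ⟨r.iO.injective, Function.injective_id⟩⟩
      hb := r.hb
      map_mem := by
        rintro _ ⟨z, hz, rfl⟩
        exact ⟨(r.psi ⟨z, hz⟩, fun o => -c ⟨z, hz⟩ o), (key ⟨z, hz⟩).symm⟩ }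
  refine ⟨r', fun z => ?_⟩
  have h1 : r'.psi (zextL J O z) = softEquiv S₀ ℓ (r.psi z, fun o => -c z o) := by
    apply Subtype.ext
    exact key z
  rw [h1, softPr_equiv]

/-- L-PH-A10.  **EXPORT 1.**  `join_ref`, `lsys_phi_mono r'` (`soft_ok`, `zext_ok`), `zext_E0`, `soft_phi`, `secSum_one_le`. -/
theorem ph_join_phi {S₀ J : LSys} (h₀ : S₀.Ok) (hJ : J.Ok) (r : LSys.Ref S₀ J) (ℓ : O → S₀.L →+ ℝ)
    (hint : ∀ (z : J.L) (o : O), ∃ c : ℤ, ℓ o (r.psi z) = 2 * Real.pi * (c : ℝ)) (θ : S₀.L →+ ℝ) :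
    secSum S₀ ℓ θ ≤ J.phi (θ.comp r.psi) * secSum S₀ ℓ 0 := by
  obtain ⟨r', hr'⟩ := join_ref r ℓ hint
  have h1 := lsys_phi_mono r' (soft_ok S₀ h₀ ℓ) (zext_ok J hJ O) (θ.comp (softPr S₀ ℓ))
  have h2 : (zext J O).phi ((θ.comp (softPr S₀ ℓ)).comp r'.psi) = J.phi (θ.comp r.psi) := by
    unfold LSys.phi
    rw [zext_E0]
    congr 1
    funext z
    show Real.cos (θ (softPr S₀ ℓ (r'.psi (zextL J O z)))) = Real.cos (θ (r.psi z))
    rw [hr']
  rw [h2, soft_phi S₀ h₀, div_le_iff₀ (lt_of_lt_of_le one_pos (secSum_one_le S₀ h₀ ℓ))] at h1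
  exact h1

/-- L-PH-A10.  **EXPORT 2.**  `join_ref`, `lsys_var_mono r'`, `zext_E0` (through `rd_V0_eq`), `soft_var`; in every sector `E₀[T² cos θ_q] ≤ V₀(T) φ₀(θ_q) - s_q²/φ₀(θ_q)` (`phi_hess`, `rd_phi_pos`); sum over `q` (`Summable.tsum_le_tsum`, `Summable.le_tsum` for the single term `q`),
`secSum S₀ ℓ 0 ≤ secTheta O`. -/
theorem ph_join_var {S₀ J : LSys} (h₀ : S₀.Ok) (hJ : J.Ok) (r : LSys.Ref S₀ J) (ℓ : O → S₀.L →+ ℝ)
    (hint : ∀ (z : J.L) (o : O), ∃ c : ℤ, ℓ o (r.psi z) = 2 * Real.pi * (c : ℝ)) (T : S₀.L →+ ℝ) (q : O → ℤ) :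
    J.V0 (T.comp r.psi) + secW q * S₀.E0 (fun z => T z * Real.sin (rowS ℓ (fun o => (q o : ℝ)) z)) ^ 2
      / (S₀.phi (rowS ℓ fun o => (q o : ℝ)) * secTheta O) ≤ S₀.V0 T := by
  obtain ⟨r', hr'⟩ := join_ref r ℓ hint
  have h1 := lsys_var_mono r' (soft_ok S₀ h₀ ℓ) (zext_ok J hJ O) (T.comp (softPr S₀ ℓ))
  have h2 : (zext J O).V0 ((T.comp (softPr S₀ ℓ)).comp r'.psi) = J.V0 (T.comp r.psi) := by
    rw [rd_V0_eq, rd_V0_eq, zext_E0]
    congr 1
    funext z
    show (T (softPr S₀ ℓ (r'.psi (zextL J O z)))) ^ 2 = (T (r.psi z)) ^ 2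
    rw [hr']
  rw [h2, soft_var S₀ h₀] at h1
  have hD1 := secSum_one_le S₀ h₀ ℓ
  have hD0 : 0 < secSum S₀ ℓ 0 := lt_of_lt_of_le one_pos hD1
  have hDθ := secSum_le_theta S₀ h₀ ℓ 0
  obtain ⟨D, hD⟩ : ∃ D, D = secSum S₀ ℓ 0 := ⟨_, rfl⟩
  obtain ⟨V, hV⟩ : ∃ V, V = S₀.V0 T := ⟨_, rfl⟩
  obtain ⟨φ, hφ⟩ : ∃ φ : (O → ℤ) → ℝ, φ = fun q => S₀.phi (rowS ℓ fun o => (q o : ℝ)) := ⟨_, rfl⟩
  obtain ⟨c, hc⟩ : ∃ c : (O → ℤ) → ℝ, c = fun q => S₀.E0 fun z => T z ^ 2 * Real.cos (rowS ℓ (fun o => (q o : ℝ)) z) := ⟨_, rfl⟩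
  obtain ⟨s, hs⟩ : ∃ s : (O → ℤ) → ℝ, s = fun q => S₀.E0 fun z => T z * Real.sin (rowS ℓ (fun o => (q o : ℝ)) z) := ⟨_, rfl⟩
  have hφpos : ∀ q, 0 < φ q := fun q => by rw [hφ]; exact rd_phi_pos h₀ _
  have hhess : ∀ q, φ q * c q + s q ^ 2 ≤ V * φ q ^ 2 := fun q => by
    rw [hφ, hc, hs, hV]
    exact phi_hess S₀ h₀ _ T
  have hDsum : HasSum (fun q => secW q * φ q) D := by
    have := (secSum_summable S₀ h₀ ℓ 0).hasSum
    rw [hD, hφ]
    unfold secSum
    simpa only [zero_add] using this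
  have dT2 : S₀.Dom fun z => T z ^ 2 := rd_dom_pow (rd_dom_test T) 2
  have hcabs : ∀ q, |c q| ≤ V := fun q => by
    rw [hc, hV, rd_V0_eq]
    have d1 : S₀.Dom fun z => T z ^ 2 * Real.cos (rowS ℓ (fun o => (q o : ℝ)) z) := rd_dom_mul dT2 (rd_dom_cos _)
    rw [abs_le]
    constructor
    · rw [← neg_one_mul, ← rd_E0_smul]
      refine rd_E0_mono h₀ (rd_dom_smul _ dT2) d1 fun z => ?_
      nlinarith [sq_nonneg (T z), Real.neg_one_le_cos (rowS ℓ (fun o => (q o : ℝ)) z)]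
    · refine rd_E0_mono h₀ d1 dT2 fun z => ?_
      nlinarith [sq_nonneg (T z), Real.cos_le_one (rowS ℓ (fun o => (q o : ℝ)) z)]
  have hcsum : Summable fun q => secW q * c q := by
    refine Summable.of_norm_bounded (g := fun q => secW q * V) (secW_summable.mul_right V) fun q => ?_
    rw [Real.norm_eq_abs, abs_mul, abs_of_pos (secW_pos q)]
    exact mul_le_mul_of_nonneg_left (hcabs q) (secW_pos q).le
  have hgsum : HasSum (fun q => V * (secW q * φ q) - secW q * c q) (V * D - ∑' q, secW q * c q) :=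
    (hDsum.mul_left V).sub hcsum.hasSum
  have hg : ∀ q, secW q * (s q ^ 2 / φ q) ≤ V * (secW q * φ q) - secW q * c q := fun q => by
    have e : V * (secW q * φ q) - secW q * c q = secW q * (V * φ q - c q) := by ring
    rw [e]
    refine mul_le_mul_of_nonneg_left ?_ (secW_pos q).le
    rw [div_le_iff₀ (hφpos q)]
    nlinarith [hhess q]
  have hg0 : ∀ q, 0 ≤ V * (secW q * φ q) - secW q * c q := fun q =>
    le_trans (mul_nonneg (secW_pos q).le (div_nonneg (sq_nonneg _) (hφpos q).le)) (hg q)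
  have h3 : secW q * (s q ^ 2 / φ q) ≤ V * D - ∑' q, secW q * c q :=
    (hg q).trans (le_hasSum hgsum q fun q' _ => hg0 q')
  have e1 : (∑' q : O → ℤ, secW q * S₀.E0 fun z => T z ^ 2 * Real.cos (rowS ℓ (fun o => (q o : ℝ)) z)) =
      ∑' q, secW q * c q := by rw [hc]
  rw [e1, ← hD] at h1
  rw [← hD] at hD0 hDθ
  have e2 : secW q * S₀.E0 (fun z => T z * Real.sin (rowS ℓ (fun o => (q o : ℝ)) z)) ^ 2
      / (S₀.phi (rowS ℓ fun o => (q o : ℝ)) * secTheta O) = secW q * (s q ^ 2 / φ q) / secTheta O := by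
    rw [hs, hφ]
    beta_reduce
    rw [mul_div_assoc, mul_div_assoc, div_div]
  rw [e2, ← hV]
  obtain ⟨X, hX⟩ : ∃ X, X = secW q * (s q ^ 2 / φ q) := ⟨_, rfl⟩
  have hX0 : 0 ≤ X := by
    rw [hX]
    exact mul_nonneg (secW_pos q).le (div_nonneg (sq_nonneg _) (hφpos q).le)
  rw [← hX] at h3 ⊢
  have h4 : X / secTheta O ≤ X / D := div_le_div_of_nonneg_left hX0 hD0 hDθ
  have h5 : (∑' q, secW q * c q) / D ≤ (V * D - X) / D :=
    div_le_div_of_nonneg_right (by linarith) hD0.le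
  have h6 : (V * D - X) / D = V - X / D := by
    field_simp
  linarith

end

/-! ## 3. Calculus of phases -/

/-- L-PH-B1.  Differentiation under the sum: `hasDerivAt_tsum` with `u z = |P z Y z| W z` (`rd_dom_summable`, `rd_dom_mul`, `rd_dom_test`); `E0 = Zf 0 / w 0` (`rd_E0_eq`). -/
theorem ph_hasDerivAt_cos (S : LSys) (hS : S.Ok) (P : S.L → ℝ) (hP : S.Dom P) (θ Y : S.L →+ ℝ) (v : ℝ) :
    HasDerivAt (fun v : ℝ => S.E0 fun z => P z * Real.cos (θ z + v * Y z))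
      (-S.E0 fun z => P z * Y z * Real.sin (θ z + v * Y z)) v := by
  simp only [rd_E0_eq]
  rw [← neg_div]
  apply HasDerivAt.div_const
  unfold LSys.Zf
  have hu : Summable fun z : S.L => |P z * Y z| * S.W ((z : S.Amb) + 0) :=
    rd_dom_summable hS (rd_dom_abs (rd_dom_mul hP (rd_dom_test Y))) 0
  have hg : ∀ (z : S.L) (y : ℝ), HasDerivAt (fun v : ℝ => P z * Real.cos (θ z + v * Y z) * S.W ((z : S.Amb) + 0))
      (-(P z * Y z * Real.sin (θ z + y * Y z) * S.W ((z : S.Amb) + 0))) y := by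
    intro z y
    have h1 : HasDerivAt (fun v : ℝ => θ z + v * Y z) (Y z) y := by
      simpa using ((hasDerivAt_id y).mul_const (Y z)).const_add (θ z)
    have h2 := ((h1.cos).const_mul (P z)).mul_const (S.W ((z : S.Amb) + 0))
    refine h2.congr_deriv ?_
    ring
  have hg' : ∀ (z : S.L) (y : ℝ), ‖-(P z * Y z * Real.sin (θ z + y * Y z) * S.W ((z : S.Amb) + 0))‖
      ≤ |P z * Y z| * S.W ((z : S.Amb) + 0) := by
    intro z y
    rw [norm_neg, norm_mul, norm_mul, Real.norm_eq_abs, Real.norm_eq_abs, Real.norm_eq_abs,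
      abs_of_pos (rd_W_pos hS _)]
    apply mul_le_mul_of_nonneg_right _ (rd_W_pos hS _).le
    calc |P z * Y z| * |Real.sin (θ z + y * Y z)| ≤ |P z * Y z| * 1 :=
          mul_le_mul_of_nonneg_left (Real.abs_sin_le_one _) (abs_nonneg _)
      _ = |P z * Y z| := mul_one _
  have hg0 : Summable fun z : S.L => P z * Real.cos (θ z + (0 : ℝ) * Y z) * S.W ((z : S.Amb) + 0) :=
    rd_dom_summable hS (rd_dom_mul hP (rd_dom_cos _)) 0
  have := hasDerivAt_tsum hu hg hg' hg0 v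
  rw [tsum_neg] at this
  exact this

/-- L-PH-B1. -/
theorem ph_hasDerivAt_sin (S : LSys) (hS : S.Ok) (P : S.L → ℝ) (hP : S.Dom P) (θ Y : S.L →+ ℝ) (v : ℝ) :
    HasDerivAt (fun v : ℝ => S.E0 fun z => P z * Real.sin (θ z + v * Y z))
      (S.E0 fun z => P z * Y z * Real.cos (θ z + v * Y z)) v := by
  simp only [rd_E0_eq]
  apply HasDerivAt.div_const
  unfold LSys.Zf
  have hu : Summable fun z : S.L => |P z * Y z| * S.W ((z : S.Amb) + 0) :=
    rd_dom_summable hS (rd_dom_abs (rd_dom_mul hP (rd_dom_test Y))) 0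
  have hg : ∀ (z : S.L) (y : ℝ), HasDerivAt (fun v : ℝ => P z * Real.sin (θ z + v * Y z) * S.W ((z : S.Amb) + 0))
      (P z * Y z * Real.cos (θ z + y * Y z) * S.W ((z : S.Amb) + 0)) y := by
    intro z y
    have h1 : HasDerivAt (fun v : ℝ => θ z + v * Y z) (Y z) y := by
      simpa using ((hasDerivAt_id y).mul_const (Y z)).const_add (θ z)
    have h2 := ((h1.sin).const_mul (P z)).mul_const (S.W ((z : S.Amb) + 0))
    refine h2.congr_deriv ?_
    ring
  have hg' : ∀ (z : S.L) (y : ℝ), ‖P z * Y z * Real.cos (θ z + y * Y z) * S.W ((z : S.Amb) + 0)‖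
      ≤ |P z * Y z| * S.W ((z : S.Amb) + 0) := by
    intro z y
    rw [norm_mul, norm_mul, Real.norm_eq_abs, Real.norm_eq_abs, Real.norm_eq_abs,
      abs_of_pos (rd_W_pos hS _)]
    apply mul_le_mul_of_nonneg_right _ (rd_W_pos hS _).le
    calc |P z * Y z| * |Real.cos (θ z + y * Y z)| ≤ |P z * Y z| * 1 :=
          mul_le_mul_of_nonneg_left (Real.abs_cos_le_one _) (abs_nonneg _)
      _ = |P z * Y z| := mul_one _
  have hg0 : Summable fun z : S.L => P z * Real.sin (θ z + (0 : ℝ) * Y z) * S.W ((z : S.Amb) + 0) :=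
    rd_dom_summable hS (rd_dom_mul hP (rd_dom_bdd 1 fun z => Real.abs_sin_le_one _)) 0
  exact hasDerivAt_tsum hu hg hg' hg0 v

/-- helper of L-PH-Z6: the double sum `∑_{u,v} W(u) W(v) F(u+v) G(u-v)` -/
def repD (S : LSys) (F G : S.L → ℝ) : ℝ :=
  ∑' x : S.L × S.L, S.W ((x.1 : S.Amb) + 0) * S.W ((x.2 : S.Amb) + 0) * (F (x.1 + x.2) * G (x.1 - x.2))

theorem ph_rep_amp_real (S : LSys) (i : (S.E → ℕ) × Rsd.Par S) (F : S.L → ℝ) :
    (starRingEnd ℂ) (Rsd.amp S i 0 fun p => (F p : ℂ)) = Rsd.amp S i 0 fun p => (F p : ℂ) := by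
  rw [Rsd.amp_conj]
  simp only [Complex.conj_ofReal]

theorem ph_rep_DR (S : LSys) (hS : S.Ok) (F G : S.L → ℝ)
    (hs : Summable fun x : S.L × S.L =>
      S.W ((x.1 : S.Amb) + 0) * S.W ((x.2 : S.Amb) + 0) * (|F (x.1 + x.2)| * |G (x.1 - x.2)|)) :
    HasSum (fun i : (S.E → ℕ) × Rsd.Par S =>
      (Rsd.lam S i.1 : ℂ) * Rsd.amp S i 0 (fun p => (F p : ℂ)) * Rsd.amp S i 0 (fun p => (G p : ℂ)))
      ((repD S F G : ℝ) : ℂ) := by
  have h := Rsd.ms_DR S hS.1 0 0 (fun p => (F p : ℂ)) (fun p => (G p : ℂ))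
    (by simpa only [Complex.norm_real, Real.norm_eq_abs] using hs)
  rw [add_zero, sub_zero] at h
  have e : ((repD S F G : ℝ) : ℂ) = ∑' x : S.L × S.L, ((S.W ((x.1 : S.Amb) + 0) * S.W ((x.2 : S.Amb) + 0) : ℝ) : ℂ)
        * ((F (x.1 + x.2) : ℂ) * (G (x.1 - x.2) : ℂ)) := by
    unfold repD
    rw [Complex.ofReal_tsum]
    refine tsum_congr fun x => ?_
    push_cast
    ring
  rw [e]
  exact h

theorem ph_rep_sq (S : LSys) (hS : S.Ok) (F : S.L → ℝ)
    (hs : Summable fun x : S.L × S.L =>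
      S.W ((x.1 : S.Amb) + 0) * S.W ((x.2 : S.Amb) + 0) * (|F (x.1 + x.2)| * |F (x.1 - x.2)|)) :
    HasSum (fun i : (S.E → ℕ) × Rsd.Par S => Rsd.lam S i.1 * ‖Rsd.amp S i 0 (fun p => (F p : ℂ))‖ ^ 2)
      (repD S F F) := by
  have h := ph_rep_DR S hS F F hs
  rw [← Complex.hasSum_ofReal]
  refine Rsd.ms_hasSum_congr h fun i => ?_
  have e := ph_rep_amp_real S i F
  calc (Rsd.lam S i.1 : ℂ) * Rsd.amp S i 0 (fun p => (F p : ℂ)) * Rsd.amp S i 0 (fun p => (F p : ℂ))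
      = (Rsd.lam S i.1 : ℂ) * (Rsd.amp S i 0 (fun p => (F p : ℂ))
          * (starRingEnd ℂ) (Rsd.amp S i 0 fun p => (F p : ℂ))) := by rw [e, mul_assoc]
    _ = _ := by
      rw [Complex.mul_conj, Complex.normSq_eq_norm_sq]
      push_cast
      rfl

/-- helper of L-PH-Z6: Cauchy-Schwarz for the doubling form -/
theorem ph_rep_cs (S : LSys) (hS : S.Ok) (F G : S.L → ℝ)
    (hFG : Summable fun x : S.L × S.L =>
      S.W ((x.1 : S.Amb) + 0) * S.W ((x.2 : S.Amb) + 0) * (|F (x.1 + x.2)| * |G (x.1 - x.2)|))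
    (hFF : Summable fun x : S.L × S.L =>
      S.W ((x.1 : S.Amb) + 0) * S.W ((x.2 : S.Amb) + 0) * (|F (x.1 + x.2)| * |F (x.1 - x.2)|))
    (hGG : Summable fun x : S.L × S.L =>
      S.W ((x.1 : S.Amb) + 0) * S.W ((x.2 : S.Amb) + 0) * (|G (x.1 + x.2)| * |G (x.1 - x.2)|)) :
    repD S F G ^ 2 ≤ repD S F F * repD S G G := by
  have h := Rsd.ms_cauchy_schwarz (fun i : (S.E → ℕ) × Rsd.Par S => Rsd.lam S i.1)
    (fun i => (Rsd.lam_pos S hS.1 _).le) _ _ (ph_rep_DR S hS F G hFG) (ph_rep_sq S hS F hFF) (ph_rep_sq S hS G hGG)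
  rwa [Complex.norm_real, Real.norm_eq_abs, sq_abs] at h

/-- helper of L-PH-Z6: factorisation of a double sum -/
theorem ph_rep_prod {S : LSys} (hS : S.Ok) {F G : S.L → ℝ} (hF : S.Dom F) (hG : S.Dom G) :
    HasSum (fun x : S.L × S.L => S.W ((x.1 : S.Amb) + 0) * S.W ((x.2 : S.Amb) + 0) * (F x.1 * G x.2))
      (S.w 0 ^ 2 * (S.E0 F * S.E0 G)) := by
  have h1 := rd_dom_summable hS hF 0
  have h2 := rd_dom_summable hS hG 0
  have h3 := h1.hasSum.mul h2.hasSum (summable_mul_of_summable_norm h1.norm h2.norm)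
  have hw := (rd_w_pos hS 0).ne'
  have e : S.w 0 ^ 2 * (S.E0 F * S.E0 G) = (∑' z : S.L, F z * S.W ((z : S.Amb) + 0)) * ∑' z : S.L, G z * S.W ((z : S.Amb) + 0) := by
    rw [rd_E0_eq, rd_E0_eq]
    unfold LSys.Zf
    field_simp
  rw [e]
  refine Rsd.ms_hasSum_congr h3 fun x => ?_
  ring

theorem ph_rep_summable {S : LSys} (hS : S.Ok) (H : S.L × S.L → ℝ) {M : S.L → ℝ} (hM : S.Dom M) (K : ℝ)
    (hH : ∀ x, H x ≤ K * (M x.1 * M x.2)) (h0 : ∀ x, 0 ≤ H x) :
    Summable fun x : S.L × S.L => S.W ((x.1 : S.Amb) + 0) * S.W ((x.2 : S.Amb) + 0) * H x := by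
  refine Summable.of_nonneg_of_le (fun x => ?_) (fun x => ?_) ((ph_rep_prod hS hM hM).summable.mul_left K)
  · exact mul_nonneg (mul_nonneg (rd_W_pos hS _).le (rd_W_pos hS _).le) (h0 x)
  · calc S.W ((x.1 : S.Amb) + 0) * S.W ((x.2 : S.Amb) + 0) * H x
        ≤ S.W ((x.1 : S.Amb) + 0) * S.W ((x.2 : S.Amb) + 0) * (K * (M x.1 * M x.2)) :=
          mul_le_mul_of_nonneg_left (hH x) (mul_nonneg (rd_W_pos hS _).le (rd_W_pos hS _).le)
      _ = _ := by ring

/-- L-PH-Z6.  **replica inequality** (= `C2.replica`, see the docstring there).  PROOF on the doubling representation `Rsd.ms_DR` (PROVED, `Rsd/MasterDR.lean`) at `a = b = 0`; `A_i(F) = amp S i 0 F`, `m_i = A_i(1)`, `C = Cov(X,Y)`, `w = w 0`: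
`∑ λ A(XY) A(e^{iθ}) = w² (2 φ E[XY cos θ] + 2 E[X sin θ] E[Y sin θ])`;  `∑ λ m A(e^{iθ}) = w² φ²`;  `∑ λ A(XY)² = w² (2 E X²Y² - 2 E X² E Y²)`;  `∑ λ A(XY) m = 2 C w²`;  `∑ λ m² = w²`;  `∑ λ |A(e^{iθ})|² = w² φ(2θ) ≤ w²` (`Rsd.ms_amp_sq`);
so `∑ λ (A(XY) - 2Cm)² = 2 κ w²` and `Rsd.ms_cauchy_schwarz` gives `|2 φ E[XY cos] + 2 E[X sin] E[Y sin] - 2 C φ²| ≤ √(2κ)`.
(Expand `X(u+v) Y(u+v) e^{iθ(u-v)}` and factorise the double sums by `tsum_mul_tsum_of_summable_norm`; odd terms vanish: `rd_Zf_odd`.) -/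
theorem ph_replica (S : LSys) (hS : S.Ok) (X Y θ : S.L →+ ℝ) :
    |S.phi θ * S.E0 (fun z => X z * Y z * Real.cos (θ z))
        + S.E0 (fun z => X z * Real.sin (θ z)) * S.E0 (fun z => Y z * Real.sin (θ z))
        - S.Cv 0 0 X Y * S.phi θ ^ 2| ≤ Real.sqrt (kap S X Y / 2) := by
  set C := S.Cv 0 0 X Y with hC
  have hw := rd_w_pos hS 0
  -- domination
  have dX := rd_dom_test X
  have dY := rd_dom_test Y
  have dc : S.Dom fun z => Real.cos (θ z) := rd_dom_cos _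
  have ds : S.Dom fun z => Real.sin (θ z) := rd_dom_bdd 1 fun z => Real.abs_sin_le_one _
  have d1 : S.Dom fun _ => (1 : ℝ) := rd_dom_const 1
  let Gf : S.L → ℝ := fun p => X p * Y p - 2 * C
  let Cf : S.L → ℝ := fun p => Real.cos (θ p)
  let M : S.L → ℝ := fun z => (1 + |X z|) * (1 + |Y z|)
  have dM : S.Dom M := rd_dom_mul (rd_dom_add d1 (rd_dom_abs dX)) (rd_dom_add d1 (rd_dom_abs dY))
  have dM2 : S.Dom fun z => M z ^ 2 := rd_dom_pow dM 2
  have hM1 : ∀ z, 1 ≤ M z := fun z => by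
    have h1 := abs_nonneg (X z)
    have h2 := abs_nonneg (Y z)
    simp only [M]
    nlinarith [mul_nonneg h1 h2]
  have hGp : ∀ u v : S.L, |Gf (u + v)| ≤ (1 + 2 * |C|) * (M u * M v) := by
    intro u v
    have a1 : |X (u + v)| ≤ |X u| + |X v| := by rw [map_add]; exact abs_add_le _ _
    have a2 : |Y (u + v)| ≤ |Y u| + |Y v| := by rw [map_add]; exact abs_add_le _ _
    have h1 := abs_nonneg (X u)
    have h2 := abs_nonneg (Y u)
    have h3 := abs_nonneg (X v)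
    have h4 := abs_nonneg (Y v)
    have h5 := abs_nonneg C
    have b1 : |Gf (u + v)| ≤ |X (u + v)| * |Y (u + v)| + 2 * |C| := by
      simp only [Gf]
      calc |X (u + v) * Y (u + v) - 2 * C| ≤ |X (u + v) * Y (u + v)| + |2 * C| := abs_sub _ _
        _ = _ := by rw [abs_mul, abs_mul, abs_two]
    have b2 : |X (u + v)| * |Y (u + v)| ≤ (|X u| + |X v|) * (|Y u| + |Y v|) :=
      mul_le_mul a1 a2 (abs_nonneg _) (by positivity)
    have b3 : (|X u| + |X v|) * (|Y u| + |Y v|) ≤ M u * M v := by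
      simp only [M]
      have : 0 ≤ (1 + |X u| * |X v|) * (|Y u| + |Y v|) + (1 + |X u|) * (1 + |X v|) * (1 + |Y u| * |Y v|) := by positivity
      nlinarith
    have b4 : 1 ≤ M u * M v := by nlinarith [hM1 u, hM1 v]
    nlinarith
  have hGm : ∀ u v : S.L, |Gf (u - v)| ≤ (1 + 2 * |C|) * (M u * M v) := by
    intro u v
    have := hGp u (-v)
    have e : M (-v) = M v := by simp only [M, map_neg, abs_neg]
    rwa [e, ← sub_eq_add_neg] at this
  have hK0 : 0 ≤ 1 + 2 * |C| := by positivity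
  have hFG : Summable fun x : S.L × S.L =>
      S.W ((x.1 : S.Amb) + 0) * S.W ((x.2 : S.Amb) + 0) * (|Gf (x.1 + x.2)| * |Cf (x.1 - x.2)|) := by
    refine ph_rep_summable hS _ dM (1 + 2 * |C|) (fun x => ?_) fun x => by positivity
    calc |Gf (x.1 + x.2)| * |Cf (x.1 - x.2)| ≤ |Gf (x.1 + x.2)| * 1 :=
          mul_le_mul_of_nonneg_left (Real.abs_cos_le_one _) (abs_nonneg _)
      _ ≤ _ := by rw [mul_one]; exact hGp _ _
  have hFF : Summable fun x : S.L × S.L =>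
      S.W ((x.1 : S.Amb) + 0) * S.W ((x.2 : S.Amb) + 0) * (|Gf (x.1 + x.2)| * |Gf (x.1 - x.2)|) := by
    refine ph_rep_summable hS _ dM2 ((1 + 2 * |C|) ^ 2) (fun x => ?_) fun x => by positivity
    calc |Gf (x.1 + x.2)| * |Gf (x.1 - x.2)|
        ≤ ((1 + 2 * |C|) * (M x.1 * M x.2)) * ((1 + 2 * |C|) * (M x.1 * M x.2)) :=
          mul_le_mul (hGp _ _) (hGm _ _) (abs_nonneg _) ((abs_nonneg _).trans (hGp _ _))
      _ = _ := by ring
  have hGG : Summable fun x : S.L × S.L =>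
      S.W ((x.1 : S.Amb) + 0) * S.W ((x.2 : S.Amb) + 0) * (|Cf (x.1 + x.2)| * |Cf (x.1 - x.2)|) := by
    refine ph_rep_summable hS _ d1 1 (fun x => ?_) fun x => by positivity
    calc |Cf (x.1 + x.2)| * |Cf (x.1 - x.2)| ≤ 1 * 1 :=
          mul_le_mul (Real.abs_cos_le_one _) (Real.abs_cos_le_one _) (abs_nonneg _) zero_le_one
      _ = _ := by ring
  have hcs := ph_rep_cs S hS Gf Cf hFG hFF hGG
  -- the expectations
  set a := S.E0 (fun z => X z * Y z * Real.cos (θ z)) with ha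
  set sX := S.E0 (fun z => X z * Real.sin (θ z)) with hsX
  set sY := S.E0 (fun z => Y z * Real.sin (θ z)) with hsY
  have hφ : S.E0 (fun z => Real.cos (θ z)) = S.phi θ := rfl
  have z1 : S.E0 (fun z => X z * Y z * Real.sin (θ z)) = 0 := rd_E0_odd _ fun z => by
    simp only [map_neg, Real.sin_neg]; ring
  have z2 : S.E0 (fun z => Real.sin (θ z)) = 0 := rd_E0_odd _ fun z => by
    simp only [map_neg, Real.sin_neg]
  have z3 : S.E0 (fun z => X z * Real.cos (θ z)) = 0 := rd_E0_odd _ fun z => by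
    simp only [map_neg, Real.cos_neg]; ring
  have z4 : S.E0 (fun z => Y z * Real.cos (θ z)) = 0 := rd_E0_odd _ fun z => by
    simp only [map_neg, Real.cos_neg]; ring
  have e1 : repD S Gf Cf = S.w 0 ^ 2 * (2 * (S.phi θ * a + sX * sY - C * S.phi θ ^ 2)) := by
    have h := (((((((((ph_rep_prod hS (rd_dom_mul (rd_dom_mul dX dY) dc) dc).add
      (ph_rep_prod hS (rd_dom_mul (rd_dom_mul dX dY) ds) ds)).add
      (ph_rep_prod hS (rd_dom_mul dX dc) (rd_dom_mul dY dc))).add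
      (ph_rep_prod hS (rd_dom_mul dX ds) (rd_dom_mul dY ds))).add
      (ph_rep_prod hS (rd_dom_mul dY dc) (rd_dom_mul dX dc))).add
      (ph_rep_prod hS (rd_dom_mul dY ds) (rd_dom_mul dX ds))).add
      (ph_rep_prod hS dc (rd_dom_mul (rd_dom_mul dX dY) dc))).add
      (ph_rep_prod hS ds (rd_dom_mul (rd_dom_mul dX dY) ds))).add
      (ph_rep_prod hS (rd_dom_smul (-2 * C) dc) dc)).add
      (ph_rep_prod hS (rd_dom_smul (-2 * C) ds) ds)
    rw [rd_E0_smul, rd_E0_smul, z1, z2, z3, z4, hφ, ← ha, ← hsX, ← hsY] at h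
    have h' := (Rsd.ms_hasSum_congr h fun x => ?_ : HasSum (fun x : S.L × S.L =>
      S.W ((x.1 : S.Amb) + 0) * S.W ((x.2 : S.Amb) + 0) * (Gf (x.1 + x.2) * Cf (x.1 - x.2))) _).tsum_eq
    · unfold repD
      rw [h']
      ring
    · simp only [Gf, Cf, map_add, map_sub, Real.cos_sub]
      ring
  have e2 : repD S Gf Gf = S.w 0 ^ 2 * (2 * kap S X Y) := by
    have dXY := rd_dom_mul dX dY
    have dX2 := rd_dom_pow dX 2
    have dY2 := rd_dom_pow dY 2
    have dXY2 := rd_dom_mul dX2 dY2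
    have h := ((((((ph_rep_prod hS dXY2 d1).add
      (ph_rep_prod hS (rd_dom_neg dX2) dY2)).add
      (ph_rep_prod hS (rd_dom_neg dY2) dX2)).add
      (ph_rep_prod hS d1 dXY2)).add
      (ph_rep_prod hS (rd_dom_smul (-4 * C) dXY) d1)).add
      (ph_rep_prod hS d1 (rd_dom_smul (-4 * C) dXY))).add
      (ph_rep_prod hS (rd_dom_const (4 * C ^ 2)) d1)
    have n1 : ∀ F : S.L → ℝ, S.E0 (fun z => -F z) = -S.E0 F := fun F => by
      have := rd_E0_smul (-1) F
      simpa using this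
    rw [rd_E0_smul, n1, n1, rd_E0_const hS, rd_E0_const hS, ← rd_V0_eq, ← rd_V0_eq, ← rd_Cv0_eq, ← hC] at h
    have h' := (Rsd.ms_hasSum_congr h fun x => ?_ : HasSum (fun x : S.L × S.L =>
      S.W ((x.1 : S.Amb) + 0) * S.W ((x.2 : S.Amb) + 0) * (Gf (x.1 + x.2) * Gf (x.1 - x.2))) _).tsum_eq
    · unfold repD
      rw [h']
      unfold kap
      rw [← hC]
      ring
    · simp only [Gf, map_add, map_sub]
      ring
  have e3 : repD S Cf Cf ≤ S.w 0 ^ 2 := by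
    have hg := ph_rep_prod hS d1 d1
    rw [rd_E0_const hS, mul_one, mul_one] at hg
    have hf : Summable fun x : S.L × S.L =>
        S.W ((x.1 : S.Amb) + 0) * S.W ((x.2 : S.Amb) + 0) * (Cf (x.1 + x.2) * Cf (x.1 - x.2)) := by
      refine Summable.of_norm (hGG.congr fun x => ?_)
      rw [norm_mul, norm_mul, norm_mul, Real.norm_eq_abs, Real.norm_eq_abs, Real.norm_eq_abs, Real.norm_eq_abs,
        abs_of_pos (rd_W_pos hS _), abs_of_pos (rd_W_pos hS _)]
    refine hasSum_le (fun x => ?_) hf.hasSum hg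
    refine mul_le_mul_of_nonneg_left ?_ (mul_nonneg (rd_W_pos hS _).le (rd_W_pos hS _).le)
    have c1 := Real.abs_cos_le_one (θ (x.1 + x.2))
    have c2 := Real.abs_cos_le_one (θ (x.1 - x.2))
    calc Cf (x.1 + x.2) * Cf (x.1 - x.2) ≤ |Cf (x.1 + x.2) * Cf (x.1 - x.2)| := le_abs_self _
      _ = |Cf (x.1 + x.2)| * |Cf (x.1 - x.2)| := abs_mul _ _
      _ ≤ 1 * 1 := mul_le_mul c1 c2 (abs_nonneg _) zero_le_one
      _ = 1 := one_mul 1
  have hκ : 0 ≤ kap S X Y := lsys_cumulant S hS X Y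
  apply Real.abs_le_sqrt
  rw [e1, e2] at hcs
  have hw2 : 0 < S.w 0 ^ 2 := by positivity
  have h5 : S.w 0 ^ 2 * (2 * kap S X Y) * repD S Cf Cf ≤ S.w 0 ^ 2 * (2 * kap S X Y) * S.w 0 ^ 2 :=
    mul_le_mul_of_nonneg_left e3 (by positivity)
  have h6 : (S.w 0 ^ 2) ^ 2 * (4 * (S.phi θ * a + sX * sY - C * S.phi θ ^ 2) ^ 2) ≤ (S.w 0 ^ 2) ^ 2 * (2 * kap S X Y) := by
    calc _ = (S.w 0 ^ 2 * (2 * (S.phi θ * a + sX * sY - C * S.phi θ ^ 2))) ^ 2 := by ring
      _ ≤ _ := hcs.trans h5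
      _ = _ := by ring
  have h7 := le_of_mul_le_mul_left h6 (by positivity)
  linarith

/-- L-PH-B2.  **[C](2.12)-(2.13) in finite form.**  `g(v) = N(v)/D(v)`, `N = E[X sin(θ+vY)]`, `D = φ(θ+vY) ≥ c`.  `ph_hasDerivAt_sin/cos` (`P = X`, `P = 1`): `g' = (D E[XY cos] + N E[Y sin])/D²`; by `ph_replica` at the phase `θ + v • Y`: `|g' - Cov(X,Y)| ≤ √(κ/2)/c²`.
Mean value inequality for `g(v) - v Cov(X,Y)` on `[0,1]` (`Convex.norm_image_sub_le_of_norm_hasDerivWithin_le` or `image_norm_le_of_norm_deriv_right_le_deriv_boundary`). -/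
theorem ph_ratio_deriv (S : LSys) (hS : S.Ok) (X Y θ : S.L →+ ℝ) (c : ℝ) (hc : 0 < c)
    (hφ : ∀ v : ℝ, 0 ≤ v → v ≤ 1 → c ≤ S.phi (θ + v • Y)) :
    |S.E0 (fun z => X z * Real.sin ((θ + Y) z)) / S.phi (θ + Y) - S.E0 (fun z => X z * Real.sin (θ z)) / S.phi θ - S.Cv 0 0 X Y|
      ≤ Real.sqrt (kap S X Y / 2) / c ^ 2 := by
  set C := S.Cv 0 0 X Y with hC
  set K := Real.sqrt (kap S X Y / 2) with hK
  have hK0 : 0 ≤ K := Real.sqrt_nonneg _
  -- numerators and denominators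
  let N : ℝ → ℝ := fun v => S.E0 fun z => X z * Real.sin (θ z + v * Y z)
  let D : ℝ → ℝ := fun v => S.E0 fun z => 1 * Real.cos (θ z + v * Y z)
  have happ : ∀ (v : ℝ) (z : S.L), (θ + v • Y) z = θ z + v * Y z := fun v z => by
    simp [AddMonoidHom.add_apply]
  have hD : ∀ v, D v = S.phi (θ + v • Y) := fun v => by
    simp only [D, LSys.phi, happ, one_mul]
  have hN' : ∀ v, HasDerivAt N (S.E0 fun z => X z * Y z * Real.cos (θ z + v * Y z)) v := fun v =>
    ph_hasDerivAt_sin S hS (fun z => X z) (rd_dom_test X) θ Y v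
  have hD' : ∀ v, HasDerivAt D (-S.E0 fun z => 1 * Y z * Real.sin (θ z + v * Y z)) v := fun v =>
    ph_hasDerivAt_cos S hS (fun _ => 1) (rd_dom_const 1) θ Y v
  let f : ℝ → ℝ := fun v => N v / D v - v * C
  let f' : ℝ → ℝ := fun v => ((S.E0 fun z => X z * Y z * Real.cos (θ z + v * Y z)) * D v
      - N v * (-S.E0 fun z => 1 * Y z * Real.sin (θ z + v * Y z))) / D v ^ 2 - C
  have hDc : ∀ v ∈ Set.Icc (0 : ℝ) 1, c ≤ D v := fun v hv => by
    rw [hD]; exact hφ v hv.1 hv.2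
  have hf : ∀ v ∈ Set.Icc (0 : ℝ) 1, HasDerivWithinAt f (f' v) (Set.Icc 0 1) v := by
    intro v hv
    have hne : D v ≠ 0 := (lt_of_lt_of_le hc (hDc v hv)).ne'
    have h1 := ((hN' v).div (hD' v) hne).sub ((hasDerivAt_id v).mul_const C)
    refine HasDerivAt.hasDerivWithinAt (h1.congr_deriv ?_)
    simp [f']
  have hb : ∀ v ∈ Set.Icc (0 : ℝ) 1, ‖f' v‖ ≤ K / c ^ 2 := by
    intro v hv
    have hpos : 0 < D v := lt_of_lt_of_le hc (hDc v hv)
    have hrep := ph_replica S hS X Y (θ + v • Y)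
    simp only [happ] at hrep
    rw [← hD v] at hrep
    have e : f' v = (D v * S.E0 (fun z => X z * Y z * Real.cos (θ z + v * Y z))
        + S.E0 (fun z => X z * Real.sin (θ z + v * Y z)) * S.E0 (fun z => Y z * Real.sin (θ z + v * Y z))
        - C * D v ^ 2) / D v ^ 2 := by
      simp only [f', N, one_mul]
      generalize (S.E0 fun z => X z * Y z * Real.cos (θ z + v * Y z)) = a1
      generalize (S.E0 fun z => X z * Real.sin (θ z + v * Y z)) = a2
      generalize (S.E0 fun z => Y z * Real.sin (θ z + v * Y z)) = a3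
      field_simp
      ring
    rw [e, Real.norm_eq_abs, abs_div, abs_of_pos (by positivity : 0 < D v ^ 2)]
    calc _ ≤ K / D v ^ 2 := div_le_div_of_nonneg_right hrep (by positivity)
      _ ≤ K / c ^ 2 := by
        apply div_le_div_of_nonneg_left hK0 (by positivity)
        exact pow_le_pow_left₀ hc.le (hDc v hv) 2
  have hmv := Convex.norm_image_sub_le_of_norm_hasDerivWithin_le hf hb (convex_Icc 0 1)
    (Set.left_mem_Icc.2 zero_le_one) (Set.right_mem_Icc.2 zero_le_one)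
  have e1 : f 1 = S.E0 (fun z => X z * Real.sin ((θ + Y) z)) / S.phi (θ + Y) - C := by
    simp only [f, hD, N, one_smul, one_mul, AddMonoidHom.add_apply]
  have e0 : f 0 = S.E0 (fun z => X z * Real.sin (θ z)) / S.phi θ := by
    simp only [f, hD, N, zero_smul, zero_mul, add_zero, sub_zero]
  rw [e1, e0, Real.norm_eq_abs] at hmv
  simp only [sub_zero, norm_one, mul_one] at hmv
  calc _ = |S.E0 (fun z => X z * Real.sin ((θ + Y) z)) / S.phi (θ + Y) - C - S.E0 (fun z => X z * Real.sin (θ z)) / S.phi θ| := by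
        congr 1; ring
    _ ≤ _ := hmv

/-- L-PH-B3.  `lsys_phase_transfer S hS θ (v • Y)`, `rd_V0_smul`, `v² ≤ 1`; `-log φ(θ) ≤ -log r`; square and exponentiate (`Real.sqrt_le_sqrt`, `Real.sqrt_le_left`, `Real.exp_log (rd_phi_pos ..)`). -/
theorem ph_segment_lower (S : LSys) (hS : S.Ok) (θ Y : S.L →+ ℝ) (r V : ℝ) (hr : 0 < r) (h : r ≤ S.phi θ) (hV : S.V0 Y ≤ V)
    (v : ℝ) (h0 : 0 ≤ v) (h1 : v ≤ 1) :
    Real.exp (-(Real.sqrt (-Real.log r) + Real.sqrt (V / 2)) ^ 2) ≤ S.phi (θ + v • Y) := by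
  have hp : 0 < S.phi (θ + v • Y) := rd_phi_pos hS _
  have hp1 : S.phi (θ + v • Y) ≤ 1 := lsys_phi_le_one S hS _
  have hl : 0 ≤ -Real.log (S.phi (θ + v • Y)) := neg_nonneg.2 (Real.log_nonpos hp.le hp1)
  have ht := lsys_phase_transfer S hS θ (v • Y)
  have hV0 : 0 ≤ S.V0 Y := rd_V0_nonneg hS Y
  have hv2 : S.V0 (v • Y) ≤ V := by
    rw [rd_V0_smul]
    have : v ^ 2 ≤ 1 := pow_le_one₀ h0 h1
    nlinarith
  have h2 : Real.sqrt (-Real.log (S.phi θ)) ≤ Real.sqrt (-Real.log r) :=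
    Real.sqrt_le_sqrt (neg_le_neg (Real.log_le_log hr h))
  have h3 : Real.sqrt (S.V0 (v • Y) / 2) ≤ Real.sqrt (V / 2) :=
    Real.sqrt_le_sqrt (by linarith)
  have h4 : Real.sqrt (-Real.log (S.phi (θ + v • Y))) ≤ Real.sqrt (-Real.log r) + Real.sqrt (V / 2) := by
    linarith
  have h5 : -Real.log (S.phi (θ + v • Y)) ≤ (Real.sqrt (-Real.log r) + Real.sqrt (V / 2)) ^ 2 := by
    calc -Real.log (S.phi (θ + v • Y)) = Real.sqrt (-Real.log (S.phi (θ + v • Y))) ^ 2 := (Real.sq_sqrt hl).symm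
      _ ≤ _ := pow_le_pow_left₀ (Real.sqrt_nonneg _) h4 2
  calc Real.exp (-(Real.sqrt (-Real.log r) + Real.sqrt (V / 2)) ^ 2) ≤ Real.exp (Real.log (S.phi (θ + v • Y))) :=
        Real.exp_le_exp.2 (by linarith)
    _ = _ := Real.exp_log hp

/-- L-PH-B3.  Phases which tend to zero stay small after a perturbation of bounded variance: `lsys_phase_transfer` with `(X, Y) := (θ + Y, -Y)`: `√(-log φ(θ)) ≤ √(-log φ(θ+Y)) + √(V/2)`, and `-log φ(θ) → ∞`. -/
theorem ph_transfer_zero (S : ℕ → LSys) (hS : ∀ k, (S k).Ok) (θ Y : ∀ k, (S k).L →+ ℝ) (V : ℝ) (hV : ∀ k, (S k).V0 (Y k) ≤ V)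
    (h : Tendsto (fun k => (S k).phi (θ k)) atTop (𝓝 0)) : Tendsto (fun k => (S k).phi (θ k + Y k)) atTop (𝓝 0) := by
  rw [Metric.tendsto_atTop] at h ⊢
  intro ε hε
  obtain ⟨N, hN⟩ := h (Real.exp (-(Real.sqrt (-Real.log ε) + Real.sqrt (V / 2)) ^ 2)) (Real.exp_pos _)
  refine ⟨N, fun k hk => ?_⟩
  have h1 := hN k hk
  rw [Real.dist_eq, sub_zero, abs_of_pos (rd_phi_pos (hS k) _)] at h1 ⊢
  by_contra hcon
  push Not at hcon
  have hV' : (S k).V0 (-Y k) ≤ V := by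
    have := rd_V0_smul (-1) (Y k)
    rw [neg_one_smul] at this
    rw [this]
    have := hV k
    linarith
  have h2 := ph_segment_lower (S k) (hS k) (θ k + Y k) (-Y k) ε V hε hcon hV' 1 zero_le_one le_rfl
  have e : θ k + Y k + (1:ℝ) • (-Y k) = θ k := by simp
  rw [e] at h2
  linarith

/-- L-PH-B4.  Derivative of `pi_phi` in the direction `T` of the component `j`: `s ↦ φ_π(∑ θ_i + s T_j) = φ_j(θ_j + sT) ∏_{i ≠ j} φ_i(θ_i)`; both sides are differentiable at `0` (`ph_hasDerivAt_cos`, `P = 1`), `HasDerivAt.unique`. -/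
theorem ph_pi_sin {ι : Type} [Fintype ι] (S : ι → LSys) (h : ∀ i, (S i).Ok) (θ : ∀ i, (S i).L →+ ℝ) (j : ι) (T : (S j).L →+ ℝ) :
    (pi S).E0 (fun z => T (piPr S j z) * Real.sin ((∑ i, (θ i).comp (piPr S i)) z)) =
      (S j).E0 (fun z => T z * Real.sin (θ j z)) * ∏ i ∈ Finset.univ.erase j, (S i).phi (θ i) := by
  have hOk := pi_ok S h
  set Θ : (pi S).L →+ ℝ := ∑ i, (θ i).comp (piPr S i) with hΘ
  set Y : (pi S).L →+ ℝ := T.comp (piPr S j) with hY
  set Pr : ℝ := ∏ i ∈ Finset.univ.erase j, (S i).phi (θ i) with hPr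
  have hfun : (fun s : ℝ => (pi S).E0 fun z => 1 * Real.cos (Θ z + s * Y z)) =
      fun s : ℝ => ((S j).E0 fun z => 1 * Real.cos (θ j z + s * T z)) * Pr := by
    funext s
    have h1 := pi_phi S h (Function.update θ j (θ j + s • T))
    rw [← Finset.mul_prod_erase Finset.univ _ (Finset.mem_univ j), Function.update_self] at h1
    have h2 : ∏ i ∈ Finset.univ.erase j, (S i).phi (Function.update θ j (θ j + s • T) i) = Pr := by
      refine Finset.prod_congr rfl fun i hi => ?_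
      rw [Function.update_of_ne (Finset.ne_of_mem_erase hi)]
    rw [h2] at h1
    have h3 : ∑ i, (Function.update θ j (θ j + s • T) i).comp (piPr S i) = Θ + s • Y := by
      rw [hΘ, ← Finset.add_sum_erase Finset.univ _ (Finset.mem_univ j), Function.update_self,
        ← Finset.add_sum_erase Finset.univ (fun i => (θ i).comp (piPr S i)) (Finset.mem_univ j)]
      have h4 : ∑ i ∈ Finset.univ.erase j, (Function.update θ j (θ j + s • T) i).comp (piPr S i)
          = ∑ i ∈ Finset.univ.erase j, (θ i).comp (piPr S i) := by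
        refine Finset.sum_congr rfl fun i hi => ?_
        rw [Function.update_of_ne (Finset.ne_of_mem_erase hi)]
      rw [h4]
      ext z
      simp [hY]
      ring
    rw [h3] at h1
    simp only [LSys.phi, AddMonoidHom.add_apply, AddMonoidHom.smul_apply, smul_eq_mul] at h1
    simpa only [one_mul] using h1
  have d1 := ph_hasDerivAt_cos (pi S) hOk (fun _ => 1) (rd_dom_const 1) Θ Y 0
  have d2 := (ph_hasDerivAt_cos (S j) (h j) (fun _ => 1) (rd_dom_const 1) (θ j) T 0).mul_const Pr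
  rw [hfun] at d1
  have := d1.unique d2
  simp only [one_mul, zero_mul, add_zero, neg_mul, neg_inj] at this
  exact this

/-! ## 4. s0 of `Read/C2.lean` -/

/-! `C2.ref_mgf`, `C2.ref_var`, `C2.ref_moment` are PROVED in `Free/Sys.lean` (`fr_ref_mgf`, `fr_ref_var`, `fr_ref_moment`, helper60 / helper298). -/

/-- L-PH-Z4 (= `C2.phase_tilt`).  `rd_cos_bound hS 0 Y X 0`, divide by `w 0` (`rd_E0_eq`, `rd_E0_exp`, `rd_w_pos`). -/
theorem ph_phase_tilt (S : LSys) (hS : S.Ok) (X Y : S.L →+ ℝ) :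
    |S.E0 (fun z => Real.exp (Y z) * Real.cos (X z))| ≤ S.E0 (fun z => Real.exp (Y z)) * S.phi X := by
  have h := rd_cos_bound hS 0 Y X 0
  simp only [add_zero] at h
  have hw := rd_w_pos hS 0
  rw [rd_E0_eq, rd_E0_exp, abs_div, abs_of_pos hw, div_mul_eq_mul_div]
  exact div_le_div_of_nonneg_right h hw.le

private theorem ph_amb_zero {G : HGraph} (H : HLaw G) (b : ℝ) : (HLaw.Aff.zero H).amb b = 0 := by
  unfold HLaw.Aff.amb HLaw.Aff.zero
  rw [map_zero, zero_add]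
  refine Prod.ext rfl (funext fun o => ?_)
  exact neg_zero

/-- L-PH-Z4 (= `C2.ex_eq_E0`).  `Free.E0_heights` with `Φ z = F (X z)`; unfold `HLaw.Ex`, `HLaw.Z`, `HLaw.Aff.zero`, `Aff.amb` (`x = 0, τ = 0, c = 0`: the datum is `0`); `hX` identifies `X (coordA h) = pair f (2π h)`. -/
theorem ph_ex_eq_E0 {G : HGraph} (H : HLaw G) (hP : H.Proper) (b : ℝ) (f : G.V → ℝ) (X : (H.sys b).L →+ ℝ) (hX : H.Lift b f X)
    (F : ℝ → ℝ) : H.Ex b (HLaw.Aff.zero H) (fun φ => F (HLaw.pair f φ)) = (H.sys b).E0 fun z => F (X z) := by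
  rw [Free.E0_heights H hP]
  unfold HLaw.Ex HLaw.Z
  rw [ph_amb_zero]
  congr 1
  · refine tsum_congr fun h => ?_
    rw [hX _ h.2, add_zero]
    congr 2
    funext v
    show 2 * Real.pi * ((((h : G.V → ℤ) v + 0 : ℤ)) : ℝ) = _
    rw [add_zero]
  · refine tsum_congr fun h => ?_
    rw [add_zero, one_mul]

end

end Claimed.Agent.R285.Phase
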