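import Claimed.Agent.R285.Phase.Geo
import Claimed.Agent.R285.Free.Lap

/-!
# ROW 285, unit FREE / PHASE, file 3: the uniform fractional mean on free squares = [C](2.9), [E](5.9), [B]T2.3 (architect helper200).

## The argument (finite until the last step; no compactness, no entire functions)
`B = sq m`, `X` = test of `x/m` (right minus left face average, variance `a_m`), `Y` = test of `pot 0` (right face minus volume), `Θ₀ = l⟨φ,u⟩`, `Θ₁ = Θ₀ + lY = l⟨φ,ρ_R⟩`, `f = E[X sin Θ₁]`, `p = E cos Θ₁`, `χ = E cos Θ₀`.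
1. TWO CELLS, one soft row (`ph_join_var` on the array `2 × 1`, sector `q = l`): `4 e^{-l²/2} f² e^{-4π² b l²/m} ≤ Θ (2 a_m - Var_J T)`  (`two_ineq`), `T` = affine test without the seam.
2. `Var_J T ≥ (√(2 a_{2m}) - 2π √(b/m))²` (`two_varJ`: cut the square `2m` into two copies of `J`; the horizontal cut does not meet the horizontal flow).  So `f → 0` under `ScaleCoef`.
3. `E[X sin Θ₀] = 0` (reflection), `Cov(X, Y) = a_m/2` EXACTLY (reflection), `ph_ratio_deriv`: `|f/p - l a_m/2| ≤ √(κ/2)/c²` as soon as `χ ≥ r` (`c = c(r, l, β)` by phase transfer), `κ = κ(X,X,lY,lY) → 0` (T2.4).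
4. If `χ ≥ r` frequently, then `|f| ≥ c |l| a/4` frequently: contradiction with 2.

LEAVES `L-PH-T*`: every `sorry`.
-/

set_option autoImplicit false

namespace Claimed.Agent.R285.Phase

open Filter Topology C2 Free
open scoped Classical

noncomputable section

/-- flux data of the two-cell array: one unit from the left cell to the right cell -/
def twoP : ℤ × ℤ → Fin 4 → ℝ := fun i d => if i = (0, 0) ∧ d = 0 then 1 else if i = (1, 0) ∧ d = 1 then -1 else 0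

/-- a gradient flow without the seam bonds of the grid of mesh `m` -/
def inFlow (m : ℕ) (g : ℤ × ℤ → ℝ) : Bond → ℝ := fun e => if cidx (0, 0) m e.1 = cidx (0, 0) m e.snd then gd g e else 0

/-- the affine test `X` on `sq m` -/
def tX (b : ℝ) (m : ℕ) : ((C2.sq m).sys b).L →+ ℝ := (C2.sq m).gradX b fun v => (v.1 : ℝ) / m

/-- the test `Y` = right face minus volume -/
def tY (b : ℝ) (m : ℕ) : ((C2.sq m).sys b).L →+ ℝ := (C2.sq m).gradX b ((C2.sq m).pot 0)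

/-- the phase `Θ₀ = l ⟨φ, u⟩` -/
def tU (b : ℝ) (m : ℕ) (l : ℤ) : ((C2.sq m).sys b).L →+ ℝ := (C2.sq m).flowX b ((C2.sq m).pathFlow fun v => (l : ℝ) * (C2.sq m).unif v)

/-- the phase `Θ₁ = l ⟨φ, ρ_R⟩` -/
def tR (b : ℝ) (m : ℕ) (l : ℤ) : ((C2.sq m).sys b).L →+ ℝ := (C2.sq m).flowX b ((C2.sq m).pathFlow fun v => (l : ℝ) * (C2.sq m).face 0 v)

/-- `f = E[X sin Θ₁]` -/
def fR (b : ℝ) (m : ℕ) (l : ℤ) : ℝ := ((C2.sq m).sys b).E0 fun z => tX b m z * Real.sin (tR b m l z)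

/-! ## 1. Two cells -/


theorem two_mem_arrK {i : ℤ × ℤ} : i ∈ (arrK 2 1).set ↔ i = (0, 0) ∨ i = (1, 0) := by
  rw [fr_mem_set]
  simp only [arrK]
  constructor
  · rintro ⟨⟨h1, h2⟩, h3, h4⟩
    have h5 : i.2 = 0 := by push_cast at h4; omega
    have h6 : i.1 = 0 ∨ i.1 = 1 := by push_cast at h2; omega
    rcases h6 with h6 | h6
    · exact Or.inl (Prod.ext h6 h5)
    · exact Or.inr (Prod.ext h6 h5)
  · rintro (rfl | rfl) <;> simp

/-- L-PH-T1.  Case analysis on `arrK 2 1 = {(0,0), (1,0)}`. -/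
theorem twoP_flux : Flux 2 1 twoP ∧ Outer 2 1 twoP 0 ∧ ∀ i ∈ (arrK 2 1).set, ∃ n : ℤ, ∑ d, twoP i d = n := by
  refine ⟨⟨?_, ?_⟩, ?_, ?_⟩
  · intro i hi hi'
    rw [two_mem_arrK] at hi hi'
    rcases hi with rfl | rfl
    · simp [twoP]
    · rcases hi' with h | h
      · simp at h
      · simp at h
  · intro i hi hi'
    rw [two_mem_arrK] at hi hi'
    rcases hi with rfl | rfl
    · rcases hi' with h | h <;> simp at h
    · rcases hi' with h | h <;> simp at h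
  · intro i hi d hd
    rw [two_mem_arrK] at hi hd
    rcases hi with rfl | rfl
    · fin_cases d
      · exact absurd (Or.inr (by simp [nbr])) hd
      · simp [twoP]
      · simp [twoP]
      · simp [twoP]
    · fin_cases d
      · simp [twoP]
      · exact absurd (Or.inl (by simp [nbr])) hd
      · simp [twoP]
      · simp [twoP]
  · intro i hi
    rw [two_mem_arrK] at hi
    rcases hi with rfl | rfl
    · exact ⟨1, by simp [twoP, Fin.sum_univ_four]⟩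
    · exact ⟨-1, by simp [twoP, Fin.sum_univ_four]⟩

/-- a flow which vanishes on the bonds has no variance -/
theorem two_var_zero (R : Rc) (b : ℝ) (w : Bond → ℝ) (h : ∀ e ∈ R.bd, w e = 0) : R.var b w = 0 := by
  have e : R.var b w = R.var b (fun e => 0 * w e) := by
    unfold Rc.var
    rw [flowX_congr R b (w := w) (w' := fun e => 0 * w e) fun e he => by rw [h e he, mul_zero]]
  rw [e, fr_var_smul]
  ring

theorem two_var_congr (R : Rc) (b : ℝ) {w w' : Bond → ℝ} (h : ∀ e ∈ R.bd, w e = w' e) : R.var b w = R.var b w' := by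
  unfold Rc.var
  rw [flowX_congr R b h]

/-- inside a cell `inFlow` is the gradient -/
theorem two_inFlow_cell {m : ℕ} (hm : 0 < m) (g : ℤ × ℤ → ℝ) (i : ℤ × ℤ) {e : Bond} (he : e ∈ (cel m i).bd) :
    inFlow m g e = gd g e := by
  have h1 := (mem_cellRc hm).1 (mem_bd.1 he).1
  have h2 := (mem_cellRc hm).1 (mem_bd.1 he).2
  unfold inFlow
  rw [if_pos (h1.trans h2.symm)]

theorem two_cell_var (b : ℝ) (hb : 0 < b) (m : ℕ) (hm : 0 < m) (i : ℤ × ℤ) :
    (cel m i).var b (inFlow m fun v => (v.1 : ℝ) / m) = aCoef b m := by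
  rw [two_var_congr (cel m i) b fun e he => two_inFlow_cell hm _ i he]
  have h := fr_affine_sq ((0 : ℤ) + i.1 * m, (0 : ℤ) + i.2 * m) m b hb (1 / (m : ℝ)) 0 0
  have e : (fun v : ℤ × ℤ => 1 / (m : ℝ) * (v.1 : ℝ) + 0 * (v.2 : ℝ) + 0) = fun v : ℤ × ℤ => (v.1 : ℝ) / m := by
    funext v; ring
  rw [e] at h
  have hm' : (m : ℝ) ≠ 0 := Nat.cast_ne_zero.2 hm.ne'
  calc (cel m i).var b (gd fun v => (v.1 : ℝ) / m) = ((1 / (m : ℝ)) ^ 2 + 0 ^ 2) * (m : ℝ) ^ 2 * aCoef b m := h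
    _ = aCoef b m := by field_simp; ring

theorem two_seam_var (b : ℝ) (m G₁ G₂ : ℕ) (g : ℤ × ℤ → ℝ) (e : {e : Bond // e ∈ seam m G₁ G₂}) :
    (bondRc e.1).var b (inFlow m g) = 0 := by
  refine two_var_zero _ b _ fun e' he' => ?_
  rw [bondRc_bd, Finset.mem_singleton] at he'
  subst he'
  have h := (Finset.mem_filter.1 e.2).2
  unfold inFlow
  rw [if_neg h]

theorem two_card_arrK : (arrK 2 1).set.card = 2 := by
  unfold Rc.set arrK
  simp

/-- L-PH-T1.  `cut_var`, `Fintype.sum_sum_type`.  Cells: `inFlow = gd (x/m)` on the bonds of a cell (`mem_cellRc`, `flowX_congr`), `fr_affine_sq` with `p₁ = 1/m`; `arrK 2 1` has two elements.  Seam pieces: `inFlow = 0` on the only bond (`bondRc_bd`). -/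
theorem two_var0 (b : ℝ) (hb : 0 < b) (m : ℕ) (hm : 0 < m) :
    (cutS b (arrQ m 2 1)).V0 (cutX b (arrQ m 2 1) (inFlow m fun v => (v.1 : ℝ) / m)) = 2 * aCoef b m := by
  rw [cut_var b hb, Fintype.sum_sum_type]
  have h1 : ∀ i : {i : ℤ × ℤ // i ∈ (arrK 2 1).set}, (arrQ m 2 1 (Sum.inl i)).var b (inFlow m fun v => (v.1 : ℝ) / m) = aCoef b m :=
    fun i => two_cell_var b hb m hm i.1
  have h2 : ∀ e : {e : Bond // e ∈ seam m 2 1}, (arrQ m 2 1 (Sum.inr e)).var b (inFlow m fun v => (v.1 : ℝ) / m) = 0 :=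
    fun e => two_seam_var b m 2 1 _ e
  simp only [h1, h2, Finset.sum_const, Finset.card_univ, Fintype.card_coe, two_card_arrK, smul_zero, add_zero]
  simp


theorem two_gd_x (m : ℕ) (e : Bond) : gd (fun v : ℤ × ℤ => (v.1 : ℝ) / m) e = if e.2 then 1 / (m : ℝ) else 0 := by
  rw [← fr_gd_affine (1 / (m : ℝ)) 0 0 e]
  congr 1
  funext v
  ring

/-- the seam part of a gradient flow -/
def seamFlow (m : ℕ) (g : ℤ × ℤ → ℝ) : Bond → ℝ := fun e => if cidx (0, 0) m e.1 = cidx (0, 0) m e.snd then 0 else gd g e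

theorem two_split (m : ℕ) (g : ℤ × ℤ → ℝ) : gd g = fun e => inFlow m g e + seamFlow m g e := by
  funext e
  unfold inFlow seamFlow
  by_cases h : cidx (0, 0) m e.1 = cidx (0, 0) m e.snd
  · rw [if_pos h, if_pos h, add_zero]
  · rw [if_neg h, if_neg h, zero_add]

theorem two_seam_cost (m : ℕ) (hm : 0 < m) : (arrJ m 2 1).cost (seamFlow m fun v => (v.1 : ℝ) / m) ≤ 1 / m := by
  have hm' : (0 : ℤ) < m := by exact_mod_cast hm
  unfold Rc.cost
  rw [fr_sum_bd]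
  have h2 : ∀ v : ℤ × ℤ, seamFlow m (fun v => (v.1 : ℝ) / m) (v, false) ^ 2 = 0 := by
    intro v
    unfold seamFlow
    rw [two_gd_x]
    simp
  have h1 : ∀ v ∈ Finset.Ico (arrJ m 2 1).o.1 ((arrJ m 2 1).o.1 + (arrJ m 2 1).p - 1) ×ˢ
      Finset.Ico (arrJ m 2 1).o.2 ((arrJ m 2 1).o.2 + (arrJ m 2 1).q),
      seamFlow m (fun v => (v.1 : ℝ) / m) (v, true) ^ 2 ≤ if v.1 = (m : ℤ) - 1 then (1 / (m : ℝ)) ^ 2 else 0 := by
    rintro ⟨x, y⟩ hv
    rw [Finset.mem_product, Finset.mem_Ico, Finset.mem_Ico] at hv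
    simp only [arrJ] at hv
    obtain ⟨⟨hx0, hx1⟩, -⟩ := hv
    push_cast at hx1
    by_cases hx : x = (m : ℤ) - 1
    · rw [if_pos hx]
      unfold seamFlow
      split_ifs
      · rw [zero_pow two_ne_zero]; positivity
      · rw [two_gd_x]; simp
    · rw [if_neg hx]
      have hc : cidx (0, 0) m (x, y) = cidx (0, 0) m (Bond.snd ((x, y), true)) := by
        simp only [cidx, Bond.snd, if_true, sub_zero]
        refine Prod.ext ?_ rfl
        show x / (m : ℤ) = (x + 1) / (m : ℤ)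
        rcases lt_or_ge x ((m : ℤ) - 1) with h | h
        · rw [(fr_ediv_eq_iff hm x 0).2 ⟨by omega, by omega⟩, (fr_ediv_eq_iff hm (x + 1) 0).2 ⟨by omega, by omega⟩]
        · rw [(fr_ediv_eq_iff hm x 1).2 ⟨by omega, by omega⟩, (fr_ediv_eq_iff hm (x + 1) 1).2 ⟨by omega, by omega⟩]
      have h0 : seamFlow m (fun v => (v.1 : ℝ) / m) ((x, y), true) = 0 := by
        unfold seamFlow
        exact if_pos hc
      rw [h0]
      simp
  simp only [h2, Finset.sum_const_zero, add_zero]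
  refine (Finset.sum_le_sum h1).trans ?_
  rw [Finset.sum_product, Finset.sum_comm]
  simp only [Finset.sum_ite_eq']
  have h3 : ∀ y ∈ Finset.Ico (arrJ m 2 1).o.2 ((arrJ m 2 1).o.2 + (arrJ m 2 1).q),
      (if (m : ℤ) - 1 ∈ Finset.Ico (arrJ m 2 1).o.1 ((arrJ m 2 1).o.1 + (arrJ m 2 1).p - 1) then (1 / (m : ℝ)) ^ 2 else 0)
        ≤ (1 / (m : ℝ)) ^ 2 := by
    intro y _
    split_ifs
    · exact le_rfl
    · positivity
  refine (Finset.sum_le_sum h3).trans ?_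
  rw [Finset.sum_const, Int.card_Ico]
  simp only [arrJ, add_sub_cancel_left, Int.toNat_natCast, one_mul, nsmul_eq_mul]
  have hmR : (m : ℝ) ≠ 0 := Nat.cast_ne_zero.2 hm.ne'
  apply le_of_eq
  field_simp

theorem two_half (b : ℝ) (hb : 0 < b) (m : ℕ) (hm : 0 < m) :
    2 * aCoef b (2 * m) ≤ (arrJ m 2 1).var b (gd fun v => (v.1 : ℝ) / m) := by
  have hmR : (m : ℝ) ≠ 0 := Nat.cast_ne_zero.2 hm.ne'
  have h4 : (C2.sq (2 * m)).var b (gd fun v => (v.1 : ℝ) / m) = 4 * aCoef b (2 * m) := by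
    have h := fr_affine_sq (0, 0) (2 * m) b hb (1 / (m : ℝ)) 0 0
    have e : (fun v : ℤ × ℤ => 1 / (m : ℝ) * (v.1 : ℝ) + 0 * (v.2 : ℝ) + 0) = fun v : ℤ × ℤ => (v.1 : ℝ) / m := by
      funext v; ring
    rw [e] at h
    calc (C2.sq (2 * m)).var b (gd fun v => (v.1 : ℝ) / m)
        = ((1 / (m : ℝ)) ^ 2 + 0 ^ 2) * ((2 * m : ℕ) : ℝ) ^ 2 * aCoef b (2 * m) := h
      _ = 4 * aCoef b (2 * m) := by push_cast; field_simp; ring
  obtain ⟨Q, hQ⟩ : ∃ Q : Bool → Rc, Q = fun t => cond t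
      (Rc.mk ((arrJ m 2 1).o + ((0 : ℤ), (m : ℤ))) (arrJ m 2 1).p (arrJ m 2 1).q) (arrJ m 2 1) := ⟨_, rfl⟩
  have memT : ∀ v : ℤ × ℤ, v ∈ (Q true).set ↔ (0 ≤ v.1 ∧ v.1 < 2 * m) ∧ ((m : ℤ) ≤ v.2 ∧ v.2 < 2 * m) := by
    intro v
    rw [hQ, fr_mem_set]
    simp only [cond_true, arrJ, Prod.mk_add_mk, zero_add]
    push_cast
    constructor <;> rintro ⟨⟨h1, h2⟩, h3, h4⟩ <;> refine ⟨⟨?_, ?_⟩, ?_, ?_⟩ <;> omega
  have memF : ∀ v : ℤ × ℤ, v ∈ (Q false).set ↔ (0 ≤ v.1 ∧ v.1 < 2 * m) ∧ (0 ≤ v.2 ∧ v.2 < m) := by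
    intro v
    rw [hQ, fr_mem_set]
    simp only [cond_false, arrJ]
    push_cast
    constructor <;> rintro ⟨⟨h1, h2⟩, h3, h4⟩ <;> refine ⟨⟨?_, ?_⟩, ?_, ?_⟩ <;> omega
  have memS : ∀ v : ℤ × ℤ, v ∈ (C2.sq (2 * m)).set ↔ (0 ≤ v.1 ∧ v.1 < 2 * m) ∧ (0 ≤ v.2 ∧ v.2 < 2 * m) := by
    intro v
    rw [fr_mem_set]
    simp only [C2.sq]
    push_cast
    constructor <;> rintro ⟨⟨h1, h2⟩, h3, h4⟩ <;> refine ⟨⟨?_, ?_⟩, ?_, ?_⟩ <;> omega
  have hcut := fr_cut_var (C2.sq (2 * m)) b hb Q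
    (by
      intro t v hv
      rw [memS]
      cases t
      · have := (memF v).1 hv; omega
      · have := (memT v).1 hv; omega)
    (by
      intro i j hij
      rw [Finset.disjoint_left]
      intro v h1 h2
      cases i <;> cases j
      · exact hij rfl
      · have a := (memF v).1 h1; have c := (memT v).1 h2; omega
      · have a := (memT v).1 h1; have c := (memF v).1 h2; omega
      · exact hij rfl)
    (gd fun v => (v.1 : ℝ) / m)
    (by
      rintro ⟨⟨x, y⟩, d⟩ he hno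
      rw [two_gd_x]
      cases d
      · simp
      · exfalso
        obtain ⟨h1, h2⟩ := mem_bd.1 he
        rw [memS] at h1 h2
        simp only [Bond.snd, if_true] at h1 h2
        rcases lt_or_ge y (m : ℤ) with hy | hy
        · refine hno false (mem_bd.2 ⟨(memF _).2 ?_, (memF _).2 ?_⟩)
          · exact ⟨h1.1, h1.2.1, hy⟩
          · simp only [Bond.snd, if_true]; exact ⟨h2.1, h2.2.1, hy⟩
        · refine hno true (mem_bd.2 ⟨(memT _).2 ?_, (memT _).2 ?_⟩)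
          · exact ⟨h1.1, hy, h1.2.2⟩
          · simp only [Bond.snd, if_true]; exact ⟨h2.1, hy, h2.2.2⟩)
  rw [Fintype.sum_bool, h4] at hcut
  have hT : (Q true).var b (gd fun v => (v.1 : ℝ) / m) = (arrJ m 2 1).var b (gd fun v => (v.1 : ℝ) / m) := by
    have h := fr_translate_var (arrJ m 2 1) ((0 : ℤ), (m : ℤ)) b (gd fun v => (v.1 : ℝ) / m)
    have e : (fun e : Bond => gd (fun v : ℤ × ℤ => (v.1 : ℝ) / m) (e.1 - ((0 : ℤ), (m : ℤ)), e.2))
        = gd fun v : ℤ × ℤ => (v.1 : ℝ) / m := by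
      funext e; rw [two_gd_x, two_gd_x]
    rw [e] at h
    rw [hQ]
    exact h
  have hF : (Q false).var b (gd fun v => (v.1 : ℝ) / m) = (arrJ m 2 1).var b (gd fun v => (v.1 : ℝ) / m) := by
    rw [hQ]; rfl
  rw [hT, hF] at hcut
  linarith

/-- L-PH-T2.  (i) `(sq (2m)).var (gd (x/m)) = 4 a_{2m}` (`fr_affine_sq`, `p₁ = 1/m`).  (ii) `fr_cut_var` for `sq (2m) ⊇ ⟨(0,0),2m,m⟩, ⟨(0,m),2m,m⟩`: the bonds in no piece are vertical, `gd (x/m) = 0` there; the two pieces have the same variance (`fr_translate` / `fr_sym_var`):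
`2 a_{2m} ≤ Var_J (gd (x/m))`.  (iii) `gd (x/m) = inFlow + seam part` on `J.bd`, `fr_sqrt_var_add`, `fr_var_ref`; the seam part has `m` bonds with the value `1/m`: cost `1/m`. -/
theorem two_varJ (b : ℝ) (hb : 0 < b) (m : ℕ) (hm : 0 < m) :
    Real.sqrt (2 * aCoef b (2 * m)) ≤ Real.sqrt ((arrJ m 2 1).var b (inFlow m fun v => (v.1 : ℝ) / m)) + 2 * Real.pi * Real.sqrt (b / m) := by
  have h1 := Real.sqrt_le_sqrt (two_half b hb m hm)
  have h2 := fr_sqrt_var_add (arrJ m 2 1) b hb (inFlow m fun v => (v.1 : ℝ) / m) (seamFlow m fun v => (v.1 : ℝ) / m)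
  rw [← two_split] at h2
  have h3 : (arrJ m 2 1).var b (seamFlow m fun v => (v.1 : ℝ) / m) ≤ (2 * Real.pi) ^ 2 * (b / m) := by
    refine (fr_var_ref _ b hb _).trans ?_
    calc 4 * Real.pi ^ 2 * b * (arrJ m 2 1).cost (seamFlow m fun v => (v.1 : ℝ) / m) ≤ 4 * Real.pi ^ 2 * b * (1 / m) :=
          mul_le_mul_of_nonneg_left (two_seam_cost m hm) (by positivity)
      _ = (2 * Real.pi) ^ 2 * (b / m) := by ring
  have h4 : Real.sqrt ((2 * Real.pi) ^ 2 * (b / m)) = 2 * Real.pi * Real.sqrt (b / m) := by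
    rw [Real.sqrt_mul (by positivity), Real.sqrt_sq (by positivity)]
  have h5 := Real.sqrt_le_sqrt h3
  rw [h4] at h5
  linarith


theorem two_refl_mem (m : ℕ) {x : ℤ × ℤ} (hx : x ∈ (C2.sq m).set) : reflX (m - 1) x ∈ (C2.sq m).set := by
  rw [(sq_refl m _).1, Equiv.symm_apply_apply]
  exact hx

/-- the affine test is odd under the reflection -/
theorem two_refl_X (m : ℕ) (hm : 0 < m) (x : ℤ × ℤ) (hx : x ∈ (C2.sq m).set) :
    (C2.sq m).dv (gd fun v : ℤ × ℤ => (v.1 : ℝ) / m) (reflX (m - 1) x) =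
      (C2.sq m).dv (fun e => -1 * gd (fun v : ℤ × ℤ => (v.1 : ℝ) / m) e) x := by
  rw [dv_smul]
  have h1 := (lap_affine m hm _ (two_refl_mem m hx)).1
  have h2 := (lap_affine m hm x hx).1
  have h3 := (face_refl m x).1
  rw [h3.1, h3.2.1] at h1
  have e1 : (C2.sq m).dv (gd fun v : ℤ × ℤ => (v.1 : ℝ) / m) (reflX (m - 1) x) =
      (C2.sq m).face 1 x - (C2.sq m).face 0 x := h1
  have e2 : (C2.sq m).dv (gd fun v : ℤ × ℤ => (v.1 : ℝ) / m) x =
      (C2.sq m).face 0 x - (C2.sq m).face 1 x := h2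
  rw [e1, e2]
  ring

theorem two_sum_face (m : ℕ) (hm : 0 < m) (c : ℝ) (d : Fin 4) : ∑ u ∈ (C2.sq m).set, c * (C2.sq m).face d u = c := by
  rw [← Finset.mul_sum, sum_face (C2.sq m) hm hm d, mul_one]

theorem two_sum_unif (m : ℕ) (hm : 0 < m) (c : ℝ) : ∑ u ∈ (C2.sq m).set, c * (C2.sq m).unif u = c := by
  rw [← Finset.mul_sum, sum_unif (C2.sq m) hm hm, mul_one]

/-- path flows of charges with integer totals: the root does not count -/
theorem two_path_int (m : ℕ) (f f' : ℤ × ℤ → ℝ) (l l' : ℤ) (hl : ∑ u ∈ (C2.sq m).set, f u = l)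
    (hl' : ∑ u ∈ (C2.sq m).set, f' u = l') (c : ℤ) (x y : ℤ × ℤ) (hx : x ∈ (C2.sq m).set) (hy : y ∈ (C2.sq m).set)
    (h : f' y = c * f x) :
    ∃ n : ℤ, (C2.sq m).dv ((C2.sq m).pathFlow f') y = (C2.sq m).dv (fun e => (c : ℝ) * (C2.sq m).pathFlow f e) x + n := by
  rw [dv_smul, dv_pathFlow _ _ _ hx, dv_pathFlow _ _ _ hy, hl, hl', h]
  refine ⟨c * l * (if x = (C2.sq m).o then 1 else 0) - l' * (if y = (C2.sq m).o then 1 else 0), ?_⟩
  push_cast
  ring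

/-- L-PH-T3.  Reflection `reflX (m-1)` in `ph_law_eq` with `(u, w) = (gd (x/m), pathFlow (l ρ₀))`, `(u', w') = (- gd (x/m), pathFlow (l ρ₁))` (`lap_affine`, `face_refl`, `dv_pathFlow`, `dv_smul`); `pathFlow (-l ρ₁) = - pathFlow (l ρ₁)`, `sin` is odd, `cos` is even. -/
theorem two_reflect (b : ℝ) (m : ℕ) (hm : 0 < m) (l : ℤ) :
    ((C2.sq m).sys b).E0 (fun z => tX b m z * Real.sin ((C2.sq m).flowX b ((C2.sq m).pathFlow fun v => -(l : ℝ) * (C2.sq m).face 1 v) z)) = fR b m l ∧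
    (C2.sq m).ph b ((C2.sq m).pathFlow fun v => -(l : ℝ) * (C2.sq m).face 1 v) = ((C2.sq m).sys b).phi (tR b m l) := by
  have hw : ∀ x ∈ (C2.sq m).set, ∃ n : ℤ,
      (C2.sq m).dv ((C2.sq m).pathFlow fun v => -(l : ℝ) * (C2.sq m).face 1 v) (reflX (m - 1) x) =
        (C2.sq m).dv (fun e => ((-1 : ℤ) : ℝ) * (C2.sq m).pathFlow (fun v => (l : ℝ) * (C2.sq m).face 0 v) e) x + n := by
    intro x hx
    refine two_path_int m _ _ l (-l) (two_sum_face m hm _ 0) ?_ (-1) x _ hx (two_refl_mem m hx) ?_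
    · rw [two_sum_face m hm _ 1]; push_cast; ring
    · rw [(face_refl m x).1.2.1]; push_cast; ring
  have key := ph_law_eq (reflX (m - 1)) (latIso_reflX _) (C2.sq m) (C2.sq m) (fun v => (sq_refl m v).1) b
    (fun e => -1 * gd (fun v : ℤ × ℤ => (v.1 : ℝ) / m) e) (gd fun v : ℤ × ℤ => (v.1 : ℝ) / m)
    (fun e => -1 * gd (fun v : ℤ × ℤ => (v.1 : ℝ) / m) e) (gd fun v : ℤ × ℤ => (v.1 : ℝ) / m)
    (fun e => ((-1 : ℤ) : ℝ) * (C2.sq m).pathFlow (fun v => (l : ℝ) * (C2.sq m).face 0 v) e)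
    ((C2.sq m).pathFlow fun v => -(l : ℝ) * (C2.sq m).face 1 v)
    (two_refl_X m hm) (two_refl_X m hm) hw
  have eX : (C2.sq m).flowX b (fun e => -1 * gd (fun v : ℤ × ℤ => (v.1 : ℝ) / m) e) = (-1 : ℝ) • tX b m := flowX_smul _ _ _ _
  have eR : (C2.sq m).flowX b (fun e => ((-1 : ℤ) : ℝ) * (C2.sq m).pathFlow (fun v => (l : ℝ) * (C2.sq m).face 0 v) e)
      = (((-1 : ℤ) : ℝ)) • tR b m l := flowX_smul _ _ _ _
  rw [eX, eR] at key
  constructor
  · have h := key fun x _ _ s => x * s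
    refine h.trans ?_
    unfold fR
    congr 1
    funext z
    simp only [AddMonoidHom.smul_apply, smul_eq_mul]
    push_cast
    rw [neg_one_mul, neg_one_mul, Real.sin_neg]
    ring
  · have h := key fun _ _ c _ => c
    refine h.trans ?_
    unfold LSys.phi
    congr 1
    funext z
    simp only [AddMonoidHom.smul_apply, smul_eq_mul]
    push_cast
    rw [neg_one_mul, Real.cos_neg]


theorem two_fch0 (m : ℕ) (l : ℝ) : (C2.sq m).fch (fun d => l * twoP (0, 0) d) = fun v => l * (C2.sq m).face 0 v := by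
  funext v
  unfold Rc.fch
  rw [Fin.sum_univ_four]
  simp [twoP]

theorem two_fch1 (m : ℕ) (l : ℝ) : (C2.sq m).fch (fun d => l * twoP (1, 0) d) = fun v => -l * (C2.sq m).face 1 v := by
  funext v
  unfold Rc.fch
  rw [Fin.sum_univ_four]
  simp [twoP]

theorem two_arrK_set : (arrK 2 1).set = {(0, 0), (1, 0)} := by
  ext i
  rw [two_mem_arrK]
  simp

theorem two_sumsq (l : ℝ) : ∑ i ∈ (arrK 2 1).set, ∑ d, (l * twoP i d) ^ 2 = 2 * l ^ 2 := by
  rw [two_arrK_set, Finset.sum_pair (by simp), Fin.sum_univ_four, Fin.sum_univ_four]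
  simp [twoP]
  ring

theorem two_cell_ph (b : ℝ) (m : ℕ) (hm : 0 < m) (l : ℤ) (i : ℤ × ℤ) (hi : i ∈ (arrK 2 1).set) :
    (cel m i).ph b (arrFlow m fun i d => (l : ℝ) * twoP i d) = ((C2.sq m).sys b).phi (tR b m l) := by
  rw [arr_cell_ph b m hm, phase_eqns_cite]
  rcases two_mem_arrK.1 hi with rfl | rfl
  · rw [two_fch0]; rfl
  · rw [two_fch1]; exact (two_reflect b m hm l).2

theorem two_cell_sin (b : ℝ) (m : ℕ) (hm : 0 < m) (l : ℤ) (i : ℤ × ℤ) (hi : i ∈ (arrK 2 1).set) :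
    ((cel m i).sys b).E0 (fun z => (cel m i).flowX b (inFlow m fun v => (v.1 : ℝ) / m) z *
      Real.sin ((cel m i).flowX b (arrFlow m fun i d => (l : ℝ) * twoP i d) z)) = fR b m l := by
  have e1 : (cel m i).flowX b (inFlow m fun v => (v.1 : ℝ) / m) = (cel m i).gradX b fun v => (v.1 : ℝ) / m :=
    flowX_congr _ _ fun e he => two_inFlow_cell hm _ i he
  rw [e1]
  have h : ((cel m i).sys b).E0 (fun z => (cel m i).gradX b (fun v => (v.1 : ℝ) / m) z *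
      Real.sin ((cel m i).flowX b (arrFlow m fun i d => (l : ℝ) * twoP i d) z)) =
      ((C2.sq m).sys b).E0 fun z => (C2.sq m).gradX b (fun v : ℤ × ℤ => ((v.1 + i.1 * m : ℤ) : ℝ) / m) z *
        Real.sin ((C2.sq m).flowX b ((C2.sq m).pathFlow ((C2.sq m).fch fun d => (l : ℝ) * twoP i d)) z) :=
    arr_cell_law b m hm (fun i d => (l : ℝ) * twoP i d) i (fun v => (v.1 : ℝ) / m) (fun x _ s => x * s)
  have hmR : (m : ℝ) ≠ 0 := Nat.cast_ne_zero.2 hm.ne'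
  have e2 : (C2.sq m).gradX b (fun v : ℤ × ℤ => ((v.1 + i.1 * m : ℤ) : ℝ) / m) = tX b m :=
    gradX_congr _ _ (i.1 : ℝ) fun v _ => by push_cast; field_simp
  rw [e2] at h
  rw [h]
  rcases two_mem_arrK.1 hi with rfl | rfl
  · rw [two_fch0]; rfl
  · rw [two_fch1]; exact (two_reflect b m hm l).1

theorem two_seam_sin (b : ℝ) (m G₁ G₂ : ℕ) (g : ℤ × ℤ → ℝ) (w : Bond → ℝ) (e : {e : Bond // e ∈ seam m G₁ G₂}) :
    ((bondRc e.1).sys b).E0 (fun z => (bondRc e.1).flowX b (inFlow m g) z * Real.sin ((bondRc e.1).flowX b w z)) = 0 := by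
  have e1 : (bondRc e.1).flowX b (inFlow m g) = (0 : ℝ) • (bondRc e.1).flowX b (inFlow m g) := by
    rw [← flowX_smul]
    refine flowX_congr _ _ fun e' he' => ?_
    rw [bondRc_bd, Finset.mem_singleton] at he'
    subst he'
    have h := (Finset.mem_filter.1 e.2).2
    unfold inFlow
    rw [if_neg h, mul_zero]
  rw [e1, zero_smul]
  have : (fun z : ((bondRc e.1).sys b).L => (0 : ((bondRc e.1).sys b).L →+ ℝ) z * Real.sin ((bondRc e.1).flowX b w z))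
      = fun z => 0 * Real.sin ((bondRc e.1).flowX b w z) := by
    funext z; simp
  rw [this, rd_E0_smul, zero_mul]

theorem two_sigma (b : ℝ) (hb : 0 < b) (m : ℕ) (hm : 0 < m) (l : ℝ) :
    Real.exp (-(4 * Real.pi ^ 2 * b * l ^ 2 / m)) ≤
      ∏ e : {e : Bond // e ∈ seam m 2 1}, (bondRc e.1).ph b (arrFlow m fun i d => l * twoP i d) ∧
    ∏ e : {e : Bond // e ∈ seam m 2 1}, (bondRc e.1).ph b (arrFlow m fun i d => l * twoP i d) ≤ 1 := by
  obtain ⟨w, hw⟩ : ∃ w : Bond → ℝ, w = arrFlow m fun i d => l * twoP i d := ⟨_, rfl⟩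
  rw [← hw]
  constructor
  · have hlow : ∀ e : {e : Bond // e ∈ seam m 2 1},
        Real.exp (-(2 * Real.pi ^ 2 * b * w e.1 ^ 2)) ≤ (bondRc e.1).ph b w := by
      intro e
      have h := ph_lower (bondRc e.1) b hb w
      have hc : (bondRc e.1).cost w = w e.1 ^ 2 := by
        unfold Rc.cost
        rw [bondRc_bd, Finset.sum_singleton]
      rwa [hc] at h
    have hcost : ∑ e ∈ seam m 2 1, w e ^ 2 ≤ 2 * l ^ 2 / m := by
      have h := arr_seam_cost m 2 1 hm fun i d => l * twoP i d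
      rwa [two_sumsq, ← hw] at h
    calc Real.exp (-(4 * Real.pi ^ 2 * b * l ^ 2 / m))
        ≤ Real.exp (∑ e : {e : Bond // e ∈ seam m 2 1}, -(2 * Real.pi ^ 2 * b * w e.1 ^ 2)) := by
          apply Real.exp_le_exp.2
          rw [Finset.sum_coe_sort (seam m 2 1) fun e => -(2 * Real.pi ^ 2 * b * w e ^ 2), Finset.sum_neg_distrib,
            ← Finset.mul_sum]
          have := mul_le_mul_of_nonneg_left hcost (show 0 ≤ 2 * Real.pi ^ 2 * b by positivity)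
          have e : 2 * Real.pi ^ 2 * b * (2 * l ^ 2 / m) = 4 * Real.pi ^ 2 * b * l ^ 2 / m := by ring
          linarith
      _ = ∏ e : {e : Bond // e ∈ seam m 2 1}, Real.exp (-(2 * Real.pi ^ 2 * b * w e.1 ^ 2)) := Real.exp_sum _ _
      _ ≤ ∏ e : {e : Bond // e ∈ seam m 2 1}, (bondRc e.1).ph b w :=
          Finset.prod_le_prod (fun _ _ => (Real.exp_pos _).le) fun e _ => hlow e
  · exact Finset.prod_le_one (fun e _ => (ph_pos _ b hb w).1.le) fun e _ => (ph_pos _ b hb w).2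

theorem two_erase {ι : Type} [Fintype ι] {D : DecidableEq ι} (F : ι → ℝ) (j : ι) (p P : ℝ) (hp : p ≠ 0) (hj : F j = p)
    (hP : ∏ k, F k = p * P) : ∏ k ∈ @Finset.erase ι D Finset.univ j, F k = P := by
  have h2 := Finset.mul_prod_erase Finset.univ F (Finset.mem_univ j)
  rw [hj, hP] at h2
  exact mul_left_cancel₀ hp h2

/-- L-PH-T4.  **The sector `q = l` of the two-cell array.**  `w = l · arrFlow m twoP`, `u = inFlow m (x/m)`.  `cut_phi`, `cut_sin`, `Fintype.prod_sum_type`, `Fintype.sum_sum_type`.  `σ := ∏_{seam e} (bondRc e).ph b w ∈ [exp(-4π² b l²/m), 1]` (`ph_lower`, `ph_pos`, `arr_seam_cost`: `∑_i ∑_d (l twoP i d)² = 2 l²`).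
Cell `(0,0)`: `arr_cell_law` (`H = l twoP`, face charge `l ρ₀`): `E[X sin] = f`, phase `p`.  Cell `(1,0)`: face charge `-l ρ₁`: `two_reflect`: again `f`, `p`.  (The shift `x/m` changes by a constant under the translation: `gradX_congr`.)  Seam pieces: `flowX u = 0`. -/
theorem two_sector (b : ℝ) (hb : 0 < b) (m : ℕ) (hm : 0 < m) (l : ℤ) :
    ∃ σ : ℝ, Real.exp (-(4 * Real.pi ^ 2 * b * (l : ℝ) ^ 2 / m)) ≤ σ ∧ σ ≤ 1 ∧
      (cutS b (arrQ m 2 1)).phi ((l : ℝ) • cutX b (arrQ m 2 1) (arrFlow m twoP)) = ((C2.sq m).sys b).phi (tR b m l) ^ 2 * σ ∧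
      (cutS b (arrQ m 2 1)).E0 (fun z => cutX b (arrQ m 2 1) (inFlow m fun v => (v.1 : ℝ) / m) z *
          Real.sin (((l : ℝ) • cutX b (arrQ m 2 1) (arrFlow m twoP)) z)) = 2 * fR b m l * ((C2.sq m).sys b).phi (tR b m l) * σ := by
  have e0 : (l : ℝ) • cutX b (arrQ m 2 1) (arrFlow m twoP) = cutX b (arrQ m 2 1) (arrFlow m fun i d => (l : ℝ) * twoP i d) := by
    rw [← cutX_smul]
    congr 1
    funext e
    rw [arrFlow_smul]
  rw [e0]
  have hσ := two_sigma b hb m hm (l : ℝ)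
  have hcp := two_cell_ph b m hm l
  have hcs := two_cell_sin b m hm l
  have hp0 : 0 < ((C2.sq m).sys b).phi (tR b m l) := rd_phi_pos (fr_ok _ b hb) _
  obtain ⟨w, hw⟩ : ∃ w : Bond → ℝ, w = arrFlow m fun i d => (l : ℝ) * twoP i d := ⟨_, rfl⟩
  obtain ⟨p, hp⟩ : ∃ p : ℝ, p = ((C2.sq m).sys b).phi (tR b m l) := ⟨_, rfl⟩
  obtain ⟨f, hf⟩ : ∃ f : ℝ, f = fR b m l := ⟨_, rfl⟩
  rw [← hw] at hσ hcp hcs ⊢
  rw [← hp] at hcp hp0 ⊢
  rw [← hf] at hcs ⊢
  obtain ⟨σ, hσd⟩ : ∃ σ : ℝ, σ = ∏ e : {e : Bond // e ∈ seam m 2 1}, (bondRc e.1).ph b w := ⟨_, rfl⟩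
  rw [← hσd] at hσ
  have hprod : ∏ k, (arrQ m 2 1 k).ph b w = p ^ 2 * σ := by
    rw [Fintype.prod_sum_type]
    have h1 : ∀ i : {i : ℤ × ℤ // i ∈ (arrK 2 1).set}, (arrQ m 2 1 (Sum.inl i)).ph b w = p := fun i => hcp i.1 i.2
    simp only [h1, Finset.prod_const, Finset.card_univ, Fintype.card_coe, two_card_arrK]
    rw [hσd]
    rfl
  refine ⟨σ, hσ.1, hσ.2, ?_, ?_⟩
  · rw [cut_phi b hb, hprod]
  · rw [cut_sin b hb, Fintype.sum_sum_type]
    refine (congrArg₂ (· + ·) (Finset.sum_congr rfl fun i _ => show _ = f * (p * σ) from ?_)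
      (Finset.sum_congr rfl fun e _ => show _ = (0 : ℝ) from ?_)).trans ?_
    · have h1 : ((arrQ m 2 1 (Sum.inl i)).sys b).E0 (fun z => (arrQ m 2 1 (Sum.inl i)).flowX b (inFlow m fun v => (v.1 : ℝ) / m) z *
          Real.sin ((arrQ m 2 1 (Sum.inl i)).flowX b w z)) = f := hcs i.1 i.2
      rw [h1, two_erase (fun k => (arrQ m 2 1 k).ph b w) (Sum.inl i) p (p * σ) hp0.ne' (hcp i.1 i.2) (by rw [hprod]; ring)]
    · have h1 : ((arrQ m 2 1 (Sum.inr e)).sys b).E0 (fun z => (arrQ m 2 1 (Sum.inr e)).flowX b (inFlow m fun v => (v.1 : ℝ) / m) z *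
          Real.sin ((arrQ m 2 1 (Sum.inr e)).flowX b w z)) = 0 := two_seam_sin b m 2 1 _ w e
      rw [h1, zero_mul]
    · simp only [Finset.sum_const, Finset.card_univ, Fintype.card_coe, two_card_arrK, smul_zero, add_zero]
      rw [two_nsmul]
      ring


theorem two_arith {E f p σ Θ ε VJ A : ℝ} (hE : 0 ≤ E) (hp : 0 < p) (hε : 0 < ε) (hεσ : ε ≤ σ) (hΘ : 0 < Θ)
    (h : VJ + E * (2 * f * p * σ) ^ 2 / (p ^ 2 * σ * Θ) ≤ A) : E * (4 * f ^ 2) * ε ≤ Θ * (A - VJ) := by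
  have hσ : 0 < σ := lt_of_lt_of_le hε hεσ
  have e : E * (2 * f * p * σ) ^ 2 / (p ^ 2 * σ * Θ) = E * (4 * f ^ 2) * σ / Θ := by field_simp; ring
  rw [e] at h
  have h1 : E * (4 * f ^ 2) * σ / Θ ≤ A - VJ := by linarith
  rw [div_le_iff₀ hΘ] at h1
  have h2 : E * (4 * f ^ 2) * ε ≤ E * (4 * f ^ 2) * σ := mul_le_mul_of_nonneg_left hεσ (by positivity)
  linarith

/-- L-PH-T5.  **The two-cell inequality.**  `ph_join_var` with `S₀ = cutS b (arrQ m 2 1)`, `J = (arrJ m 2 1).sys b`, `r` from `arr_ref`, `O = Unit`, `ℓ _ = cutX (arrFlow m twoP)`, `hint` from `arr_int`, `twoP_flux`; `T = cutX (inFlow ..)`, `q _ = l`;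
`rowS ℓ (fun _ => l) = l • ℓ ()`, `secW = exp(-l²/2)`; `two_var0`, `two_sector`: `s²/a = 4 f² σ` (`rd_phi_pos`). -/
theorem two_ineq (b : ℝ) (hb : 0 < b) (m : ℕ) (hm : 0 < m) (l : ℤ) :
    Real.exp (-(l : ℝ) ^ 2 / 2) * (4 * fR b m l ^ 2) * Real.exp (-(4 * Real.pi ^ 2 * b * (l : ℝ) ^ 2 / m)) ≤
      secTheta Unit * (2 * aCoef b m - (arrJ m 2 1).var b (inFlow m fun v => (v.1 : ℝ) / m)) := by
  obtain ⟨r, hr⟩ := arr_ref b m 2 1 hm
  have h₀ := cutS_ok b hb (arrQ m 2 1)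
  have hJ := fr_ok (arrJ m 2 1) b hb
  obtain ⟨σ, hσ1, -, hσ3, hσ4⟩ := two_sector b hb m hm l
  have hint : ∀ (z : ((arrJ m 2 1).sys b).L) (o : Unit), ∃ c : ℤ,
      (fun _ : Unit => cutX b (arrQ m 2 1) (arrFlow m twoP)) o (r.psi z) = 2 * Real.pi * (c : ℝ) := by
    intro z _
    obtain ⟨c, hc⟩ := arr_int b m 2 1 hm twoP twoP_flux.1 twoP_flux.2.1 twoP_flux.2.2 z
    refine ⟨c, ?_⟩
    rw [← hc, ← hr]
    rfl
  have key := ph_join_var h₀ hJ r (fun _ : Unit => cutX b (arrQ m 2 1) (arrFlow m twoP)) hint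
    (cutX b (arrQ m 2 1) (inFlow m fun v => (v.1 : ℝ) / m)) (fun _ => l)
  have e1 : rowS (fun _ : Unit => cutX b (arrQ m 2 1) (arrFlow m twoP)) (fun _ => (l : ℝ))
      = (l : ℝ) • cutX b (arrQ m 2 1) (arrFlow m twoP) := by
    simp [rowS]
  have e2 : secW (fun _ : Unit => l) = Real.exp (-(l : ℝ) ^ 2 / 2) := by
    simp [secW]
  rw [e1, e2, hσ3, hσ4, two_var0 b hb m hm, hr] at key
  have hΘ : 0 < secTheta Unit :=
    lt_of_lt_of_le one_pos ((secSum_one_le _ h₀ (fun _ : Unit => cutX b (arrQ m 2 1) (arrFlow m twoP))).trans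
      (secSum_le_theta _ h₀ _ _))
  exact two_arith (Real.exp_pos _).le (rd_phi_pos (fr_ok _ b hb) _) (Real.exp_pos _) hσ1 hΘ key

/-! ## 2. One cell: the derivative of the ratio -/


theorem two_dv_pot (m : ℕ) (hm : 0 < m) (d : Fin 4) (v : ℤ × ℤ) (hv : v ∈ (C2.sq m).set) :
    (C2.sq m).dv (gd ((C2.sq m).pot d)) v = (C2.sq m).face d v - (C2.sq m).unif v :=
  lap_pot (C2.sq m) hm hm d v hv

/-- L-PH-T6.  `flowX_eq_of_dv`: both flows have the divergence `l ρ₀ - l δ_o` (`dv_pathFlow`, `lap_pot`, `sum_face`, `sum_unif`, `dv_add`, `dv_smul`, `flowX_add`, `flowX_smul`). -/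
theorem tR_eq (b : ℝ) (m : ℕ) (hm : 0 < m) (l : ℤ) : tR b m l = tU b m l + (l : ℝ) • tY b m := by
  have h1 : tU b m l + (l : ℝ) • tY b m = (C2.sq m).flowX b (fun e =>
      (C2.sq m).pathFlow (fun v => (l : ℝ) * (C2.sq m).unif v) e + (l : ℝ) * gd ((C2.sq m).pot 0) e) := by
    rw [flowX_add, flowX_smul]
    rfl
  rw [h1]
  refine flowX_eq_of_dv _ _ fun v hv => ?_
  rw [dv_add, dv_smul, dv_pathFlow _ _ _ hv, dv_pathFlow _ _ _ hv, two_sum_face m hm, two_sum_unif m hm, two_dv_pot m hm 0 v hv]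
  ring

theorem two_unif_refl (m : ℕ) {x : ℤ × ℤ} (hx : x ∈ (C2.sq m).set) : (C2.sq m).unif (reflX (m - 1) x) = (C2.sq m).unif x := by
  unfold Rc.unif
  rw [if_pos hx, if_pos (two_refl_mem m hx)]

/-- L-PH-T6.  `ph_law_eq` with `σ = reflX (m-1)`, `(u, w) = (gd (x/m), pathFlow (l u))`, `(u', w') = (- gd (x/m), pathFlow (l u))`: `E[X sin Θ₀] = E[-X sin Θ₀]`. -/
theorem tU_odd (b : ℝ) (m : ℕ) (hm : 0 < m) (l : ℤ) : ((C2.sq m).sys b).E0 (fun z => tX b m z * Real.sin (tU b m l z)) = 0 := by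
  have hw : ∀ x ∈ (C2.sq m).set, ∃ n : ℤ,
      (C2.sq m).dv ((C2.sq m).pathFlow fun v => (l : ℝ) * (C2.sq m).unif v) (reflX (m - 1) x) =
        (C2.sq m).dv (fun e => ((1 : ℤ) : ℝ) * (C2.sq m).pathFlow (fun v => (l : ℝ) * (C2.sq m).unif v) e) x + n := by
    intro x hx
    refine two_path_int m _ _ l l (two_sum_unif m hm _) (two_sum_unif m hm _) 1 x _ hx (two_refl_mem m hx) ?_
    rw [two_unif_refl m hx]; push_cast; ring
  have key := ph_law_eq (reflX (m - 1)) (latIso_reflX _) (C2.sq m) (C2.sq m) (fun v => (sq_refl m v).1) b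
    (fun e => -1 * gd (fun v : ℤ × ℤ => (v.1 : ℝ) / m) e) (gd fun v : ℤ × ℤ => (v.1 : ℝ) / m)
    (fun e => -1 * gd (fun v : ℤ × ℤ => (v.1 : ℝ) / m) e) (gd fun v : ℤ × ℤ => (v.1 : ℝ) / m)
    (fun e => ((1 : ℤ) : ℝ) * (C2.sq m).pathFlow (fun v => (l : ℝ) * (C2.sq m).unif v) e)
    ((C2.sq m).pathFlow fun v => (l : ℝ) * (C2.sq m).unif v)
    (two_refl_X m hm) (two_refl_X m hm) hw
  have eX : (C2.sq m).flowX b (fun e => -1 * gd (fun v : ℤ × ℤ => (v.1 : ℝ) / m) e) = (-1 : ℝ) • tX b m := flowX_smul _ _ _ _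
  have eU : (C2.sq m).flowX b (fun e => ((1 : ℤ) : ℝ) * (C2.sq m).pathFlow (fun v => (l : ℝ) * (C2.sq m).unif v) e)
      = (((1 : ℤ) : ℝ)) • tU b m l := flowX_smul _ _ _ _
  rw [eX, eU] at key
  have h := key fun x _ _ s => x * s
  have h2 : ((C2.sq m).sys b).E0 (fun z => ((-1 : ℝ) • tX b m) z * Real.sin ((((1 : ℤ) : ℝ) • tU b m l) z))
      = -1 * ((C2.sq m).sys b).E0 (fun z => tX b m z * Real.sin (tU b m l z)) := by
    rw [← rd_E0_smul]
    congr 1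
    funext z
    simp only [AddMonoidHom.smul_apply, smul_eq_mul]
    push_cast
    rw [one_mul]
    ring
  have h3 : ((C2.sq m).sys b).E0 (fun z => tX b m z * Real.sin (tU b m l z))
      = -1 * ((C2.sq m).sys b).E0 (fun z => tX b m z * Real.sin (tU b m l z)) := h.trans h2
  linarith

/-- L-PH-T6.  `Y' :=` test of `pot 1`.  `Y - Y' = X` (`flowX_eq_of_dv`, `lap_pot`, `lap_affine`); `Cov(X,Y') = - Cov(X,Y)` (`ph_law_eq` with `F x y _ _ = x y`, reflection: `X ↦ -X`, `Y ↦ Y'`); `Cov(X,X) = a_m` (`fr_aCoef_eq`); bilinearity: `rd_Cv0_eq`, `rd_E0_add`. -/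
theorem tXY_cov (b : ℝ) (hb : 0 < b) (m : ℕ) (hm : 0 < m) : ((C2.sq m).sys b).Cv 0 0 (tX b m) (tY b m) = aCoef b m / 2 := by
  have hS := fr_ok (C2.sq m) b hb
  obtain ⟨Y', hY'⟩ : ∃ Y' : ((C2.sq m).sys b).L →+ ℝ, Y' = (C2.sq m).gradX b ((C2.sq m).pot 1) := ⟨_, rfl⟩
  -- `X = Y - Y'`
  have h1 : tX b m = tY b m + (-1 : ℝ) • Y' := by
    have e : tY b m + (-1 : ℝ) • Y' = (C2.sq m).flowX b (fun e => gd ((C2.sq m).pot 0) e + -1 * gd ((C2.sq m).pot 1) e) := by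
      rw [flowX_add, flowX_smul, hY']
      rfl
    rw [e]
    refine flowX_eq_of_dv _ _ fun v hv => ?_
    rw [dv_add, dv_smul, two_dv_pot m hm 0 v hv, two_dv_pot m hm 1 v hv]
    have h2 : (C2.sq m).dv (gd fun v : ℤ × ℤ => (v.1 : ℝ) / m) v = (C2.sq m).face 0 v - (C2.sq m).face 1 v := (lap_affine m hm v hv).1
    rw [h2]
    ring
  -- reflection
  have hv : ∀ x ∈ (C2.sq m).set, (C2.sq m).dv (gd ((C2.sq m).pot 1)) (reflX (m - 1) x) = (C2.sq m).dv (gd ((C2.sq m).pot 0)) x := by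
    intro x hx
    rw [two_dv_pot m hm 1 _ (two_refl_mem m hx), two_dv_pot m hm 0 x hx, two_unif_refl m hx, (face_refl m x).1.2.1]
  have key := ph_law_eq (reflX (m - 1)) (latIso_reflX _) (C2.sq m) (C2.sq m) (fun v => (sq_refl m v).1) b
    (fun e => -1 * gd (fun v : ℤ × ℤ => (v.1 : ℝ) / m) e) (gd fun v : ℤ × ℤ => (v.1 : ℝ) / m)
    (gd ((C2.sq m).pot 0)) (gd ((C2.sq m).pot 1))
    (fun e => -1 * gd (fun v : ℤ × ℤ => (v.1 : ℝ) / m) e) (gd fun v : ℤ × ℤ => (v.1 : ℝ) / m)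
    (two_refl_X m hm) hv (fun x hx => ⟨0, by rw [two_refl_X m hm x hx]; simp⟩) (fun x y _ _ => x * y)
  have eX : (C2.sq m).flowX b (fun e => -1 * gd (fun v : ℤ × ℤ => (v.1 : ℝ) / m) e) = (-1 : ℝ) • tX b m := flowX_smul _ _ _ _
  rw [eX] at key
  have h2 : ((C2.sq m).sys b).E0 (fun z => tX b m z * Y' z) = -1 * ((C2.sq m).sys b).E0 (fun z => tX b m z * tY b m z) := by
    rw [← rd_E0_smul, hY']
    refine key.trans ?_
    congr 1
    funext z
    simp only [AddMonoidHom.smul_apply, smul_eq_mul]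
    have : (C2.sq m).flowX b (gd ((C2.sq m).pot 0)) z = tY b m z := rfl
    rw [this]
    ring
  have h3 : aCoef b m = ((C2.sq m).sys b).E0 (fun z => tX b m z * tX b m z) := by
    rw [fr_aCoef_eq]
    unfold Rc.var
    rw [rd_V0_eq]
    congr 1
    funext z
    rw [pow_two]
    rfl
  have h4 : ((C2.sq m).sys b).E0 (fun z => tX b m z * tX b m z) =
      ((C2.sq m).sys b).E0 (fun z => tX b m z * tY b m z) + -1 * ((C2.sq m).sys b).E0 (fun z => tX b m z * Y' z) := by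
    rw [← rd_E0_smul, ← rd_E0_add hS (rd_dom_mul (rd_dom_test _) (rd_dom_test _))
      (rd_dom_smul _ (rd_dom_mul (rd_dom_test _) (rd_dom_test _)))]
    congr 1
    funext z
    have : tX b m z = tY b m z + -1 * Y' z := by
      conv_lhs => rw [h1]
      simp only [AddMonoidHom.add_apply, AddMonoidHom.smul_apply, smul_eq_mul]
    calc tX b m z * tX b m z = tX b m z * (tY b m z + -1 * Y' z) := by rw [← this]
      _ = tX b m z * tY b m z + -1 * (tX b m z * Y' z) := by ring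
  rw [rd_Cv0_eq, h3, h4, h2]
  ring

/-- L-PH-T6.  `fr_var_ref`, `cost_pot`. -/
theorem tY_var (b : ℝ) (hb : 0 < b) (m : ℕ) : ((C2.sq m).sys b).V0 (tY b m) ≤ 4 * Real.pi ^ 2 * b := by
  have h := fr_var_ref (C2.sq m) b hb (gd ((C2.sq m).pot 0))
  have h2 := cost_pot m 0
  calc ((C2.sq m).sys b).V0 (tY b m) ≤ 4 * Real.pi ^ 2 * b * (C2.sq m).cost (gd ((C2.sq m).pot 0)) := h
    _ ≤ 4 * Real.pi ^ 2 * b * 1 := mul_le_mul_of_nonneg_left h2 (by positivity)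
    _ = 4 * Real.pi ^ 2 * b := mul_one _

/-- L-PH-T7.  **The ratio.**  `ph_segment_lower` (`θ = tU`, `Y = l • tY`, `V = 4π² b l²`: `rd_V0_smul`, `tY_var`), `ph_ratio_deriv` (`X = tX`, `Y = l • tY`, `θ = tU`), `tR_eq`, `tU_odd`, `tXY_cov` (`Cv` is linear in the second argument). -/
theorem two_ratio (b : ℝ) (hb : 0 < b) (m : ℕ) (hm : 0 < m) (l : ℤ) (r : ℝ) (hr : 0 < r) (h : r ≤ ((C2.sq m).sys b).phi (tU b m l)) :
    Real.exp (-(Real.sqrt (-Real.log r) + Real.sqrt (2 * Real.pi ^ 2 * b * (l : ℝ) ^ 2)) ^ 2) ≤ ((C2.sq m).sys b).phi (tR b m l) ∧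
    |fR b m l / ((C2.sq m).sys b).phi (tR b m l) - (l : ℝ) * aCoef b m / 2| ≤
      Real.sqrt (kap ((C2.sq m).sys b) (tX b m) ((l : ℝ) • tY b m) / 2) /
        Real.exp (-(Real.sqrt (-Real.log r) + Real.sqrt (2 * Real.pi ^ 2 * b * (l : ℝ) ^ 2)) ^ 2) ^ 2 := by
  have hS := fr_ok (C2.sq m) b hb
  have hV : ((C2.sq m).sys b).V0 ((l : ℝ) • tY b m) ≤ 2 * (2 * Real.pi ^ 2 * b * (l : ℝ) ^ 2) := by
    rw [rd_V0_smul]
    have := mul_le_mul_of_nonneg_left (tY_var b hb m) (sq_nonneg (l : ℝ))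
    linarith
  have hseg := ph_segment_lower ((C2.sq m).sys b) hS (tU b m l) ((l : ℝ) • tY b m) r _ hr h hV
  rw [mul_div_cancel_left₀ _ (two_ne_zero)] at hseg
  have hrat := ph_ratio_deriv ((C2.sq m).sys b) hS (tX b m) ((l : ℝ) • tY b m) (tU b m l) _ (Real.exp_pos _) hseg
  rw [← tR_eq b m hm l, tU_odd b m hm l, zero_div, sub_zero] at hrat
  have hc : ((C2.sq m).sys b).Cv 0 0 (tX b m) ((l : ℝ) • tY b m) = (l : ℝ) * aCoef b m / 2 := by
    have := fr_Cv_smul ((C2.sq m).sys b) 1 (l : ℝ) (tX b m) (tY b m)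
    rw [one_smul, tXY_cov b hb m hm] at this
    rw [this]; ring
  rw [hc] at hrat
  refine ⟨?_, hrat⟩
  have := hseg 1 zero_le_one le_rfl
  rwa [one_smul, ← tR_eq b m hm l] at this

/-! ## 3. The limit -/

theorem two_pot0 (m : ℕ) (u : ℤ × ℤ) : (C2.sq m).pot 0 u = (u.1 : ℝ) * ((u.1 : ℝ) + 1) / (2 * m * m) := by
  show ((u.1 - 0 : ℤ) : ℝ) * (((u.1 - 0 : ℤ) : ℝ) + 1) / (2 * m * m) = _
  rw [sub_zero]

theorem two_gd_pot0 (m : ℕ) (e : Bond) :
    gd ((C2.sq m).pot 0) e = if e.2 then ((e.1.1 : ℝ) + 1) / ((m : ℝ) * m) else 0 := by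
  obtain ⟨⟨x, y⟩, d⟩ := e
  cases d
  · show (C2.sq m).pot 0 (x, y + 1) - (C2.sq m).pot 0 (x, y) = _
    rw [two_pot0, two_pot0]
    simp
  · show (C2.sq m).pot 0 (x + 1, y) - (C2.sq m).pot 0 (x, y) = _
    rw [two_pot0, two_pot0, if_pos rfl]
    rcases Nat.eq_zero_or_pos m with rfl | hm
    · simp
    · have hM : (m : ℝ) ≠ 0 := Nat.cast_ne_zero.2 hm.ne'
      push_cast
      field_simp
      ring

theorem two_sq_mem (m : ℕ) {e : Bond} (he : e ∈ (C2.sq m).bd) :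
    ((0 ≤ e.1.1 ∧ e.1.1 < m) ∧ 0 ≤ e.1.2 ∧ e.1.2 < m) ∧ ((0 ≤ e.snd.1 ∧ e.snd.1 < m) ∧ 0 ≤ e.snd.2 ∧ e.snd.2 < m) := by
  have h := mem_bd.1 he
  rw [fr_mem_set, fr_mem_set] at h
  simpa [C2.sq] using h

theorem two_c2_x (m : ℕ) : C2bd 1 m (C2.sq m) fun v => (v.1 : ℝ) / m := by
  constructor
  · intro e _
    rw [two_gd_x]
    split_ifs
    · rw [abs_of_nonneg (by positivity)]
    · rw [abs_zero]; positivity
  · intro e _ u _ _
    rw [two_gd_x, two_gd_x, sub_self, abs_zero]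
    positivity

theorem two_c2_pot (m : ℕ) (l : ℝ) : C2bd |l| m (C2.sq m) fun v => l * (C2.sq m).pot 0 v := by
  have hg : ∀ e : Bond, gd (fun v => l * (C2.sq m).pot 0 v) e = l * gd ((C2.sq m).pot 0) e := fun e => by
    unfold gd; ring
  rcases Nat.eq_zero_or_pos m with rfl | hm
  · constructor
    · intro e he
      have := two_sq_mem 0 he
      push_cast at this
      omega
    · intro e he
      have := two_sq_mem 0 he
      push_cast at this
      omega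
  have hM : (0 : ℝ) < m := by exact_mod_cast hm
  constructor
  · intro e he
    have h := two_sq_mem m he
    rw [hg, two_gd_pot0, abs_mul]
    obtain ⟨⟨x, y⟩, d⟩ := e
    cases d
    · simp only [Bool.false_eq_true, if_false, abs_zero, mul_zero]
      positivity
    · simp only [Bond.snd, if_true] at h
      have h1 : (0 : ℝ) ≤ x := by exact_mod_cast h.1.1.1
      have h2 : (x : ℝ) + 1 ≤ m := by exact_mod_cast h.2.1.2.le
      simp only [if_true]
      rw [abs_of_nonneg (show (0 : ℝ) ≤ ((x : ℝ) + 1) / ((m : ℝ) * m) by positivity), div_eq_mul_inv |l|]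
      refine mul_le_mul_of_nonneg_left ?_ (abs_nonneg _)
      rw [div_le_iff₀ (by positivity)]
      calc (x : ℝ) + 1 ≤ m := h2
        _ = (m : ℝ)⁻¹ * (m * m) := by field_simp
  · intro e _ u hu _
    rw [hg, hg, two_gd_pot0, two_gd_pot0, ← mul_sub, abs_mul, div_eq_mul_inv |l|]
    refine mul_le_mul_of_nonneg_left ?_ (abs_nonneg _)
    obtain ⟨⟨x, y⟩, d⟩ := e
    cases d
    · simp only [Bool.false_eq_true, if_false, sub_self, abs_zero]
      positivity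
    · simp only [if_true]
      rcases hu with rfl | rfl
      · have : (((((x, y) : ℤ × ℤ) + (1, 0)).1 : ℤ) : ℝ) = (x : ℝ) + 1 := by simp
        rw [this]
        have e1 : ((x : ℝ) + 1 + 1) / ((m : ℝ) * m) - ((x : ℝ) + 1) / ((m : ℝ) * m) = ((m : ℝ) ^ 2)⁻¹ := by
          field_simp; ring
        rw [e1, abs_of_nonneg (by positivity)]
      · have : (((((x, y) : ℤ × ℤ) + (0, 1)).1 : ℤ) : ℝ) = (x : ℝ) := by simp
        rw [this, sub_self, abs_zero]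
        positivity

theorem two_npos {b : ℕ → ℝ} {n : ℕ → ℕ} {a : ℝ} (hS : ScaleCoef b n a) : ∀ᶠ k in atTop, 0 < n k :=
  hS.2.1.eventually (eventually_gt_atTop 0)

theorem two_a1 {b : ℕ → ℝ} {n : ℕ → ℕ} {a : ℝ} (hS : ScaleCoef b n a) :
    Tendsto (fun k => aCoef (b k) (n k)) atTop (𝓝 a) :=
  hS.2.2 n 1 1 one_pos (Eventually.of_forall fun k => ⟨by rw [one_mul], by rw [one_mul]⟩)

theorem two_a2 {b : ℕ → ℝ} {n : ℕ → ℕ} {a : ℝ} (hS : ScaleCoef b n a) :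
    Tendsto (fun k => aCoef (b k) (2 * n k)) atTop (𝓝 a) :=
  hS.2.2 (fun k => 2 * n k) 2 2 two_pos (Eventually.of_forall fun k => ⟨by push_cast; exact le_rfl, by push_cast; exact le_rfl⟩)

theorem two_bn {b : ℕ → ℝ} {n : ℕ → ℕ} {a : ℝ} (hS : ScaleCoef b n a) :
    Tendsto (fun k => b k / n k) atTop (𝓝 0) := by
  obtain ⟨⟨β₀, β₁, h0, hb⟩, hn, -⟩ := hS
  have h1 : Tendsto (fun k => β₁ / (n k : ℝ)) atTop (𝓝 0) :=
    (tendsto_const_nhds (x := β₁)).div_atTop (tendsto_natCast_atTop_atTop.comp hn)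
  refine squeeze_zero (fun k => ?_) (fun k => ?_) h1
  · exact div_nonneg (h0.le.trans (hb k).1) (Nat.cast_nonneg _)
  · exact div_le_div_of_nonneg_right (hb k).2 (Nat.cast_nonneg _)

/-- L-PH-T8 = LINK to T2.4.  `Free.fr_free_kap` on `R k = sq (n k)` (`Adm`: `K = 1`) for `g k = x/n_k` and `g' k = l · pot 0`; both are `Reg` by `Free.fr_reg_c2`: on `sq n`, `gd (x/n) = 1/n` or `0`; `gd (pot 0) = (x+1)/n² ≤ 1/n` or `0`, second differences `≤ 1/n²`
(`C2bd M n R g` with `M = |l| + 1`).  `l • gradX g = gradX (l g)` (`flowX_smul`).  (`n k = 0`: no bond.) -/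
theorem two_kap {b : ℕ → ℝ} {n : ℕ → ℕ} {a : ℝ} (hS : ScaleCoef b n a) (l : ℤ) :
    Tendsto (fun k => kap ((C2.sq (n k)).sys (b k)) (tX (b k) (n k)) ((l : ℝ) • tY (b k) (n k))) atTop (𝓝 0) := by
  have hR : Adm n fun k => C2.sq (n k) := by
    refine ⟨1, fun k => ?_⟩
    simp [C2.sq]
  have hg : Reg n (fun k => C2.sq (n k)) fun k v => (v.1 : ℝ) / n k := fr_reg_c2 _ 1 fun k => two_c2_x (n k)
  have hg' : Reg n (fun k => C2.sq (n k)) fun k v => (l : ℝ) * (C2.sq (n k)).pot 0 v :=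
    fr_reg_c2 _ |(l : ℝ)| fun k => two_c2_pot (n k) l
  have h := fr_free_kap hS hR hg hg'
  refine h.congr fun k => ?_
  have e : (C2.sq (n k)).gradX (b k) (fun v => (l : ℝ) * (C2.sq (n k)).pot 0 v) = (l : ℝ) • tY (b k) (n k) := by
    unfold tY Rc.gradX
    rw [← flowX_smul]
    congr 1
    funext e
    unfold gd
    ring
  rw [e]
  rfl

/-- L-PH-T9.  `ScaleCoef` at `m = n` and at `m = 2n`: `a_n, a_{2n} → a`; `b/n → 0` (`b ≤ β₁`); `two_varJ` gives `liminf Var_J ≥ 2a`; `two_ineq`; `exp(-4π² b l²/n) ≥ exp(-4π² β₁ l²)`.  Squeeze. -/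
theorem fR_tendsto {b : ℕ → ℝ} {n : ℕ → ℕ} {a : ℝ} (hS : ScaleCoef b n a) (l : ℤ) : Tendsto (fun k => fR (b k) (n k) l) atTop (𝓝 0) := by
  have ha : 0 ≤ a := fr_scaleCoef_nonneg hS
  have hbpos : ∀ k, 0 < b k := fr_l11_bpos hS
  obtain ⟨β₀, β₁, h0, hb⟩ := hS.1
  have hA1 := two_a1 hS
  have hA2 := two_a2 hS
  have hbn := two_bn hS
  -- `s k → √(2a)`
  have hs : Tendsto (fun k => max (Real.sqrt (2 * aCoef (b k) (2 * n k)) - 2 * Real.pi * Real.sqrt (b k / n k)) 0 ^ 2) atTop (𝓝 (2 * a)) := by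
    have h1 : Tendsto (fun k => Real.sqrt (2 * aCoef (b k) (2 * n k))) atTop (𝓝 (Real.sqrt (2 * a))) :=
      (Real.continuous_sqrt.tendsto _).comp (hA2.const_mul 2)
    have h2 : Tendsto (fun k => 2 * Real.pi * Real.sqrt (b k / n k)) atTop (𝓝 (2 * Real.pi * Real.sqrt 0)) :=
      ((Real.continuous_sqrt.tendsto _).comp hbn).const_mul _
    have h3 := (((h1.sub h2).max (tendsto_const_nhds (x := (0 : ℝ)))).pow 2)
    rw [Real.sqrt_zero, mul_zero, sub_zero, max_eq_left (Real.sqrt_nonneg _), Real.sq_sqrt (by positivity)] at h3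
    exact h3
  obtain ⟨c, hc⟩ : ∃ c : ℝ, c = Real.exp (-(l : ℝ) ^ 2 / 2) * 4 * Real.exp (-(4 * Real.pi ^ 2 * β₁ * (l : ℝ) ^ 2)) := ⟨_, rfl⟩
  have hcpos : 0 < c := by rw [hc]; positivity
  have hup : Tendsto (fun k => secTheta Unit * (2 * aCoef (b k) (n k) -
      max (Real.sqrt (2 * aCoef (b k) (2 * n k)) - 2 * Real.pi * Real.sqrt (b k / n k)) 0 ^ 2) / c) atTop (𝓝 0) := by
    have h := (((hA1.const_mul 2).sub hs).const_mul (secTheta Unit)).div_const c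
    rw [sub_self, mul_zero, zero_div] at h
    exact h
  have hΘ : 0 ≤ secTheta Unit := tsum_nonneg fun q => (Real.exp_pos _).le
  have hsq : Tendsto (fun k => fR (b k) (n k) l ^ 2) atTop (𝓝 0) := by
    refine squeeze_zero' (Eventually.of_forall fun k => sq_nonneg _) ?_ hup
    filter_upwards [two_npos hS] with k hk
    have hkR : (1 : ℝ) ≤ n k := by exact_mod_cast hk
    have h1 := two_ineq (b k) (hbpos k) (n k) hk l
    have h2 := two_varJ (b k) (hbpos k) (n k) hk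
    have hV := fr_var_nonneg (arrJ (n k) 2 1) (b k) (hbpos k) (inFlow (n k) fun v => (v.1 : ℝ) / n k)
    have h3 : max (Real.sqrt (2 * aCoef (b k) (2 * n k)) - 2 * Real.pi * Real.sqrt (b k / n k)) 0 ^ 2 ≤
        (arrJ (n k) 2 1).var (b k) (inFlow (n k) fun v => (v.1 : ℝ) / n k) := by
      rw [← Real.sq_sqrt hV]
      refine pow_le_pow_left₀ (le_max_right _ _) (max_le (by linarith) (Real.sqrt_nonneg _)) 2
    have h4 : Real.exp (-(4 * Real.pi ^ 2 * β₁ * (l : ℝ) ^ 2)) ≤ Real.exp (-(4 * Real.pi ^ 2 * b k * (l : ℝ) ^ 2 / n k)) := by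
      apply Real.exp_le_exp.2
      rw [neg_le_neg_iff, div_le_iff₀ (by linarith)]
      have h5 : 4 * Real.pi ^ 2 * b k * (l : ℝ) ^ 2 ≤ 4 * Real.pi ^ 2 * β₁ * (l : ℝ) ^ 2 := by
        have := (hb k).2
        gcongr
      have h6 : 0 ≤ 4 * Real.pi ^ 2 * β₁ * (l : ℝ) ^ 2 := by
        have : 0 ≤ β₁ := (h0.le.trans (hb k).1).trans (hb k).2
        positivity
      nlinarith
    rw [le_div_iff₀ hcpos]
    calc fR (b k) (n k) l ^ 2 * c
        = Real.exp (-(l : ℝ) ^ 2 / 2) * (4 * fR (b k) (n k) l ^ 2) * Real.exp (-(4 * Real.pi ^ 2 * β₁ * (l : ℝ) ^ 2)) := by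
          rw [hc]; ring
      _ ≤ Real.exp (-(l : ℝ) ^ 2 / 2) * (4 * fR (b k) (n k) l ^ 2) * Real.exp (-(4 * Real.pi ^ 2 * b k * (l : ℝ) ^ 2 / n k)) :=
          mul_le_mul_of_nonneg_left h4 (by positivity)
      _ ≤ _ := h1
      _ ≤ _ := mul_le_mul_of_nonneg_left (by linarith) hΘ
  have habs : Tendsto (fun k => |fR (b k) (n k) l|) atTop (𝓝 0) := by
    have h := (Real.continuous_sqrt.tendsto _).comp hsq
    rw [Real.sqrt_zero] at h
    refine h.congr fun k => ?_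
    exact Real.sqrt_sq_eq_abs _
  exact (tendsto_zero_iff_abs_tendsto_zero _).2 habs

/-- L-PH-T10.  **[C](2.9) on squares.**  `χ_k ≥ 0`.  If `χ_k` does not tend to `0` there is `r > 0` with `χ_k ≥ r` frequently (`Filter.not_tendsto`-type argument, or `tendsto_order`).  For these `k`, with `c = exp(-(√(-log r) + √(2π² β₁ l²))²)` (monotone in `b ≤ β₁`):
`|f_k| ≥ c (|l| a_{n_k}/2 - √(κ_k/2)/c²)` (`two_ratio`), which is eventually `≥ c |l| a/4 > 0` (`two_kap`, `ScaleCoef`): contradiction with `fR_tendsto` (`Filter.Frequently.and_eventually`). -/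
theorem uniform_sq {b : ℕ → ℝ} {n : ℕ → ℕ} {a : ℝ} (hS : ScaleCoef b n a) (ha : 0 < a) (l : ℤ) (hl : l ≠ 0) :
    Tendsto (fun k => ((C2.sq (n k)).sys (b k)).phi (tU (b k) (n k) l)) atTop (𝓝 0) := by
  obtain ⟨β₀, β₁, h0, h1⟩ := hS.1
  have hb : ∀ k, 0 < b k := fun k => lt_of_lt_of_le h0 (h1 k).1
  have hχpos : ∀ k, 0 < ((C2.sq (n k)).sys (b k)).phi (tU (b k) (n k) l) := fun k => (ph_pos (C2.sq (n k)) (b k) (hb k) _).1
  rw [tendsto_order]
  refine ⟨fun r hr => Eventually.of_forall fun k => lt_trans hr (hχpos k), fun r hr => ?_⟩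
  by_contra hcon
  have hfreq : ∃ᶠ k in atTop, r ≤ ((C2.sq (n k)).sys (b k)).phi (tU (b k) (n k) l) := by
    rw [Filter.not_eventually] at hcon
    exact hcon.mono fun k hk => not_lt.1 hk
  have hlR : (0 : ℝ) < |(l : ℝ)| := abs_pos.2 (by exact_mod_cast hl)
  set c : ℝ := Real.exp (-(Real.sqrt (-Real.log r) + Real.sqrt (2 * Real.pi ^ 2 * β₁ * (l : ℝ) ^ 2)) ^ 2) with hcdef
  have hc : 0 < c := Real.exp_pos _
  have hδ : 0 < c * (|(l : ℝ)| * a / 4) := by positivity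
  have halim : Tendsto (fun k => aCoef (b k) (n k)) atTop (𝓝 a) :=
    hS.2.2 n 1 1 one_pos (Eventually.of_forall fun k => ⟨by simp, by simp⟩)
  have hsq : Tendsto (fun k => Real.sqrt (kap ((C2.sq (n k)).sys (b k)) (tX (b k) (n k)) ((l : ℝ) • tY (b k) (n k)) / 2)) atTop (𝓝 0) := by
    have h2 := ((two_kap hS l).div_const 2).sqrt
    simpa using h2
  have e1 : ∀ᶠ k in atTop, 3 * a / 4 < aCoef (b k) (n k) := (tendsto_order.1 halim).1 _ (by linarith)
  have e2 : ∀ᶠ k in atTop, Real.sqrt (kap ((C2.sq (n k)).sys (b k)) (tX (b k) (n k)) ((l : ℝ) • tY (b k) (n k)) / 2)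
      < c ^ 2 * (|(l : ℝ)| * a / 8) := (tendsto_order.1 hsq).2 _ (by positivity)
  have e3 : ∀ᶠ k in atTop, |fR (b k) (n k) l| < c * (|(l : ℝ)| * a / 4) := by
    have h2 := (fR_tendsto hS l).abs
    rw [abs_zero] at h2
    exact (tendsto_order.1 h2).2 _ hδ
  have e4 : ∀ᶠ k in atTop, 1 ≤ n k := hS.2.1.eventually_ge_atTop 1
  obtain ⟨k, hk, k1, k2, k3, k4⟩ := (hfreq.and_eventually (e1.and (e2.and (e3.and e4)))).exists
  obtain ⟨t1, t2⟩ := two_ratio (b k) (hb k) (n k) k4 l r hr hk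
  set ck : ℝ := Real.exp (-(Real.sqrt (-Real.log r) + Real.sqrt (2 * Real.pi ^ 2 * b k * (l : ℝ) ^ 2)) ^ 2) with hckdef
  have hcck : c ≤ ck := by
    refine Real.exp_le_exp.2 (neg_le_neg (pow_le_pow_left₀ (by positivity) (add_le_add le_rfl (Real.sqrt_le_sqrt ?_)) 2))
    have : 2 * Real.pi ^ 2 * b k ≤ 2 * Real.pi ^ 2 * β₁ := mul_le_mul_of_nonneg_left (h1 k).2 (by positivity)
    exact mul_le_mul_of_nonneg_right this (sq_nonneg _)
  set P : ℝ := ((C2.sq (n k)).sys (b k)).phi (tR (b k) (n k) l) with hPdef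
  set κ : ℝ := Real.sqrt (kap ((C2.sq (n k)).sys (b k)) (tX (b k) (n k)) ((l : ℝ) • tY (b k) (n k)) / 2) with hκdef
  set f : ℝ := fR (b k) (n k) l with hfdef
  set ak : ℝ := aCoef (b k) (n k) with hakdef
  have hP : 0 < P := lt_of_lt_of_le (Real.exp_pos _) t1
  have u1 : κ / ck ^ 2 ≤ κ / c ^ 2 :=
    div_le_div_of_nonneg_left (Real.sqrt_nonneg _) (by positivity) (pow_le_pow_left₀ hc.le hcck 2)
  have u2 : κ / c ^ 2 < |(l : ℝ)| * a / 8 := by
    rw [div_lt_iff₀ (by positivity)]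
    linarith [k2]
  have u3 : |(l : ℝ) * ak / 2| - |f / P| ≤ |f / P - (l : ℝ) * ak / 2| := by
    have := abs_sub_abs_le_abs_sub ((l : ℝ) * ak / 2) (f / P)
    rwa [abs_sub_comm] at this
  have hak : 0 < ak := lt_trans (by positivity) k1
  have u4 : |(l : ℝ) * ak / 2| = |(l : ℝ)| * ak / 2 := by
    rw [abs_div, abs_mul, abs_of_pos hak, abs_two]
  have u5 : |(l : ℝ)| * a / 4 < |f / P| := by
    have : |(l : ℝ)| * (3 * a / 4) ≤ |(l : ℝ)| * ak := mul_le_mul_of_nonneg_left k1.le (abs_nonneg _)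
    rw [u4] at u3
    linarith
  have u6 : |f| = P * |f / P| := by
    rw [abs_div, abs_of_pos hP, mul_div_cancel₀ _ hP.ne']
  have u7 : c * (|(l : ℝ)| * a / 4) ≤ |f| := by
    rw [u6]
    exact mul_le_mul (hcck.trans t1) u5.le (by positivity) hP.le
  linarith

/-- L-PH-T11 (= `C2.uniform_phase`, squares).  `chr_eq_ph`, `flowX_add`, `ph_transfer_zero` (`V = 4π² β₁ C`: `fr_var_ref`), `uniform_sq`. -/
theorem uniform_chr {b : ℕ → ℝ} {n : ℕ → ℕ} {a : ℝ} (hS : ScaleCoef b n a) (ha : 0 < a) (l : ℤ) (hl : l ≠ 0)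
    (w : ℕ → Bond → ℝ) (C : ℝ) (hw : ∀ k, (C2.sq (n k)).cost (w k) ≤ C) :
    Tendsto (fun k => (C2.sq (n k)).chr (b k) (fun v => (l : ℝ) * (C2.sq (n k)).unif v) (w k)) atTop (𝓝 0) := by
  obtain ⟨β₀, β₁, h0, h1⟩ := hS.1
  have hb : ∀ k, 0 < b k := fun k => lt_of_lt_of_le h0 (h1 k).1
  have hC : 0 ≤ C := le_trans (Finset.sum_nonneg fun e _ => sq_nonneg _) (hw 0)
  have h := ph_transfer_zero (fun k => (C2.sq (n k)).sys (b k)) (fun k => fr_ok _ _ (hb k)) (fun k => tU (b k) (n k) l)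
    (fun k => (C2.sq (n k)).flowX (b k) (w k)) (4 * Real.pi ^ 2 * β₁ * C) (fun k => by
      have h2 := fr_var_ref (C2.sq (n k)) (b k) (hb k) (w k)
      unfold Rc.var at h2
      refine h2.trans ?_
      have h3 : 4 * Real.pi ^ 2 * b k ≤ 4 * Real.pi ^ 2 * β₁ := mul_le_mul_of_nonneg_left (h1 k).2 (by positivity)
      exact mul_le_mul h3 (hw k) (Finset.sum_nonneg fun e _ => sq_nonneg _) (by have := (hb k).le.trans (h1 k).2; positivity))
    (uniform_sq hS ha l hl)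
  refine h.congr fun k => ?_
  rw [chr_eq_ph]
  unfold Rc.ph tU
  rw [← flowX_add]
  congr 1
  exact flowX_congr _ _ fun e _ => by ring

/-- L-PH-T11.  Cells with a nonzero integer charge are invisible in the limit: `cph_eq_chr`, `cost_fpot`, `uniform_chr` (`n k > 0` eventually). -/
theorem cph_tendsto_zero {b : ℕ → ℝ} {n : ℕ → ℕ} {a : ℝ} (hS : ScaleCoef b n a) (ha : 0 < a) (H : Fin 4 → ℝ) (l : ℤ) (hl : l ≠ 0)
    (hH : ∑ d, H d = l) : Tendsto (fun k => cph (b k) (n k) H) atTop (𝓝 0) := by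
  have h := uniform_chr hS ha l hl (fun k => gd fun v => ∑ d, H d * (C2.sq (n k)).pot d v) (4 * ∑ d, H d ^ 2)
    (fun k => cost_fpot (n k) H)
  refine h.congr' ?_
  filter_upwards [hS.2.1.eventually_ge_atTop 1] with k hk
  rw [cph_eq_chr (b k) (n k) hk H, hH]

end

end Claimed.Agent.R285.Phase
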